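import Crest.Agent.R091.Defs
import Crest.Agent.R091.C0

/-! # Row 91: existence of absorbing isometries and of contexts -/

set_option autoImplicit false

namespace Crest.Agent.R091

open Filter TopologicalSpace
open scoped Topology

/-- every separable infinite dimensional real Hilbert space is isometric to `ℓ²` -/
theorem exists_iso_l2 (K : Type) [NormedAddCommGroup K] [InnerProductSpace ℝ K] [CompleteSpace K]
    [SeparableSpace K] (hK : ¬ FiniteDimensional ℝ K) : Nonempty (K ≃ₗᵢ[ℝ] Y) := by
  obtain ⟨w, b, hb⟩ := exists_hilbertBasis ℝ K
  have horth : Orthonormal ℝ (b : w → K) := b.orthonormal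
  have hcount : Countable w := by
    have hdist : ∀ i j : w, i ≠ j → 1 ≤ dist (b i) (b j) := by
      intro i j hij
      have h0 : inner ℝ (b i) (b j) = 0 := horth.2 hij
      have h1 : ‖b i - b j‖ ^ 2 = 2 := by
        rw [@norm_sub_sq ℝ]
        rw [h0, horth.1 i, horth.1 j]
        norm_num
      rw [dist_eq_norm]
      nlinarith [norm_nonneg (b i - b j)]
    have hd : Pairwise (Function.onFun Disjoint fun i : w => Metric.ball (b i) (1 / 2)) := by
      intro i j hij
      exact Metric.ball_disjoint_ball (by have := hdist i j hij; linarith)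
    have := hd.countable_of_isOpen_disjoint (fun i => Metric.isOpen_ball)
      (fun i => ⟨b i, Metric.mem_ball_self (by norm_num)⟩)
    exact this
  have hinf : Infinite w := by
    by_contra hfin
    rw [not_infinite_iff_finite] at hfin
    have := Fintype.ofFinite w
    exact hK (b.toOrthonormalBasis.toBasis.finiteDimensional_of_finite)
  obtain ⟨hden⟩ := nonempty_denumerable w
  let f : ℕ ≃ w := (Denumerable.eqv w).symm
  have ho : Orthonormal ℝ (fun n => b (f n)) := horth.comp f f.injective
  have hsp : ⊤ ≤ (Submodule.span ℝ (Set.range fun n => b (f n))).topologicalClosure := by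
    have : Set.range (fun n => b (f n)) = Set.range b := f.surjective.range_comp b
    rw [this, b.dense_span]
  exact ⟨(HilbertBasis.mk ho hsp).repr⟩

theorem separable_Y : SeparableSpace Y := separable_lp2

theorem not_finite_Y : ¬ FiniteDimensional ℝ Y := by
  intro h
  have hli : LinearIndependent ℝ (fun n : ℕ => (lp.single 2 n (1 : ℝ) : Y)) := by
    have : Orthonormal ℝ (fun n : ℕ => (lp.single 2 n (1 : ℝ) : Y)) := by
      rw [orthonormal_iff_ite]
      intro i j
      rw [lp.inner_single_left]
      simp [lp.single_apply, Pi.single_apply]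
    exact this.linearIndependent
  have := hli.finite
  exact not_finite ℕ

theorem not_finite_prod (H : Type) [NormedAddCommGroup H] [InnerProductSpace ℝ H] :
    ¬ FiniteDimensional ℝ (WithLp 2 (H × Y)) := by
  intro h
  let f : Y →ₗ[ℝ] WithLp 2 (H × Y) :=
    (WithLp.linearEquiv 2 ℝ (H × Y)).symm.toLinearMap.comp (LinearMap.inr ℝ H Y)
  have hf : Function.Injective f :=
    (WithLp.linearEquiv 2 ℝ (H × Y)).symm.injective.comp LinearMap.inr_injective
  exact not_finite_Y (FiniteDimensional.of_injective f hf)

theorem exists_J_real : Nonempty (WithLp 2 (ℝ × Y) ≃ₗᵢ[ℝ] Y) := by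
  have : SeparableSpace Y := separable_Y
  have : SecondCountableTopology Y := UniformSpace.secondCountable_of_separable Y
  exact exists_iso_l2 _ (not_finite_prod ℝ)

theorem exists_J_l2 : Nonempty (WithLp 2 (Y × Y) ≃ₗᵢ[ℝ] Y) := by
  have : SeparableSpace Y := separable_Y
  have : SecondCountableTopology Y := UniformSpace.secondCountable_of_separable Y
  exact exists_iso_l2 _ (not_finite_prod Y)

/-- contexts exist for separable `H` as soon as there is an absorbing isometry -/
theorem exists_ctx {H : Type} [NormedAddCommGroup H] [InnerProductSpace ℝ H] [CompleteSpace H]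
    [SeparableSpace H] (J : WithLp 2 (H × Y) ≃ₗᵢ[ℝ] Y) :
    Nonempty (Ctx H) := by
  have : SeparableSpace Y := separable_Y
  have : SeparableSpace V := separable_lp2
  have : SecondCountableTopology V := UniformSpace.secondCountable_of_separable V
  have : SecondCountableTopology H := UniformSpace.secondCountable_of_separable H
  have : SecondCountableTopology (HV H) := inferInstance
  obtain ⟨en, hen⟩ := exists_surjective_nat GG
  have : Nonempty (Metric.closedBall (0 : HV H) 1) := ⟨⟨0, by simp⟩⟩
  refine ⟨{ J := J
            e := fun s => (denseSeq (Metric.closedBall (0 : HV H) 1) s : HV H)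
            he1 := fun s => by
              have := (denseSeq (Metric.closedBall (0 : HV H) 1) s).2
              rwa [mem_closedBall_zero_iff] at this
            hed := ?_
            dv := denseSeq V
            hdv := denseRange_denseSeq V
            en := en
            hen := hen }⟩
  intro x hx ε hε
  have hd := denseRange_denseSeq (Metric.closedBall (0 : HV H) 1)
  obtain ⟨s, hs⟩ := Metric.denseRange_iff.1 hd ⟨x, by simpa using hx⟩ ε hε
  refine ⟨s, ?_⟩
  rw [Subtype.dist_eq, dist_eq_norm] at hs
  exact hs

end Crest.Agent.R091
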