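/-
Row 91 (S0120, S0121).  Reduction of both statements to one main theorem
`MainFor H` for `H = ℝ` and `H = ℓ₂`.
-/
import Mathlib

set_option autoImplicit false
set_option linter.unusedSectionVars false

open Filter Topology Set
open scoped ZeroAtInfty

namespace Crest.Agent.R091

/-- `Z` contains no "c₀-sequence": a sequence with bounded signed (convex) finite sums is not
bounded below in norm. -/
def NoC0 (Z : Type) [NormedAddCommGroup Z] [NormedSpace ℝ Z] : Prop :=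
  ∀ (z : ℕ → Z) (K c : ℝ), 0 < c →
    (∀ (F : Finset ℕ) (ε : ℕ → ℝ), (∀ n, |ε n| ≤ 1) → ‖∑ n ∈ F, ε n • z n‖ ≤ K) →
    ∃ n, ‖z n‖ < c

/-- The main theorem for the Hilbert space `H`. -/
def MainFor (H : Type) [NormedAddCommGroup H] [NormedSpace ℝ H] : Prop :=
  ∃ (Z : Type) (_ : NormedAddCommGroup Z) (_ : NormedSpace ℝ Z),
    CompleteSpace Z ∧ TopologicalSpace.SeparableSpace Z ∧ NoC0 Z ∧
    ∃ Ψ : C₀(ℕ, H) × Z → Z, Function.Bijective Ψ ∧
      ∀ s t : C₀(ℕ, H) × Z,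
        (4 / 21 : ℝ) * ‖s - t‖ ≤ ‖Ψ s - Ψ t‖ ∧ ‖Ψ s - Ψ t‖ ≤ (76 / 25 : ℝ) * ‖s - t‖

section C0

variable {H : Type} [NormedAddCommGroup H] [NormedSpace ℝ H]

/-- An element of `C₀(ℕ,H)` from a null sequence. -/
def ofNull (f : ℕ → H) (hf : Tendsto f atTop (𝓝 0)) : C₀(ℕ, H) where
  toFun := f
  continuous_toFun := continuous_of_discreteTopology
  zero_at_infty' := by
    rw [cocompact_eq_cofinite, Nat.cofinite_eq_atTop]; exact hf

@[simp] lemma ofNull_apply (f : ℕ → H) (hf : Tendsto f atTop (𝓝 0)) (n : ℕ) :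
    ofNull f hf n = f n := rfl

lemma C0_tendsto (f : C₀(ℕ, H)) : Tendsto (fun n => f n) atTop (𝓝 0) := by
  have h := f.zero_at_infty'
  rw [cocompact_eq_cofinite, Nat.cofinite_eq_atTop] at h
  exact h

lemma C0_apply_le (f : C₀(ℕ, H)) (n : ℕ) : ‖f n‖ ≤ ‖f‖ := by
  have := f.toBCF.norm_coe_le_norm n
  rw [ZeroAtInftyContinuousMap.norm_toBCF_eq_norm] at this
  exact this

lemma C0_norm_le {f : C₀(ℕ, H)} {C : ℝ} (hC : 0 ≤ C) (h : ∀ n, ‖f n‖ ≤ C) : ‖f‖ ≤ C := by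
  rw [← ZeroAtInftyContinuousMap.norm_toBCF_eq_norm]
  exact (BoundedContinuousFunction.norm_le hC).2 h

/-- The vector `h` in position `n`. -/
noncomputable def sgl (n : ℕ) : H →ₗ[ℝ] C₀(ℕ, H) where
  toFun h := ofNull (Pi.single n h) (by
    refine tendsto_const_nhds.congr' ?_
    filter_upwards [eventually_gt_atTop n] with m hm
    simp [hm.ne'])
  map_add' a b := by
    ext m
    simp only [ofNull_apply, ZeroAtInftyContinuousMap.coe_add, Pi.add_apply]
    rw [Pi.single_add]; rfl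
  map_smul' r a := by
    ext m
    simp only [ofNull_apply, ZeroAtInftyContinuousMap.coe_smul, Pi.smul_apply, RingHom.id_apply]
    by_cases h : m = n
    · subst h; simp
    · simp [h]

lemma sgl_apply (n m : ℕ) (h : H) : (sgl n h : C₀(ℕ, H)) m = if m = n then h else 0 := by
  show (Pi.single n h : ℕ → H) m = _
  simp [Pi.single_apply]

lemma norm_sgl (n : ℕ) (h : H) : ‖(sgl n h : C₀(ℕ, H))‖ = ‖h‖ := by
  apply le_antisymm
  · refine C0_norm_le (norm_nonneg _) fun m => ?_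
    rw [sgl_apply]; split_ifs
    · exact le_rfl
    · simp
  · have := C0_apply_le (sgl n h : C₀(ℕ, H)) n
    rwa [sgl_apply, if_pos rfl] at this

lemma C0_sum_apply (F : Finset ℕ) (g : ℕ → C₀(ℕ, H)) (m : ℕ) :
    (∑ n ∈ F, g n) m = ∑ n ∈ F, g n m := by
  classical
  induction F using Finset.induction_on with
  | empty => simp
  | insert a s ha ih => rw [Finset.sum_insert ha, Finset.sum_insert ha]; simp [ih]

lemma norm_sum_sgl_le (h : H) (F : Finset ℕ) (ε : ℕ → ℝ) (hε : ∀ n, |ε n| ≤ 1) :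
    ‖∑ n ∈ F, ε n • (sgl n h : C₀(ℕ, H))‖ ≤ ‖h‖ := by
  refine C0_norm_le (norm_nonneg _) fun m => ?_
  rw [C0_sum_apply]
  have : ∀ n ∈ F, (ε n • (sgl n h : C₀(ℕ, H))) m = if m = n then ε n • h else 0 := by
    intro n _
    rw [ZeroAtInftyContinuousMap.coe_smul, Pi.smul_apply, sgl_apply]
    split_ifs <;> simp
  rw [Finset.sum_congr rfl this, Finset.sum_ite_eq]
  split_ifs
  · rw [norm_smul, Real.norm_eq_abs]
    calc |ε m| * ‖h‖ ≤ 1 * ‖h‖ := by gcongr; exact hε m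
      _ = ‖h‖ := one_mul _
  · simp

/-- `C₀(ℕ,H)` is separable for separable `H`. -/
theorem separable_C0 [TopologicalSpace.SeparableSpace H] :
    TopologicalSpace.SeparableSpace C₀(ℕ, H) := by
  have hcont : ∀ n : ℕ, Continuous (fun h : H => (sgl n h : C₀(ℕ, H))) := by
    intro n
    refine (LipschitzWith.of_dist_le_mul (K := 1) fun a b => ?_).continuous
    rw [dist_eq_norm, dist_eq_norm, ← map_sub, norm_sgl]; simp
  let T : (N : ℕ) → (Fin N → H) → C₀(ℕ, H) := fun N h => ∑ i : Fin N, sgl (i : ℕ) (h i)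
  have hT : ∀ N, TopologicalSpace.IsSeparable (range (T N)) := by
    intro N
    refine TopologicalSpace.isSeparable_range ?_
    exact continuous_finsetSum _ fun i _ => (hcont i).comp (continuous_apply i)
  have hU : TopologicalSpace.IsSeparable (⋃ N, range (T N)) :=
    TopologicalSpace.IsSeparable.iUnion hT
  have hd : closure (⋃ N, range (T N)) = univ := by
    refine eq_univ_of_forall fun f => ?_
    rw [Metric.mem_closure_iff]
    intro ε hε
    have h1 := C0_tendsto f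
    rw [Metric.tendsto_atTop] at h1
    obtain ⟨N, hN⟩ := h1 (ε / 2) (by positivity)
    refine ⟨T N (fun i => f i), mem_iUnion.2 ⟨N, mem_range_self _⟩, ?_⟩
    rw [dist_eq_norm]
    refine lt_of_le_of_lt (C0_norm_le (C := ε / 2) (by positivity) fun m => ?_) (by linarith)
    have hTm : (T N fun i => f i) m = if m < N then f m else 0 := by
      show (∑ i : Fin N, sgl (i : ℕ) (f i) : C₀(ℕ, H)) m = _
      rw [Finset.sum_fin_eq_sum_range, C0_sum_apply]
      have : ∀ n ∈ Finset.range N,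
          ((if h : n < N then sgl (((⟨n, h⟩ : Fin N) : ℕ)) (f ((⟨n, h⟩ : Fin N) : ℕ)) else 0 :
            C₀(ℕ, H)) m) = if m = n then f n else 0 := by
        intro n hn
        rw [dif_pos (Finset.mem_range.1 hn), sgl_apply]
      rw [Finset.sum_congr rfl this, Finset.sum_ite_eq]
      simp only [Finset.mem_range]
    rw [ZeroAtInftyContinuousMap.coe_sub, Pi.sub_apply, hTm]
    split_ifs with hm
    · simp; positivity
    · have := hN m (not_lt.1 hm)
      rw [dist_zero_right] at this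
      rw [sub_zero]; exact this.le
  rw [← TopologicalSpace.isSeparable_univ_iff, ← hd]
  exact hU.closure

end C0

lemma nontrivial_l2 : Nontrivial (lp (fun _ : ℕ => ℝ) 2) := by
  refine ⟨⟨lp.single 2 0 1, 0, fun h => ?_⟩⟩
  have h1 := (lp.isometry_single (E := fun _ : ℕ => ℝ) (p := 2) 0).dist_eq 1 0
  rw [lp.single_zero, h, dist_self] at h1
  simp at h1

theorem separable_l2 : TopologicalSpace.SeparableSpace (lp (fun _ : ℕ => ℝ) 2) := by
  have hcont : ∀ n : ℕ, Continuous (fun h : ℝ => (lp.single 2 n h : lp (fun _ : ℕ => ℝ) 2)) :=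
    fun n => (lp.isometry_single (E := fun _ : ℕ => ℝ) (p := 2) n).continuous
  let T : (F : Finset ℕ) → (ℕ → ℝ) → lp (fun _ : ℕ => ℝ) 2 := fun F h => ∑ i ∈ F, lp.single 2 i (h i)
  have hT : ∀ N, TopologicalSpace.IsSeparable (range (T N)) := by
    intro N
    refine TopologicalSpace.isSeparable_range ?_
    exact continuous_finsetSum _ fun i _ => (hcont i).comp (continuous_apply i)
  have hU : TopologicalSpace.IsSeparable (⋃ N, range (T N)) :=
    TopologicalSpace.IsSeparable.iUnion hT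
  have hd : closure (⋃ N, range (T N)) = univ := by
    refine eq_univ_of_forall fun f => ?_
    have h1 : HasSum (fun i : ℕ => (lp.single 2 i (f i) : lp (fun _ : ℕ => ℝ) 2)) f :=
      lp.hasSum_single (by norm_num) f
    have h2 : Tendsto (fun F : Finset ℕ => T F (fun n => f n)) atTop (𝓝 f) := h1
    refine mem_closure_of_tendsto h2 (Eventually.of_forall fun F => ?_)
    exact mem_iUnion.2 ⟨F, mem_range_self _⟩
  rw [← TopologicalSpace.isSeparable_univ_iff, ← hd]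
  exact hU.closure

/-- A closed subspace isomorphic to `C₀(ℕ,H)` contradicts `NoC0`. -/
theorem NoC0.no_embedding {Z : Type} [NormedAddCommGroup Z] [NormedSpace ℝ Z] (hZ : NoC0 Z)
    {H : Type} [NormedAddCommGroup H] [NormedSpace ℝ H] [Nontrivial H]
    (T : C₀(ℕ, H) →L[ℝ] Z) (c : ℝ) (hc : 0 < c) (hT : ∀ f, c * ‖f‖ ≤ ‖T f‖) : False := by
  obtain ⟨h, hh⟩ := exists_ne (0 : H)
  have hh' : 0 < ‖h‖ := norm_pos_iff.2 hh
  obtain ⟨n, hn⟩ := hZ (fun n => T (sgl n h)) (‖T‖ * ‖h‖) (c * ‖h‖) (by positivity) (by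
    intro F ε hε
    have : ∑ n ∈ F, ε n • T (sgl n h) = T (∑ n ∈ F, ε n • sgl n h) := by
      rw [map_sum]; simp
    rw [this]
    calc ‖T (∑ n ∈ F, ε n • sgl n h)‖ ≤ ‖T‖ * ‖∑ n ∈ F, ε n • (sgl n h : C₀(ℕ, H))‖ :=
          T.le_opNorm _
      _ ≤ ‖T‖ * ‖h‖ := by gcongr; exact norm_sum_sgl_le h F ε hε)
  have h1 := hT (sgl n h)
  rw [norm_sgl] at h1
  linarith

theorem NoC0.isEmpty_closed {Z : Type} [NormedAddCommGroup Z] [NormedSpace ℝ Z] (hZ : NoC0 Z)
    (H : Type) [NormedAddCommGroup H] [NormedSpace ℝ H] [Nontrivial H]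
    (S : Submodule ℝ Z) : IsEmpty (S ≃L[ℝ] C₀(ℕ, H)) := by
  constructor
  intro e
  obtain ⟨K, hK, hK'⟩ := e.toContinuousLinearMap.bound
  refine hZ.no_embedding (S.subtypeL.comp e.symm.toContinuousLinearMap) K⁻¹ (by positivity) ?_
  intro f
  have := hK' (e.symm f)
  simp only [ContinuousLinearEquiv.coe_coe, ContinuousLinearEquiv.apply_symm_apply] at this
  have h2 : ‖(S.subtypeL.comp e.symm.toContinuousLinearMap) f‖ = ‖e.symm f‖ := rfl
  rw [h2, inv_mul_le_iff₀ hK]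
  exact this

theorem S0121_of_main (h : MainFor ℝ) :
    ∃ (Z : Type) (_ : NormedAddCommGroup Z) (_ : NormedSpace ℝ Z),
      CompleteSpace Z ∧ TopologicalSpace.SeparableSpace Z ∧
      (∀ S : Submodule ℝ Z, IsClosed (S : Set Z) →
        IsEmpty (S ≃L[ℝ] ZeroAtInftyContinuousMap ℕ ℝ)) ∧
      ∃ F : Z × ZeroAtInftyContinuousMap ℕ ℝ → Z, Function.Surjective F ∧
        ∃ c C : ℝ, 0 < c ∧
          ∀ u v : Z × ZeroAtInftyContinuousMap ℕ ℝ,
            c * ‖u - v‖ ≤ ‖F u - F v‖ ∧ ‖F u - F v‖ ≤ C * ‖u - v‖ := by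
  obtain ⟨Z, i1, i2, hc, hs, hno, Ψ, hb, hΨ⟩ := h
  refine ⟨Z, i1, i2, hc, hs, fun S _ => hno.isEmpty_closed ℝ S, fun p => Ψ p.swap, ?_,
    4 / 21, 76 / 25, by norm_num, ?_⟩
  · intro z
    obtain ⟨p, hp⟩ := hb.2 z
    exact ⟨p.swap, by simpa using hp⟩
  · intro u v
    have h1 := hΨ u.swap v.swap
    have h2 : ‖u.swap - v.swap‖ = ‖u - v‖ := by
      rw [← Prod.swap_sub, Prod.norm_def, Prod.norm_def, Prod.fst_swap, Prod.snd_swap, max_comm]
    rw [h2] at h1
    exact h1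

theorem S0120_of_main (h : MainFor (lp (fun _ : ℕ => ℝ) 2)) :
    ∃ (X : Type) (_ : NormedAddCommGroup X) (_ : NormedSpace ℝ X)
      (Y : Type) (_ : NormedAddCommGroup Y) (_ : NormedSpace ℝ Y),
      CompleteSpace X ∧ TopologicalSpace.SeparableSpace X ∧
      CompleteSpace Y ∧ TopologicalSpace.SeparableSpace Y ∧
      (∃ Ψ : X → Y, Function.Bijective Ψ ∧
        ∀ s t : X, (4 / 21 : ℝ) * ‖s - t‖ ≤ ‖Ψ s - Ψ t‖ ∧ ‖Ψ s - Ψ t‖ ≤ (76 / 25 : ℝ) * ‖s - t‖) ∧
      Nonempty (ZeroAtInftyContinuousMap ℕ (lp (fun _ : ℕ => ℝ) 2) →ₗᵢ[ℝ] X) ∧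
      (∀ S : Submodule ℝ Y, IsClosed (S : Set Y) →
        IsEmpty (S ≃L[ℝ] ZeroAtInftyContinuousMap ℕ (lp (fun _ : ℕ => ℝ) 2))) ∧
      IsEmpty (X ≃L[ℝ] Y) := by
  obtain ⟨Z, i1, i2, hc, hs, hno, Ψ, hb, hΨ⟩ := h
  have : TopologicalSpace.SeparableSpace (lp (fun _ : ℕ => ℝ) 2) := separable_l2
  have : TopologicalSpace.SeparableSpace C₀(ℕ, lp (fun _ : ℕ => ℝ) 2) := separable_C0
  have : Nontrivial (lp (fun _ : ℕ => ℝ) 2) := nontrivial_l2
  let J : C₀(ℕ, lp (fun _ : ℕ => ℝ) 2) →ₗᵢ[ℝ] (C₀(ℕ, lp (fun _ : ℕ => ℝ) 2) × Z) :=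
    { LinearMap.inl ℝ (C₀(ℕ, lp (fun _ : ℕ => ℝ) 2)) Z with
      norm_map' := fun f => by
        show ‖(f, (0 : Z))‖ = ‖f‖
        rw [Prod.norm_def]; simp }
  refine ⟨C₀(ℕ, lp (fun _ : ℕ => ℝ) 2) × Z, inferInstance, inferInstance, Z, i1, i2,
    inferInstance, inferInstance, hc, hs, ⟨Ψ, hb, hΨ⟩, ⟨J⟩,
    fun S _ => hno.isEmpty_closed _ S, ⟨fun e => ?_⟩⟩
  obtain ⟨K, hK, hK'⟩ := e.symm.toContinuousLinearMap.bound
  refine hno.no_embedding (e.toContinuousLinearMap.comp J.toContinuousLinearMap) K⁻¹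
    (by positivity) ?_
  intro f
  have := hK' (e (J f))
  simp only [ContinuousLinearEquiv.coe_coe, ContinuousLinearEquiv.symm_apply_apply,
    LinearIsometry.norm_map] at this
  have h2 : ‖(e.toContinuousLinearMap.comp J.toContinuousLinearMap) f‖ = ‖e (J f)‖ := rfl
  rw [h2, inv_mul_le_iff₀ hK]
  exact this

end Crest.Agent.R091
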