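import Crest.Agent.R091.Phi
import Crest.Agent.R091.Hotel
import Crest.Agent.R091.C0
import Crest.Agent.R091.Frame
import Crest.Agent.R091.Final
import Crest.Agent.R091.CtxExists

/-! # Row 91, module BetaMap: `β : P → E`, the parameters, `MainFor` from `Large` -/

set_option autoImplicit false

namespace Crest.Agent.R091

open Filter TopologicalSpace
open scoped Topology ZeroAtInfty

variable {H : Type} [NormedAddCommGroup H] [InnerProductSpace ℝ H]

theorem tendsto_toP (x : C₀(ℕ, H)) (w : Vs) :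
    Tendsto (fun n => (WithLp.toLp 2 (x n, w n) : HV H)) cofinite (𝓝 0) := by
  have h1 := tendsto_cofinite_c0 x
  have h2 := tendsto_cofinite_c0 w
  have h3 : Tendsto (fun n => Real.sqrt 2 * max ‖x n‖ ‖w n‖) cofinite (𝓝 0) := by
    have := (h1.norm.max h2.norm).const_mul (Real.sqrt 2)
    simpa using this
  exact squeeze_zero_norm (fun n => norm_le_sqrt_two _ _ (le_max_left _ _) (le_max_right _ _)) h3

/-- `(x, w) ↦ v`, `v n = (x n, w n)` -/
noncomputable def toP (x : C₀(ℕ, H)) (w : Vs) : P H :=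
  mkC0 (fun n => WithLp.toLp 2 (x n, w n)) (tendsto_toP x w)

theorem toP_apply (x : C₀(ℕ, H)) (w : Vs) (n : ℕ) : toP x w n = WithLp.toLp 2 (x n, w n) := rfl

theorem norm_toP_sub_le (x x' : C₀(ℕ, H)) (w w' : Vs) :
    ‖toP x w - toP x' w'‖ ≤ Real.sqrt 2 * max ‖x - x'‖ ‖w - w'‖ := by
  rw [norm_le_iff_c0 _ (by positivity)]
  intro n
  refine norm_le_sqrt_two _ _ ?_ ?_
  · exact (norm_apply_le_c0 (x - x') n).trans (le_max_left _ _)
  · exact (norm_apply_le_c0 (w - w') n).trans (le_max_right _ _)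

theorem le_norm_toP_sub (x x' : C₀(ℕ, H)) (w w' : Vs) :
    max ‖x - x'‖ ‖w - w'‖ ≤ ‖toP x w - toP x' w'‖ := by
  refine max_le ?_ ?_
  · rw [norm_le_iff_c0 _ (norm_nonneg _)]
    intro n
    have h1 : ‖(toP x w - toP x' w') n‖ ≤ ‖toP x w - toP x' w'‖ := norm_apply_le_c0 _ n
    exact (norm_fst_le ((toP x w - toP x' w') n)).trans h1
  · rw [norm_le_iff_c0 _ (norm_nonneg _)]
    intro n
    have h1 : ‖(toP x w - toP x' w') n‖ ≤ ‖toP x w - toP x' w'‖ := norm_apply_le_c0 _ n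
    exact (norm_snd_le ((toP x w - toP x' w') n)).trans h1

theorem tendsto_beta (X : Ctx H) (p : P H) : Tendsto (fun n => beta X n p) cofinite (𝓝 0) := by
  have h := tendsto_cofinite_c0 p
  refine squeeze_zero_norm (fun n => norm_beta_le X n p) ?_
  have := h.norm.const_mul 2
  simpa using this

/-- `β : P → E` -/
noncomputable def betaP (X : Ctx H) (p : P H) : E :=
  (mkC0 (fun n => beta X n p) (tendsto_beta X p), mkC0 (fun σ => Phi X σ p) (Phi_null X p))

@[simp] theorem betaP_fst (X : Ctx H) (p : P H) (n : ℕ) : (betaP X p).1 n = beta X n p := rfl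
@[simp] theorem betaP_snd (X : Ctx H) (p : P H) (σ : Sg) : (betaP X p).2 σ = Phi X σ p := rfl

theorem betaP_zero (X : Ctx H) : betaP X 0 = 0 := by
  refine Prod.ext ?_ ?_
  · ext1 n
    have := norm_beta_le X n (0 : P H)
    simp only [ZeroAtInftyContinuousMap.coe_zero, Pi.zero_apply, norm_zero, mul_zero,
      norm_le_zero_iff] at this
    exact this
  · ext1 σ
    exact Phi_zero X σ

/-! ### the field of isometries -/

/-- the field `T_{θ_n(v)}` -/
noncomputable def fld (X : Ctx H) : Field H where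
  T := fun n v t => tens (theta n (fun i => obs X i v) t)
  iso := fun n v t y => by rw [norm_tens_apply, norm_theta, one_mul]
  loc := fun n v v' t h => by
    rw [theta_congr t fun i hi => obs_congr X i (h _ ((Nat.unpair_left_le i).trans_lt hi))]
  lip := fun n v v' t t' δ ht ht' hδ h => by
    have h3 := theta_lip n (fun i => obs X i v) (fun i => obs X i v') t t' δ ht ht' hδ
      (fun i hi => (abs_obs_sub_le X i v v').trans (h _ ((Nat.unpair_left_le i).trans_lt hi)))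
    refine le_trans (mul_le_mul_of_nonneg_right (norm_tens_sub_le _ _) ?_) h3
    exact le_min ht ht'

theorem fld_R (X : Ctx H) (v : ℕ → HV H) (n : ℕ) : (fld X).R X.J v n = (v n).snd + beta X n v := rfl

theorem norm_beta_sub_aux (X : Ctx H) (n : ℕ) (v v' : ℕ → HV H) (δ : ℝ) (hδ : 0 ≤ δ)
    (h : ∀ m ≤ n, ‖v m - v' m‖ ≤ δ) (hle : ‖v n‖ ≤ ‖v' n‖) :
    ‖beta X n v - beta X n v'‖ ≤ (2 + 8 / 250) * δ := by
  have h1 := norm_rot_sub_rot_le X.J (tens (th X n v)) (tens (th X n v')) (tens_th_iso X n v)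
    (tens_th_iso X n v') (v n)
  have h2 := (fld X).lip n v v' ‖v n‖ ‖v' n‖ δ (norm_nonneg _) (norm_nonneg _) hδ
    (fun m hm => h m hm.le)
  rw [min_eq_left hle] at h2
  have h4 : |‖v n‖ - ‖v' n‖| ≤ δ := (abs_norm_sub_norm_le _ _).trans (h n le_rfl)
  have h5 : ‖uu X.J (tens (th X n v')) (v n - v' n)‖ ≤ 2 * δ := by
    refine (norm_uu_le _ _ (tens_th_iso X n v') _).trans ?_
    have := h n le_rfl
    linarith
  have e : beta X n v - beta X n v' =
      (rot X.J (tens (th X n v)) (v n) - rot X.J (tens (th X n v')) (v n)) +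
        tens (th X n v') (uu X.J (tens (th X n v')) (v n - v' n)) := by
    rw [uu_sub, map_sub]
    unfold rot beta
    abel
  rw [e]
  refine (norm_add_le _ _).trans ?_
  rw [tens_th_iso]
  have h6 : ‖tens (th X n v) - tens (th X n v')‖ * ‖v n‖ ≤ (1 / 250) * (δ + δ) := by
    refine h2.trans ?_
    gcongr
  nlinarith

theorem norm_beta_sub_le' (X : Ctx H) (n : ℕ) (v v' : ℕ → HV H) (δ : ℝ) (hδ : 0 ≤ δ)
    (h : ∀ m ≤ n, ‖v m - v' m‖ ≤ δ) :
    ‖beta X n v - beta X n v'‖ ≤ (2 + 8 / 250) * δ := by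
  rcases le_total ‖v n‖ ‖v' n‖ with hle | hle
  · exact norm_beta_sub_aux X n v v' δ hδ h hle
  · rw [norm_sub_rev]
    exact norm_beta_sub_aux X n v' v δ hδ (fun m hm => by rw [norm_sub_rev]; exact h m hm) hle

theorem betaP_lip (X : Ctx H) (p p' : P H) : ‖betaP X p - betaP X p'‖ ≤ (51 / 25) * dist p p' := by
  rw [dist_eq_norm]
  have h0 : 0 ≤ ‖p - p'‖ := norm_nonneg _
  rw [Prod.norm_def]
  refine max_le ?_ ?_
  · rw [norm_le_iff_c0 _ (by positivity)]
    intro n
    show ‖beta X n p - beta X n p'‖ ≤ _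
    refine (norm_beta_sub_le' X n p p' ‖p - p'‖ h0
      (fun m _ => norm_apply_le_c0 (p - p') m)).trans ?_
    nlinarith
  · rw [norm_le_iff_c0 _ (by positivity)]
    rintro ⟨n, g, a, c, k, d⟩
    show ‖Phi X ⟨n, (g, a, c, k, d)⟩ p - Phi X ⟨n, (g, a, c, k, d)⟩ p'‖ ≤ _
    rw [Real.norm_eq_abs]
    refine (abs_Phi_sub_le X n g a c k d p p').trans ?_
    have h1 : ep d ≤ 1 / 100 := by
      unfold ep
      have : ((1:ℝ) / 2) ^ d ≤ 1 := pow_le_one₀ (by norm_num) (by norm_num)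
      linarith
    nlinarith

/-- the parameters of the construction -/
noncomputable def parX (X : Ctx H) : Fr.Par (P H) E where
  β := betaP X
  C := 51 / 25
  R := fun l => 1000 ^ l
  p₀ := 0
  hC := by norm_num
  hR := fun l => one_le_pow₀ (by norm_num)
  β_p₀ := betaP_zero X
  norming := fun z e he => Fr.norming_of_lip (betaP_lip X) z e he

theorem surj_aux (X : Ctx H) (y : Vs) :
    ∃ (x : C₀(ℕ, H)) (w : Vs), w + (betaP X (toP x w)).1 = y := by
  obtain ⟨v, hv⟩ := (fld X).R_surjective X.J (fun n => y n)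
  have hn : ∀ n, ‖v n‖ = ‖y n‖ := fun n => by
    rw [← hv n]; exact ((fld X).norm_R X.J v n).symm
  have hy := (tendsto_cofinite_c0 y).norm
  rw [norm_zero] at hy
  have hx : Tendsto (fun n => (v n).fst) cofinite (𝓝 0) :=
    squeeze_zero_norm (fun n => (norm_fst_le (v n)).trans (hn n).le) hy
  have hw : Tendsto (fun n => (v n).snd) cofinite (𝓝 0) :=
    squeeze_zero_norm (fun n => (norm_snd_le (v n)).trans (hn n).le) hy
  refine ⟨mkC0 _ hx, mkC0 _ hw, ?_⟩
  ext1 n
  have hvn : (toP (mkC0 _ hx) (mkC0 _ hw) : ℕ → HV H) = v := by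
    funext m
    rfl
  show (v n).snd + beta X n (toP (mkC0 _ hx) (mkC0 _ hw)) = y n
  rw [hvn, ← fld_R]
  exact hv n

theorem inv_aux (X : Ctx H) (x x' : C₀(ℕ, H)) (w w' : Vs) :
    ‖toP x w - toP x' w'‖ ≤
      (254 / 246) * ‖(w + (betaP X (toP x w)).1) - (w' + (betaP X (toP x' w')).1)‖ := by
  rw [norm_le_iff_c0 _ (by positivity)]
  intro n
  refine (fld X).R_inv_lip X.J (toP x w) (toP x' w') _ (norm_nonneg _) (fun m => ?_) n
  exact norm_apply_le_c0 ((w + (betaP X (toP x w)).1) - (w' + (betaP X (toP x' w')).1)) m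

theorem dist_toP_le (p p' : C₀(ℕ, H) × Vs) :
    dist (toP p.1 p.2) (toP p'.1 p'.2) ≤ Real.sqrt 2 * dist p p' := by
  rw [dist_eq_norm, dist_eq_norm]
  exact norm_toP_sub_le p.1 p'.1 p.2 p'.2

theorem le_dist_toP (p p' : C₀(ℕ, H) × Vs) :
    dist p p' ≤ dist (toP p.1 p.2) (toP p'.1 p'.2) := by
  rw [dist_eq_norm, dist_eq_norm]
  exact le_norm_toP_sub p.1 p'.1 p.2 p'.2

theorem dist_inv_aux (X : Ctx H) (p p' : C₀(ℕ, H) × Vs) :
    dist (toP p.1 p.2) (toP p'.1 p'.2) ≤
      (254 / 246) * ‖(p.2 + (betaP X (toP p.1 p.2)).1) - (p'.2 + (betaP X (toP p'.1 p'.2)).1)‖ := by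
  rw [dist_eq_norm]
  exact inv_aux X p.1 p'.1 p.2 p'.2

theorem mainFor_of_large [CompleteSpace H] [SeparableSpace H] (X : Ctx H) (hL : Fr.Large (parX X)) :
    MainFor H := by
  have hsV : SeparableSpace V := by
    have : SeparableSpace Y := separable_lp2
    exact separable_lp2
  have hs1 : SeparableSpace Vs := separable_c0
  have hs2 : SeparableSpace C₀(Sg, ℝ) := separable_c0
  have hsE : SeparableSpace E := inferInstance
  have hmain := Fr.Psi_main (D := parX X) (π := ContinuousLinearMap.fst ℝ Vs C₀(Sg, ℝ))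
    (ι := fun p : C₀(ℕ, H) × Vs => toP p.1 p.2) (fun z => _root_.norm_fst_le z)
    (κ := Real.sqrt 2) (C' := 254 / 246) (Real.sqrt_nonneg 2) (by norm_num)
    (dist_toP_le) (le_dist_toP) (dist_inv_aux X) (fun y => by
      obtain ⟨x, w, h⟩ := surj_aux X y
      exact ⟨(x, w), h⟩)
  obtain ⟨hbij, hlip⟩ := hmain
  set Ψ := Fr.Psi (parX X) (ContinuousLinearMap.fst ℝ Vs C₀(Sg, ℝ))
    (fun p : C₀(ℕ, H) × Vs => toP p.1 p.2) with hΨ
  have hsq : Real.sqrt 2 ≤ 142 / 100 := by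
    rw [Real.sqrt_le_left (by norm_num)]; norm_num
  refine ⟨(parX X).Z, inferInstance, inferInstance, inferInstance, inferInstance, ?_,
    fun s => (7 / 10 : ℝ) • Ψ s, ?_, ?_⟩
  · intro z K c hc hz
    exact Fr.noC0_Z hL z K c hc hz
  · have h7 : (7 / 10 : ℝ) ≠ 0 := by norm_num
    exact (MulAction.bijective₀ h7).comp hbij
  · intro s t
    obtain ⟨h1, h2⟩ := hlip s t
    have hC : (parX X).C = 51 / 25 := rfl
    rw [hC] at h1 h2
    rw [← smul_sub, norm_smul, Real.norm_eq_abs, abs_of_nonneg (by norm_num : (0:ℝ) ≤ 7 / 10)]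
    have h3 : max (254 / 246 : ℝ) (1 + 51 / 25 * (254 / 246)) ≤ 311 / 100 := by
      apply max_le <;> norm_num
    have h4 := norm_nonneg (Ψ s - Ψ t)
    have h5 := norm_nonneg (s - t)
    constructor
    · have : ‖s - t‖ ≤ 311 / 100 * ‖Ψ s - Ψ t‖ :=
        h2.trans (mul_le_mul_of_nonneg_right h3 h4)
      linarith
    · have h6 : (1 + 51 / 25 * Real.sqrt 2) ≤ 3.9 := by linarith
      have : ‖Ψ s - Ψ t‖ ≤ 3.9 * ‖s - t‖ := h1.trans (mul_le_mul_of_nonneg_right h6 h5)
      linarith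

end Crest.Agent.R091
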