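import Mathlib

/-!
# Row 91: pure function lemmas

`clip`, `soft`, `tent`, the flattening steps of cases A and B and sums of functions with disjoint
or boundedly overlapping supports.  `LipK K f` is `|f x - f y| ≤ K * dist x y`.
-/

namespace Crest.Agent.R091.Flat

variable {P : Type*} [PseudoMetricSpace P]

/-- `f` is `K`-Lipschitz -/
def LipK (K : ℝ) (f : P → ℝ) : Prop := ∀ x y, |f x - f y| ≤ K * dist x y

theorem LipK.mono {K K' : ℝ} {f : P → ℝ} (h : LipK K f) (hK : K ≤ K') : LipK K' f :=
  fun x y => (h x y).trans (mul_le_mul_of_nonneg_right hK dist_nonneg)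

theorem LipK.const (c : ℝ) {K : ℝ} (hK : 0 ≤ K) : LipK K (fun _ : P => c) := by
  intro x y; simp only [sub_self, abs_zero]; positivity

theorem LipK.add {K L : ℝ} {f g : P → ℝ} (hf : LipK K f) (hg : LipK L g) :
    LipK (K + L) (fun x => f x + g x) := by
  intro x y
  have h1 := hf x y; have h2 := hg x y
  have : f x + g x - (f y + g y) = (f x - f y) + (g x - g y) := by ring
  rw [this]
  calc |(f x - f y) + (g x - g y)| ≤ |f x - f y| + |g x - g y| := abs_add_le _ _
    _ ≤ K * dist x y + L * dist x y := add_le_add h1 h2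
    _ = (K + L) * dist x y := by ring

theorem LipK.smul {K : ℝ} {f : P → ℝ} (hf : LipK K f) (a : ℝ) :
    LipK (|a| * K) (fun x => a * f x) := by
  intro x y
  rw [← mul_sub, abs_mul, mul_assoc]
  exact mul_le_mul_of_nonneg_left (hf x y) (abs_nonneg a)

theorem LipK.neg {K : ℝ} {f : P → ℝ} (hf : LipK K f) : LipK K (fun x => - f x) := by
  intro x y
  rw [neg_sub_neg, abs_sub_comm]; exact hf x y

theorem LipK.sub {K L : ℝ} {f g : P → ℝ} (hf : LipK K f) (hg : LipK L g) :
    LipK (K + L) (fun x => f x - g x) := by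
  have := hf.add hg.neg
  simpa [sub_eq_add_neg] using this

/-- clip to `[-b, b]` -/
def clip (b x : ℝ) : ℝ := max (-b) (min b x)

/-- soft threshold -/
def soft (b x : ℝ) : ℝ := x - clip b x

/-- the tent: identity on `[-h, h]`, back to zero at `± 2 h` -/
noncomputable def tent (h x : ℝ) : ℝ := clip (max 0 (2 * h - |x|)) x

theorem clip_abs_le {b : ℝ} (hb : 0 ≤ b) (x : ℝ) : |clip b x| ≤ b := by
  rw [abs_le]; constructor
  · exact le_max_left _ _
  · exact max_le (by linarith) (min_le_left _ _)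

theorem clip_zero (x : ℝ) : clip 0 x = 0 := by
  unfold clip
  rcases le_total 0 x with h | h
  · rw [min_eq_left h]; simp
  · rw [min_eq_right h]; rw [neg_zero, max_eq_left h]

theorem clip_eq_self {b x : ℝ} (h : |x| ≤ b) : clip b x = x := by
  rw [abs_le] at h
  unfold clip
  rw [min_eq_right h.2, max_eq_right h.1]

theorem clip_abs_le' (b x : ℝ) (hb : 0 ≤ b) : |clip b x| ≤ |x| := by
  rcases le_total |x| b with h | h
  · rw [clip_eq_self h]
  · exact (clip_abs_le hb x).trans h

/-- joint Lipschitz estimate of `clip` -/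
theorem clip_sub_le (b b' x x' : ℝ) :
    |clip b x - clip b' x'| ≤ max |b - b'| |x - x'| := by
  unfold clip
  have h1 : |min b x - min b' x'| ≤ max |b - b'| |x - x'| := abs_min_sub_min_le_max _ _ _ _
  have h2 : |max (-b) (min b x) - max (-b') (min b' x')| ≤
      max |(-b) - (-b')| |min b x - min b' x'| := abs_max_sub_max_le_max _ _ _ _
  refine h2.trans (max_le ?_ h1)
  rw [neg_sub_neg, abs_sub_comm]
  exact le_max_left _ _

theorem soft_zero (x : ℝ) : soft 0 x = x := by simp [soft, clip_zero]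

theorem soft_eq_zero {b x : ℝ} (h : |x| ≤ b) : soft b x = 0 := by simp [soft, clip_eq_self h]

theorem soft_of_le {b x : ℝ} (hb : 0 ≤ b) (h : b ≤ x) : soft b x = x - b := by
  unfold soft clip; rw [min_eq_left h, max_eq_right (by linarith)]

theorem soft_of_le_neg {b x : ℝ} (hb : 0 ≤ b) (h : x ≤ -b) : soft b x = x + b := by
  unfold soft clip; rw [min_eq_right (by linarith), max_eq_left h]; ring

theorem soft_abs_le {b : ℝ} (hb : 0 ≤ b) (x : ℝ) : |soft b x| ≤ |x| := by
  rcases le_total |x| b with h | h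
  · rw [soft_eq_zero h, abs_zero]; exact abs_nonneg _
  · rcases le_total 0 x with hx | hx
    · rw [abs_of_nonneg hx] at h ⊢
      rw [soft_of_le hb h, abs_of_nonneg (by linarith)]; linarith
    · rw [abs_of_nonpos hx] at h ⊢
      rw [soft_of_le_neg hb (by linarith), abs_of_nonpos (by linarith)]; linarith

theorem soft_ne_zero {b x : ℝ} (h : soft b x ≠ 0) : b < |x| := by
  by_contra hc
  exact h (soft_eq_zero (not_lt.1 hc))

/-- joint Lipschitz estimate of `soft` -/
theorem soft_sub_le {b b' : ℝ} (hb : 0 ≤ b) (hb' : 0 ≤ b') (x x' : ℝ) :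
    |soft b x - soft b' x'| ≤ |x - x'| + |b - b'| := by
  -- soft b x = max (x - b) (min (x + b) 0) for b ≥ 0
  have key : ∀ {b : ℝ} (x : ℝ), 0 ≤ b → soft b x = max (x - b) (min (x + b) 0) := by
    intro b x hb
    rcases le_total |x| b with h | h
    · rw [soft_eq_zero h]; rw [abs_le] at h
      rw [min_eq_right (by linarith), max_eq_right (by linarith)]
    · rcases le_total 0 x with hx | hx
      · rw [abs_of_nonneg hx] at h
        rw [soft_of_le hb h, min_eq_right (by linarith), max_eq_left (by linarith)]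
      · rw [abs_of_nonpos hx] at h
        rw [soft_of_le_neg hb (by linarith), min_eq_left (by linarith), max_eq_right (by linarith)]
  rw [key x hb, key x' hb']
  have h1 : |min (x + b) 0 - min (x' + b') 0| ≤ |x - x'| + |b - b'| := by
    refine (abs_min_sub_min_le_max _ _ _ _).trans (max_le ?_ (by simp; positivity))
    have : x + b - (x' + b') = (x - x') + (b - b') := by ring
    rw [this]; exact abs_add_le _ _
  refine (abs_max_sub_max_le_max _ _ _ _).trans (max_le ?_ h1)
  have : x - b - (x' - b') = (x - x') - (b - b') := by ring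
  rw [this]; exact abs_sub _ _

theorem tent_abs_le {h : ℝ} (hh : 0 ≤ h) (x : ℝ) : |tent h x| ≤ h := by
  unfold tent
  rcases le_total |x| h with hx | hx
  · exact (clip_abs_le' _ _ (le_max_left _ _)).trans hx
  · refine (clip_abs_le (le_max_left _ _) x).trans (max_le hh (by linarith))

theorem tent_eq_self {h x : ℝ} (hx : |x| ≤ h) : tent h x = x := by
  unfold tent
  apply clip_eq_self
  exact (by linarith : |x| ≤ 2 * h - |x|).trans (le_max_right _ _)

theorem tent_eq_zero {h x : ℝ} (hx : 2 * h ≤ |x|) : tent h x = 0 := by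
  unfold tent
  rw [max_eq_left (by linarith), clip_zero]

theorem tent_ne_zero {h x : ℝ} (hx : tent h x ≠ 0) : |x| < 2 * h := by
  by_contra hc
  exact hx (tent_eq_zero (not_lt.1 hc))

/-- `tent h` is `1`-Lipschitz -/
theorem tent_sub_le (h x x' : ℝ) : |tent h x - tent h x'| ≤ |x - x'| := by
  unfold tent
  refine (clip_sub_le _ _ _ _).trans (max_le ?_ le_rfl)
  refine (abs_max_sub_max_le_max _ _ _ _).trans (max_le (by simp) ?_)
  have : 2 * h - |x| - (2 * h - |x'|) = |x'| - |x| := by ring
  rw [this, abs_sub_comm x x']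
  exact abs_abs_sub_abs_le_abs_sub _ _

theorem tent_abs_le_self (h x : ℝ) : |tent h x| ≤ |x| := clip_abs_le' _ _ (le_max_left _ _)

/-- the Lipschitz property of a flattening coordinate -/
theorem lip_flat {s D : P → ℝ} (hs : LipK (1 / 2) s) {L : ℝ} (hD : LipK L D) (h a : ℝ) :
    LipK (L + 1 / 2) (fun v => soft (max 0 (s v)) (tent h (D v - a))) := by
  intro x y
  refine (soft_sub_le (le_max_left _ _) (le_max_left _ _) _ _).trans ?_
  have h1 : |tent h (D x - a) - tent h (D y - a)| ≤ L * dist x y := by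
    refine (tent_sub_le _ _ _).trans ?_
    have : D x - a - (D y - a) = D x - D y := by ring
    rw [this]; exact hD x y
  have h2 : |max 0 (s x) - max 0 (s y)| ≤ 1 / 2 * dist x y := by
    refine (abs_max_sub_max_le_max _ _ _ _).trans (max_le ?_ (hs x y))
    simp
  linarith

/-- **Gluing lemma.** -/
theorem lip_glue {K : ℝ} (hK : 0 ≤ K) {f g s : P → ℝ} (hf : LipK K f) (hg : LipK K g)
    (hs : LipK (1 / 2) s) (hfs : ∀ v, |f v| ≤ K * max (s v) 0)
    (hgs : ∀ v, |g v| ≤ K * max (-(s v)) 0) : LipK K (fun v => f v + g v) := by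
  have f0 : ∀ v, s v ≤ 0 → f v = 0 := by
    intro v hv; have := hfs v; rw [max_eq_right hv, mul_zero] at this
    exact abs_eq_zero.1 (le_antisymm this (abs_nonneg _))
  have g0 : ∀ v, 0 ≤ s v → g v = 0 := by
    intro v hv; have := hgs v; rw [max_eq_right (by linarith), mul_zero] at this
    exact abs_eq_zero.1 (le_antisymm this (abs_nonneg _))
  have mixed : ∀ x y, s x ≤ 0 → 0 ≤ s y → |f x + g x - (f y + g y)| ≤ K * dist x y := by
    intro x y hx hy
    rw [f0 x hx, g0 y hy, zero_add, add_zero]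
    have h1 := hgs x; have h2 := hfs y
    rw [max_eq_left (by linarith)] at h1
    rw [max_eq_left hy] at h2
    have h3 := hs y x
    have h4 : |g x - f y| ≤ |g x| + |f y| := abs_sub _ _
    have h5 : s y - s x ≤ 1 / 2 * dist x y := by
      rw [dist_comm]; exact (le_abs_self _).trans h3
    have h6 : K * (s y - s x) ≤ K * (1 / 2 * dist x y) := mul_le_mul_of_nonneg_left h5 hK
    have h7 : 0 ≤ K * dist x y := mul_nonneg hK dist_nonneg
    nlinarith
  intro x y
  rcases le_total (s x) 0 with hx | hx <;> rcases le_total (s y) 0 with hy | hy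
  · show |f x + g x - (f y + g y)| ≤ _
    rw [f0 x hx, f0 y hy, zero_add, zero_add]; exact hg x y
  · exact mixed x y hx hy
  · show |f x + g x - (f y + g y)| ≤ _
    rw [abs_sub_comm, dist_comm]; exact mixed y x hy hx
  · show |f x + g x - (f y + g y)| ≤ _
    rw [g0 x hx, g0 y hy, add_zero, add_zero]; exact hf x y

/-- **Step of case A.** `D` is `K`-Lipschitz with `|D| ≤ K h`; the new function `Di` lives where
`s ≤ -2h` and is bounded by `K h`. -/
theorem stepA {K h : ℝ} (hK : 0 < K) (hh : 0 ≤ h) {D Di s : P → ℝ} (hD : LipK K D)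
    (hDb : ∀ v, |D v| ≤ K * h) (hDi : LipK K Di) (hDib : ∀ v, |Di v| ≤ K * h)
    (hs : LipK (1 / 2) s) (hsupp : ∀ v, Di v ≠ 0 → s v ≤ -(2 * h)) :
    LipK K (fun v => D v - K * soft (max 0 (s v)) (tent h (D v / K)) + Di v) ∧
    ∀ v, |D v - K * soft (max 0 (s v)) (tent h (D v / K)) + Di v| ≤ K * h := by
  have hbd : ∀ v, |D v / K| ≤ h := by
    intro v; rw [abs_div, abs_of_pos hK, div_le_iff₀ hK, mul_comm]; exact hDb v
  have e : ∀ v, D v - K * soft (max 0 (s v)) (tent h (D v / K)) =
      K * clip (max 0 (s v)) (D v / K) := by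
    intro v
    rw [tent_eq_self (hbd v), soft]; field_simp; ring
  have hfl : LipK K (fun v => K * clip (max 0 (s v)) (D v / K)) := by
    have h1 : LipK 1 (fun v => clip (max 0 (s v)) (D v / K)) := by
      intro x y
      refine (clip_sub_le _ _ _ _).trans (max_le ?_ ?_)
      · refine (abs_max_sub_max_le_max _ _ _ _).trans (max_le ?_ ?_)
        · simp
        · have := hs x y
          have h0 : 0 ≤ dist x y := dist_nonneg
          linarith
      · rw [← sub_div, abs_div, abs_of_pos hK, div_le_iff₀ hK]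
        have := hD x y
        linarith
    have := h1.smul K
    rwa [abs_of_pos hK, mul_one] at this
  have hfs : ∀ v, |K * clip (max 0 (s v)) (D v / K)| ≤ K * max (s v) 0 := by
    intro v
    rw [abs_mul, abs_of_pos hK, max_comm (s v) 0]
    exact mul_le_mul_of_nonneg_left (clip_abs_le (le_max_left _ _) _) hK.le
  have hgs : ∀ v, |Di v| ≤ K * max (-(s v)) 0 := by
    intro v
    by_cases hv : Di v = 0
    · rw [hv, abs_zero]; positivity
    · have h1 := hsupp v hv
      refine (hDib v).trans (mul_le_mul_of_nonneg_left ?_ hK.le)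
      exact le_trans (by linarith) (le_max_left _ _)
  refine ⟨?_, fun v => ?_⟩
  · have := lip_glue hK.le hfl hDi hs hfs hgs
    simpa only [← e] using this
  · rw [e]
    by_cases hv : Di v = 0
    · rw [hv, add_zero, abs_mul, abs_of_pos hK]
      exact mul_le_mul_of_nonneg_left ((clip_abs_le' _ _ (le_max_left _ _)).trans (hbd v)) hK.le
    · have h1 := hsupp v hv
      rw [max_eq_left (by linarith), clip_zero, mul_zero, zero_add]
      exact hDib v

/-- Lipschitz estimate across a region: inside `W` a function is `K`-Lipschitz, outside the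
"big cell" `U` it coincides with a `K₁`-Lipschitz function up to `e`; `U` is `δ/2`-inside `W`. -/
theorem lip_region {K K₁ e δ : ℝ} (hδ : 0 < δ) (he : 0 ≤ e) {D F : P → ℝ} {W U : Set P}
    (hD : LipK K₁ D) (hin : ∀ x ∈ W, ∀ y ∈ W, |F x - F y| ≤ K * dist x y)
    (hUW : U ⊆ W) (hsep : ∀ x ∈ U, ∀ y, y ∉ W → δ / 2 ≤ dist x y)
    (hF : ∀ x, |F x - D x| ≤ e) (hout : ∀ x, x ∉ U → F x = D x) (hKK : K ≤ K₁) :
    LipK (K₁ + 2 * e / δ) F := by
  have h0 : 0 ≤ 2 * e / δ := by positivity
  have key : ∀ x y, x ∈ U → y ∉ W → |F x - F y| ≤ (K₁ + 2 * e / δ) * dist x y := by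
    intro x y hx hy
    have h1 := hsep x hx y hy
    have hyU : y ∉ U := fun h => hy (hUW h)
    have h2 : |F x - F y| ≤ |D x - D y| + e := by
      rw [hout y hyU]
      have : F x - D y = (D x - D y) + (F x - D x) := by ring
      rw [this]
      exact (abs_add_le _ _).trans (by linarith [hF x])
    have h3 := hD x y
    have h4 : e ≤ 2 * e / δ * dist x y := by
      have : e = 2 * e / δ * (δ / 2) := by field_simp
      calc e = 2 * e / δ * (δ / 2) := this
        _ ≤ 2 * e / δ * dist x y := mul_le_mul_of_nonneg_left h1 h0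
    linarith
  intro x y
  by_cases hx : x ∈ U
  · by_cases hy : y ∈ W
    · refine (hin x (hUW hx) y hy).trans (mul_le_mul_of_nonneg_right ?_ dist_nonneg)
      linarith
    · exact key x y hx hy
  · by_cases hy : y ∈ U
    · by_cases hxW : x ∈ W
      · refine (hin x hxW y (hUW hy)).trans (mul_le_mul_of_nonneg_right ?_ dist_nonneg)
        linarith
      · rw [abs_sub_comm, dist_comm]; exact key y x hy hxW
    · rw [hout x hx, hout y hy]
      refine (hD x y).trans (mul_le_mul_of_nonneg_right ?_ dist_nonneg)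
      linarith

/-- **Step of case B2.** `U = {s < h}` is the big cell, contained in `W` with margin `δ/2`;
`D` is `C₁`-Lipschitz on `W` and `K₁`-Lipschitz everywhere. -/
theorem stepB {K K₁ C₁ h δ Hi a : ℝ} (hδ : 0 < δ) (hK : 0 < K) (hh : 0 ≤ h) (hHi : 0 ≤ Hi)
    {D Di s : P → ℝ} {W : Set P}
    (hD : LipK K₁ D) (hDW : ∀ x ∈ W, ∀ y ∈ W, |D x - D y| ≤ C₁ * dist x y)
    (hDi : LipK C₁ Di) (hDib : ∀ v, |Di v| ≤ Hi) (hs : LipK (1 / 2) s)
    (hsupp : ∀ v, Di v ≠ 0 → s v < h)
    (hUW : ∀ v, s v < h → v ∈ W) (hsep : ∀ x y, s x < h → y ∉ W → δ / 2 ≤ dist x y)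
    (hC : 3 * C₁ + K / 2 ≤ K₁) :
    LipK (K₁ + 2 * (K * h + Hi) / δ)
      (fun v => D v - K * soft (max 0 (s v)) (tent h (D v / K - a)) + Di v) := by
  apply lip_region (K := 3 * C₁ + K / 2) (W := W) (U := {v | s v < h}) hδ (by positivity) hD ?_ hUW
    (fun x hx y hy => hsep x y hx hy) ?_ ?_ hC
  · intro x hx y hy
    have h1 := hDW x hx y hy
    have h2 := hDi x y
    have h3 : |soft (max 0 (s x)) (tent h (D x / K - a)) -
        soft (max 0 (s y)) (tent h (D y / K - a))| ≤ C₁ / K * dist x y + 1 / 2 * dist x y := by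
      refine (soft_sub_le (le_max_left _ _) (le_max_left _ _) _ _).trans (add_le_add ?_ ?_)
      · refine (tent_sub_le _ _ _).trans ?_
        have : D x / K - a - (D y / K - a) = (D x - D y) / K := by ring
        rw [this, abs_div, abs_of_pos hK, div_mul_eq_mul_div]
        exact div_le_div_of_nonneg_right h1 hK.le
      · refine (abs_max_sub_max_le_max _ _ _ _).trans (max_le ?_ (hs x y))
        simp
    have h4 : K * |soft (max 0 (s x)) (tent h (D x / K - a)) -
        soft (max 0 (s y)) (tent h (D y / K - a))| ≤ (C₁ + K / 2) * dist x y := by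
      calc K * |soft (max 0 (s x)) (tent h (D x / K - a)) -
          soft (max 0 (s y)) (tent h (D y / K - a))|
          ≤ K * (C₁ / K * dist x y + 1 / 2 * dist x y) := mul_le_mul_of_nonneg_left h3 hK.le
        _ = (C₁ + K / 2) * dist x y := by field_simp
    have e : D x - K * soft (max 0 (s x)) (tent h (D x / K - a)) + Di x -
        (D y - K * soft (max 0 (s y)) (tent h (D y / K - a)) + Di y) =
        (D x - D y) - K * (soft (max 0 (s x)) (tent h (D x / K - a)) -
        soft (max 0 (s y)) (tent h (D y / K - a))) + (Di x - Di y) := by ring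
    rw [e]
    refine (abs_add_le _ _).trans ?_
    have h5 := abs_sub (D x - D y) (K * (soft (max 0 (s x)) (tent h (D x / K - a)) -
        soft (max 0 (s y)) (tent h (D y / K - a))))
    rw [abs_mul, abs_of_pos hK] at h5
    linarith
  · intro x
    have e : D x - K * soft (max 0 (s x)) (tent h (D x / K - a)) + Di x - D x =
      Di x - K * soft (max 0 (s x)) (tent h (D x / K - a)) := by ring
    rw [e]
    refine (abs_sub _ _).trans ?_
    rw [abs_mul, abs_of_pos hK]
    have h1 : |soft (max 0 (s x)) (tent h (D x / K - a))| ≤ h :=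
      (soft_abs_le (le_max_left _ _) _).trans (tent_abs_le hh _)
    have h2 := mul_le_mul_of_nonneg_left h1 hK.le
    linarith [hDib x]
  · intro x hx
    simp only [Set.mem_ofPred_eq, not_lt] at hx
    have h1 : Di x = 0 := by
      by_contra hc; exact absurd (hsupp x hc) (not_lt.2 hx)
    rw [h1, soft_eq_zero, mul_zero, sub_zero, add_zero]
    exact ((tent_abs_le hh _).trans hx).trans (le_max_right _ _)

omit [PseudoMetricSpace P] in
/-- In case B2, near the limit point the new function is `const + Di`. -/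
theorem stepB_const {K h a : ℝ} (hK : 0 < K) {D Di s : P → ℝ} {W' : Set P}
    (ha : ∀ v ∈ W', |D v / K - a| ≤ h) (hs : ∀ v ∈ W', s v ≤ 0) :
    ∀ v ∈ W', D v - K * soft (max 0 (s v)) (tent h (D v / K - a)) + Di v = K * a + Di v := by
  intro v hv
  rw [max_eq_left (hs v hv), soft_zero, tent_eq_self (ha v hv)]
  field_simp
  ring

/-- sum of Lipschitz functions with boundedly overlapping supports -/
theorem lip_overlap_sum {ι : Type*} [DecidableEq ι] (A : Finset ι) {C : ℝ} (hC : 0 ≤ C) (N : ℕ)
    (f : ι → P → ℝ) (hf : ∀ i ∈ A, LipK C (f i))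
    (hd : ∀ v, ∃ B : Finset ι, B.card ≤ N ∧ ∀ i ∈ A, f i v ≠ 0 → i ∈ B) :
    LipK (2 * N * C) (fun v => ∑ i ∈ A, f i v) := by
  intro x y
  obtain ⟨Bx, hBx, hx⟩ := hd x
  obtain ⟨By, hBy, hy⟩ := hd y
  have h1 : (∑ i ∈ A, f i x) - ∑ i ∈ A, f i y = ∑ i ∈ A ∩ (Bx ∪ By), (f i x - f i y) := by
    rw [← Finset.sum_sub_distrib]
    symm
    apply Finset.sum_subset Finset.inter_subset_left
    intro i hi hni
    have h2 : i ∉ Bx ∧ i ∉ By := by
      constructor
      · intro h; exact hni (Finset.mem_inter.2 ⟨hi, Finset.mem_union_left _ h⟩)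
      · intro h; exact hni (Finset.mem_inter.2 ⟨hi, Finset.mem_union_right _ h⟩)
    have h3 : f i x = 0 := by by_contra h; exact h2.1 (hx i hi h)
    have h4 : f i y = 0 := by by_contra h; exact h2.2 (hy i hi h)
    rw [h3, h4, sub_zero]
  show |(∑ i ∈ A, f i x) - ∑ i ∈ A, f i y| ≤ _
  rw [h1]
  refine (Finset.abs_sum_le_sum_abs _ _).trans ?_
  have h2 : ∀ i ∈ A ∩ (Bx ∪ By), |f i x - f i y| ≤ C * dist x y :=
    fun i hi => hf i (Finset.mem_inter.1 hi).1 x y
  refine (Finset.sum_le_card_nsmul _ _ _ h2).trans ?_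
  rw [nsmul_eq_mul]
  have h3 : ((A ∩ (Bx ∪ By)).card : ℝ) ≤ 2 * N := by
    have h4 : (A ∩ (Bx ∪ By)).card ≤ Bx.card + By.card :=
      (Finset.card_le_card Finset.inter_subset_right).trans (Finset.card_union_le _ _)
    have h5 : (A ∩ (Bx ∪ By)).card ≤ 2 * N := by omega
    exact_mod_cast h5
  calc ((A ∩ (Bx ∪ By)).card : ℝ) * (C * dist x y) ≤ (2 * N) * (C * dist x y) :=
        mul_le_mul_of_nonneg_right h3 (mul_nonneg hC dist_nonneg)
    _ = 2 * N * C * dist x y := by ring

/-- sum of pairwise disjointly supported Lipschitz functions -/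
theorem lip_disjoint_sum {ι : Type*} [DecidableEq ι] (A : Finset ι) {C : ℝ} (hC : 0 ≤ C)
    (f : ι → P → ℝ) (hf : ∀ i ∈ A, LipK C (f i))
    (hd : ∀ i ∈ A, ∀ j ∈ A, i ≠ j → ∀ v, f i v = 0 ∨ f j v = 0) :
    LipK (2 * C) (fun v => ∑ i ∈ A, f i v) := by
  have := lip_overlap_sum A hC 1 f hf (by
    intro v
    by_cases h : ∃ i ∈ A, f i v ≠ 0
    · obtain ⟨i, hi, hv⟩ := h
      refine ⟨{i}, by simp, fun j hj hjv => ?_⟩
      rw [Finset.mem_singleton]
      by_contra hji
      rcases hd j hj i hi hji v with h | h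
      · exact hjv h
      · exact hv h
    · refine ⟨∅, by simp, fun j hj hjv => ?_⟩
      exact absurd ⟨j, hj, hjv⟩ h)
  simpa using this

/-- sum of Lipschitz functions -/
theorem lip_sum {ι : Type*} (A : Finset ι) (C : ι → ℝ) (f : ι → P → ℝ)
    (hf : ∀ i ∈ A, LipK (C i) (f i)) : LipK (∑ i ∈ A, C i) (fun v => ∑ i ∈ A, f i v) := by
  intro x y
  show |(∑ i ∈ A, f i x) - ∑ i ∈ A, f i y| ≤ _
  rw [← Finset.sum_sub_distrib, Finset.sum_mul]
  exact (Finset.abs_sum_le_sum_abs _ _).trans (Finset.sum_le_sum fun i hi => hf i hi x y)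

end Crest.Agent.R091.Flat
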