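import Crest.Agent.R091.Defs

/-! # Row 91, auxiliary lemmas for module Phi3 (helper634): tent, soft, parameters, observables, sfun

Everything in namespace `Crest.Agent.R091.PhiAux` to avoid clashes with Phi1/Phi2. -/

set_option autoImplicit false

namespace Crest.Agent.R091.PhiAux

open scoped ZeroAtInfty Topology
open Filter

/-! ### the real functions `tent` and `soft` -/

theorem tent_of_abs_le {h x : ℝ} (hx : |x| ≤ h) : tent h x = x := by
  unfold tent
  rw [abs_le] at hx
  obtain ⟨h1, h2⟩ := hx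
  rcases le_total 0 x with h0 | h0
  · rw [min_eq_left (by linarith), max_eq_left h0, max_eq_right (min_le_of_left_le (by linarith))]
    ring
  · rw [max_eq_right (min_le_of_left_le (by linarith)), min_eq_left (by linarith),
      max_eq_left (by linarith)]
    ring

theorem tent_of_le_abs {h x : ℝ} (hx : 2 * h ≤ |x|) : tent h x = 0 := by
  unfold tent
  rcases le_total 0 x with h0 | h0
  · rw [abs_of_nonneg h0] at hx
    rw [max_eq_right (min_le_of_right_le (by linarith)),
      max_eq_right (min_le_of_left_le (by linarith))]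
    ring
  · rw [abs_of_nonpos h0] at hx
    rw [max_eq_right (min_le_of_left_le (by linarith)),
      max_eq_right (min_le_of_right_le (by linarith))]
    ring

theorem tent_nonneg_eq {h x : ℝ} (hx : 0 ≤ x) : tent h x = max (min x (2 * h - x)) 0 := by
  unfold tent
  rw [max_eq_right (min_le_of_left_le (by linarith) : min (-x) (2 * h + x) ≤ 0)]
  ring

theorem tent_nonpos_eq {h x : ℝ} (hx : x ≤ 0) : tent h x = - max (min (-x) (2 * h + x)) 0 := by
  unfold tent
  rw [max_eq_right (min_le_of_left_le (by linarith) : min x (2 * h - x) ≤ 0)]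
  ring

theorem abs_tent_le {h : ℝ} (h0 : 0 ≤ h) (x : ℝ) : |tent h x| ≤ h := by
  rcases le_total 0 x with hx | hx
  · rw [tent_nonneg_eq hx, abs_of_nonneg (le_max_right _ _)]
    refine max_le ?_ h0
    rcases le_total x h with h1 | h1
    · exact min_le_of_left_le h1
    · exact min_le_of_right_le (by linarith)
  · rw [tent_nonpos_eq hx, abs_neg, abs_of_nonneg (le_max_right _ _)]
    refine max_le ?_ h0
    rcases le_total (-x) h with h1 | h1
    · exact min_le_of_left_le h1
    · exact min_le_of_right_le (by linarith)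

theorem abs_max_sub_max_zero (a b : ℝ) : |max a 0 - max b 0| ≤ |a - b| := by
  have := abs_max_sub_max_le_max a 0 b 0
  simpa using this

theorem abs_bumpy (h x x' : ℝ) :
    |max (min x (2 * h - x)) 0 - max (min x' (2 * h - x')) 0| ≤ |x - x'| := by
  refine (abs_max_sub_max_zero _ _).trans ?_
  refine (abs_min_sub_min_le_max _ _ _ _).trans ?_
  have : 2 * h - x - (2 * h - x') = -(x - x') := by ring
  rw [this, abs_neg, max_self]

theorem abs_tent_sub_le (h x x' : ℝ) : |tent h x - tent h x'| ≤ |x - x'| := by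
  rcases le_total 0 x with hx | hx <;> rcases le_total 0 x' with hx' | hx'
  · rw [tent_nonneg_eq hx, tent_nonneg_eq hx']
    exact abs_bumpy h x x'
  · rw [tent_nonneg_eq hx, tent_nonpos_eq hx', sub_neg_eq_add]
    have h1 : max (min x (2 * h - x)) 0 ≤ x := max_le (min_le_left _ _) hx
    have h2 : max (min (-x') (2 * h + x')) 0 ≤ -x' := max_le (min_le_left _ _) (by linarith)
    have h3 : 0 ≤ max (min x (2 * h - x)) 0 := le_max_right _ _
    have h4 : 0 ≤ max (min (-x') (2 * h + x')) 0 := le_max_right _ _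
    rw [abs_of_nonneg (by linarith), abs_of_nonneg (by linarith)]
    linarith
  · rw [tent_nonpos_eq hx, tent_nonneg_eq hx']
    have h1 : max (min x' (2 * h - x')) 0 ≤ x' := max_le (min_le_left _ _) hx'
    have h2 : max (min (-x) (2 * h + x)) 0 ≤ -x := max_le (min_le_left _ _) (by linarith)
    have h3 : 0 ≤ max (min x' (2 * h - x')) 0 := le_max_right _ _
    have h4 : 0 ≤ max (min (-x) (2 * h + x)) 0 := le_max_right _ _
    rw [abs_of_nonpos (by linarith), abs_of_nonpos (by linarith)]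
    linarith
  · rw [tent_nonpos_eq hx, tent_nonpos_eq hx']
    have h1 := abs_bumpy h (-x) (-x')
    rw [sub_neg_eq_add, sub_neg_eq_add, sub_neg_eq_add] at h1
    have e1 : -max (min (-x) (2 * h + x)) 0 - -max (min (-x') (2 * h + x')) 0
        = -(max (min (-x) (2 * h + x)) 0 - max (min (-x') (2 * h + x')) 0) := by ring
    have e2 : x - x' = -(-x + x') := by ring
    rw [e1, abs_neg, e2, abs_neg]
    exact h1

theorem soft_zero (x : ℝ) : soft 0 x = x := by
  unfold soft
  rcases le_total 0 x with h0 | h0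
  · rw [max_eq_left (by linarith), max_eq_right (by linarith)]; ring
  · rw [max_eq_right (by linarith), max_eq_left (by linarith)]; ring

theorem soft_nonneg_eq {b x : ℝ} (hb : 0 ≤ b) (hx : 0 ≤ x) : soft b x = max (x - b) 0 := by
  unfold soft
  rw [max_eq_right (by linarith : -x - b ≤ 0)]; ring

theorem soft_nonpos_eq {b x : ℝ} (hb : 0 ≤ b) (hx : x ≤ 0) : soft b x = - max (-x - b) 0 := by
  unfold soft
  rw [max_eq_right (by linarith : x - b ≤ 0)]; ring

theorem soft_neg (b x : ℝ) : soft b (-x) = - soft b x := by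
  unfold soft
  rw [neg_neg]; ring

theorem soft_of_abs_le {b x : ℝ} (hx : |x| ≤ b) : soft b x = 0 := by
  unfold soft
  rw [abs_le] at hx
  rw [max_eq_right (by linarith), max_eq_right (by linarith)]; ring

theorem abs_soft_le {b : ℝ} (hb : 0 ≤ b) (x : ℝ) : |soft b x| ≤ |x| := by
  rcases le_total 0 x with hx | hx
  · rw [soft_nonneg_eq hb hx, abs_of_nonneg (le_max_right _ _), abs_of_nonneg hx]
    exact max_le (by linarith) hx
  · rw [soft_nonpos_eq hb hx, abs_neg, abs_of_nonneg (le_max_right _ _), abs_of_nonpos hx]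
    exact max_le (by linarith) (by linarith)

theorem abs_soft_sub_le {b : ℝ} (hb : 0 ≤ b) (x x' : ℝ) : |soft b x - soft b x'| ≤ |x - x'| := by
  rcases le_total 0 x with hx | hx <;> rcases le_total 0 x' with hx' | hx'
  · rw [soft_nonneg_eq hb hx, soft_nonneg_eq hb hx']
    refine (abs_max_sub_max_zero _ _).trans (le_of_eq ?_)
    congr 1; ring
  · rw [soft_nonneg_eq hb hx, soft_nonpos_eq hb hx', sub_neg_eq_add]
    have h1 : max (x - b) 0 ≤ x := max_le (by linarith) hx
    have h2 : max (-x' - b) 0 ≤ -x' := max_le (by linarith) (by linarith)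
    have h3 : 0 ≤ max (x - b) 0 := le_max_right _ _
    have h4 : 0 ≤ max (-x' - b) 0 := le_max_right _ _
    rw [abs_of_nonneg (by linarith), abs_of_nonneg (by linarith)]
    linarith
  · rw [soft_nonpos_eq hb hx, soft_nonneg_eq hb hx']
    have h1 : max (x' - b) 0 ≤ x' := max_le (by linarith) hx'
    have h2 : max (-x - b) 0 ≤ -x := max_le (by linarith) (by linarith)
    have h3 : 0 ≤ max (x' - b) 0 := le_max_right _ _
    have h4 : 0 ≤ max (-x - b) 0 := le_max_right _ _
    rw [abs_of_nonpos (by linarith), abs_of_nonpos (by linarith)]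
    linarith
  · rw [soft_nonpos_eq hb hx, soft_nonpos_eq hb hx']
    have e1 : -max (-x - b) 0 - -max (-x' - b) 0 = -(max (-x - b) 0 - max (-x' - b) 0) := by ring
    rw [e1, abs_neg]
    refine (abs_max_sub_max_zero _ _).trans (le_of_eq ?_)
    rw [← abs_neg]; congr 1; ring

theorem abs_soft_sub_le' {b b' : ℝ} (hb : 0 ≤ b) (hb' : 0 ≤ b') (x : ℝ) :
    |soft b x - soft b' x| ≤ |b - b'| := by
  rcases le_total 0 x with hx | hx
  · rw [soft_nonneg_eq hb hx, soft_nonneg_eq hb' hx]
    refine (abs_max_sub_max_zero _ _).trans (le_of_eq ?_)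
    rw [← abs_neg]; congr 1; ring
  · rw [soft_nonpos_eq hb hx, soft_nonpos_eq hb' hx]
    have e1 : -max (-x - b) 0 - -max (-x - b') 0 = -(max (-x - b) 0 - max (-x - b') 0) := by ring
    rw [e1, abs_neg]
    refine (abs_max_sub_max_zero _ _).trans (le_of_eq ?_)
    rw [← abs_neg]; congr 1; ring

/-! ### parameters -/

theorem sc_pos (k : ℤ) : 0 < sc k := Real.exp_pos _

theorem Lam_pos : 0 < Lam := Real.exp_pos _

theorem one_le_Lam : 1 ≤ Lam := by
  unfold Lam
  exact Real.one_le_exp (by norm_num)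

theorem sc_le_sc {k l : ℤ} (h : k ≤ l) : sc k ≤ sc l := by
  unfold sc
  apply Real.exp_le_exp.2
  have : (k : ℝ) ≤ l := by exact_mod_cast h
  linarith

theorem sc_succ_pos (k : ℤ) : 0 < sc (k + 1) := sc_pos _

theorem sc_le_succ (k : ℤ) : sc k ≤ sc (k + 1) := sc_le_sc (by omega)

theorem om_pos (i : ℕ) : 0 < om i := by unfold om; positivity

theorem om_le_one (i : ℕ) : om i ≤ 1 := by
  unfold om
  exact pow_le_one₀ (by norm_num) (by norm_num)

theorem rr_pos (d : ℕ) : 0 < rr d := by
  unfold rr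
  have := Lam_pos
  positivity

theorem one_le_rr (d : ℕ) : 1 ≤ rr d := by
  unfold rr
  have h1 := one_le_Lam
  have h2 : (1:ℝ) ≤ 4 ^ d := one_le_pow₀ (by norm_num)
  nlinarith

theorem rr_succ (d : ℕ) : rr (d + 1) = 4 * rr d := by
  unfold rr
  rw [pow_succ]; ring

theorem rho_succ (d : ℕ) : rho (d + 1) = rho d + 2 := by
  unfold rho
  push_cast; ring

theorem rho_nonneg (d : ℕ) : 0 ≤ rho d := by
  unfold rho
  positivity

theorem hh_pos (d : ℕ) : 0 < hh d := by
  unfold hh
  have := rr_pos d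
  positivity

theorem hh_eq (d : ℕ) : hh d = 1 / rr (d + 1) := by
  unfold hh
  rw [rr_succ]

theorem hh_le (d : ℕ) : hh d ≤ 1 / 4 := by
  unfold hh
  have h1 := one_le_rr d
  rw [div_le_div_iff₀ (by linarith) (by norm_num)]
  linarith

theorem hh_mul_rr (d : ℕ) : hh d * rr d = 1 / 4 := by
  unfold hh
  have := (rr_pos d).ne'
  field_simp

theorem ep_pos (d : ℕ) : 0 < ep d := by
  unfold ep
  positivity

theorem ep_le (d : ℕ) : ep d ≤ 1 / 100 := by
  unfold ep
  have : ((1:ℝ) / 2) ^ d ≤ 1 := pow_le_one₀ (by norm_num) (by norm_num)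
  linarith

theorem ep_le_one (d : ℕ) : ep d ≤ 1 := (ep_le d).trans (by norm_num)

theorem tendsto_ep : Tendsto ep atTop (𝓝 0) := by
  unfold ep
  have h : Tendsto (fun d : ℕ => ((1:ℝ) / 2) ^ d) atTop (𝓝 0) :=
    tendsto_pow_atTop_nhds_zero_of_lt_one (by norm_num) (by norm_num)
  simpa using h.const_mul ((1:ℝ) / 100)

/-! ### observables and cell functions -/

section
variable {H : Type} [NormedAddCommGroup H] [InnerProductSpace ℝ H]

/-- `obs i` depends only on the coordinate `(unpair i).1 ≤ i` -/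
theorem obs_congr (X : Ctx H) (i : ℕ) {v v' : ℕ → HV H} (h : v (Nat.unpair i).1 = v' (Nat.unpair i).1) :
    obs X i v = obs X i v' := by
  unfold obs
  rw [h]

theorem abs_obs_sub_le (X : Ctx H) (i : ℕ) (v v' : ℕ → HV H) :
    |obs X i v - obs X i v'| ≤ ‖v (Nat.unpair i).1 - v' (Nat.unpair i).1‖ := by
  unfold obs
  split_ifs with h
  · exact abs_norm_sub_norm_le _ _
  · rw [← inner_sub_right]
    refine (abs_real_inner_le_norm _ _).trans ?_
    have := X.he1 ((Nat.unpair i).2 - 1)
    exact mul_le_of_le_one_left (norm_nonneg _) this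

theorem abs_obs_sub_le_of (X : Ctx H) (i n : ℕ) (hi : i ≤ n) (v v' : ℕ → HV H) {δ : ℝ}
    (h : ∀ m ≤ n, ‖v m - v' m‖ ≤ δ) : |obs X i v - obs X i v'| ≤ δ :=
  (abs_obs_sub_le X i v v').trans (h _ ((Nat.unpair_left_le i).trans hi))

/-- `n`-th coordinate of the difference in the `c₀`-sum -/
theorem norm_P_sub_apply_le (p p' : P H) (n : ℕ) : ‖p n - p' n‖ ≤ ‖p - p'‖ := by
  have := (p - p').toBCF.norm_coe_le_norm n
  rw [ZeroAtInftyContinuousMap.norm_toBCF_eq_norm] at this
  exact this

theorem norm_P_apply_le (p : P H) (n : ℕ) : ‖p n‖ ≤ ‖p‖ := by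
  have := p.toBCF.norm_coe_le_norm n
  rw [ZeroAtInftyContinuousMap.norm_toBCF_eq_norm] at this
  exact this

/-- the value of the `j`-th term in `sfun` -/
noncomputable def sterm (X : Ctx H) (n : ℕ) (k : ℤ) (c : Fin n → ℤ) (d : ℕ) (v : ℕ → HV H)
    (j : Option (Fin n)) : ℝ :=
  match j with
    | none => max (1 / rr d - ‖v n‖ / sc k) (‖v n‖ / sc k - rr d)
    | some i => |om i * obs X i v / sc (k + 1) - c i| - rho d

theorem sfun_eq (X : Ctx H) (n : ℕ) (k : ℤ) (c : Fin n → ℤ) (d : ℕ) (v : ℕ → HV H) :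
    sfun X n k c d v =
      (1 / 2) * sc k * Finset.univ.sup' Finset.univ_nonempty (sterm X n k c d v) := rfl

theorem sterm_le (X : Ctx H) (n : ℕ) (k : ℤ) (c : Fin n → ℤ) (d : ℕ) (v : ℕ → HV H)
    (j : Option (Fin n)) :
    sterm X n k c d v j ≤ Finset.univ.sup' Finset.univ_nonempty (sterm X n k c d v) :=
  Finset.le_sup' (sterm X n k c d v) (Finset.mem_univ j)

theorem sterm_le_add (X : Ctx H) (n : ℕ) (k : ℤ) (c : Fin n → ℤ) (d : ℕ) (v v' : ℕ → HV H) {δ : ℝ}
    (h : ∀ m ≤ n, ‖v m - v' m‖ ≤ δ) (j : Option (Fin n)) :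
    sterm X n k c d v j ≤ sterm X n k c d v' j + δ / sc k := by
  have hδ : 0 ≤ δ := (norm_nonneg _).trans (h n le_rfl)
  have hs := sc_pos k
  cases j with
  | none =>
    show max (1 / rr d - ‖v n‖ / sc k) (‖v n‖ / sc k - rr d) ≤
      max (1 / rr d - ‖v' n‖ / sc k) (‖v' n‖ / sc k - rr d) + δ / sc k
    have h1 : |‖v n‖ - ‖v' n‖| ≤ δ := (abs_norm_sub_norm_le _ _).trans (h n le_rfl)
    rw [abs_le] at h1
    have h2 : ‖v n‖ / sc k ≤ ‖v' n‖ / sc k + δ / sc k := by
      rw [← add_div]; exact div_le_div_of_nonneg_right (by linarith) hs.le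
    have h3 : ‖v' n‖ / sc k ≤ ‖v n‖ / sc k + δ / sc k := by
      rw [← add_div]; exact div_le_div_of_nonneg_right (by linarith) hs.le
    refine max_le ?_ ?_
    · have := le_max_left (1 / rr d - ‖v' n‖ / sc k) (‖v' n‖ / sc k - rr d)
      linarith
    · have := le_max_right (1 / rr d - ‖v' n‖ / sc k) (‖v' n‖ / sc k - rr d)
      linarith
  | some i =>
    show |om i * obs X i v / sc (k + 1) - c i| - rho d ≤
      |om i * obs X i v' / sc (k + 1) - c i| - rho d + δ / sc k
    have h1 : |obs X i v - obs X i v'| ≤ δ := abs_obs_sub_le_of X i n i.2.le v v' h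
    have h2 : |om i * obs X i v / sc (k + 1) - c i| ≤
        |om i * obs X i v' / sc (k + 1) - c i| + |om i * (obs X i v - obs X i v') / sc (k + 1)| := by
      have e : om i * obs X i v / sc (k + 1) - c i = (om i * obs X i v' / sc (k + 1) - c i) +
        om i * (obs X i v - obs X i v') / sc (k + 1) := by ring
      rw [e]
      exact abs_add_le _ _
    have h3 : |om i * (obs X i v - obs X i v') / sc (k + 1)| ≤ δ / sc k := by
      rw [abs_div, abs_mul, abs_of_pos (om_pos i), abs_of_pos (sc_succ_pos k)]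
      refine div_le_div₀ hδ ?_ hs (sc_le_succ k)
      calc om i * |obs X i v - obs X i v'| ≤ 1 * δ :=
            mul_le_mul (om_le_one i) h1 (abs_nonneg _) zero_le_one
        _ = δ := one_mul _
    linarith

theorem sfun_le_add (X : Ctx H) (n : ℕ) (k : ℤ) (c : Fin n → ℤ) (d : ℕ) (v v' : ℕ → HV H) {δ : ℝ}
    (h : ∀ m ≤ n, ‖v m - v' m‖ ≤ δ) :
    sfun X n k c d v ≤ sfun X n k c d v' + (1 / 2) * δ := by
  rw [sfun_eq, sfun_eq]
  have hs := sc_pos k
  have h1 : Finset.univ.sup' Finset.univ_nonempty (sterm X n k c d v) ≤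
      Finset.univ.sup' Finset.univ_nonempty (sterm X n k c d v') + δ / sc k := by
    refine Finset.sup'_le _ _ fun j _ => ?_
    have h2 := sterm_le_add X n k c d v v' h j
    have h3 := sterm_le X n k c d v' j
    linarith
  have h4 := mul_le_mul_of_nonneg_left h1 (by positivity : (0:ℝ) ≤ 1 / 2 * sc k)
  refine h4.trans (le_of_eq ?_)
  field_simp

/-- the cell functions are `1/2`-Lipschitz -/
theorem abs_sfun_sub_le_of (X : Ctx H) (n : ℕ) (k : ℤ) (c : Fin n → ℤ) (d : ℕ) (v v' : ℕ → HV H)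
    {δ : ℝ} (h : ∀ m ≤ n, ‖v m - v' m‖ ≤ δ) :
    |sfun X n k c d v - sfun X n k c d v'| ≤ (1 / 2) * δ := by
  have h1 := sfun_le_add X n k c d v v' h
  have h2 := sfun_le_add X n k c d v' v (δ := δ) (fun m hm => by rw [norm_sub_rev]; exact h m hm)
  rw [abs_le]
  constructor <;> linarith

theorem abs_sfun_sub_le (X : Ctx H) (n : ℕ) (k : ℤ) (c : Fin n → ℤ) (d : ℕ) (p p' : P H) :
    |sfun X n k c d p - sfun X n k c d p'| ≤ (1 / 2) * ‖p - p'‖ :=
  abs_sfun_sub_le_of X n k c d p p' fun m _ => norm_P_sub_apply_le p p' m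

/-- `sfun < b` means that all terms are `< 2 b / sc k` -/
theorem sterm_lt_of_sfun_lt {X : Ctx H} {n : ℕ} {k : ℤ} {c : Fin n → ℤ} {d : ℕ} {v : ℕ → HV H} {b : ℝ}
    (h : sfun X n k c d v < b) (j : Option (Fin n)) : sterm X n k c d v j < 2 * b / sc k := by
  have hs := sc_pos k
  have h1 := sterm_le X n k c d v j
  rw [sfun_eq] at h
  rw [lt_div_iff₀ hs]
  nlinarith

theorem sfun_le_of {X : Ctx H} {n : ℕ} {k : ℤ} {c : Fin n → ℤ} {d : ℕ} {v : ℕ → HV H} {b : ℝ}
    (h1 : 1 / rr d - ‖v n‖ / sc k ≤ b) (h2 : ‖v n‖ / sc k - rr d ≤ b)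
    (h3 : ∀ i : Fin n, |om i * obs X i v / sc (k + 1) - c i| - rho d ≤ b) :
    sfun X n k c d v ≤ (1 / 2) * sc k * b := by
  rw [sfun_eq]
  refine mul_le_mul_of_nonneg_left ?_ (by have := sc_pos k; positivity)
  refine Finset.sup'_le _ _ fun j _ => ?_
  cases j with
  | none => exact max_le h1 h2
  | some i => exact h3 i

end

end Crest.Agent.R091.PhiAux
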