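import Mathlib

/-!
# Row 91: selection lemmas (helper50)

Sequences with bounded signed sums, weak nullity, selection of almost biorthogonal subsets, and
the final rescaling.
-/

set_option autoImplicit false

namespace Crest.Agent.R091.Sel

open Filter
open scoped Topology

section
variable {E : Type*} [NormedAddCommGroup E] [NormedSpace ℝ E]

/-- bounded signed sums -/
def BSS (z : ℕ → E) (M : ℝ) : Prop :=
  ∀ (A : Finset ℕ) (ε : ℕ → ℝ), (∀ i, |ε i| ≤ 1) → ‖∑ i ∈ A, ε i • z i‖ ≤ M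

theorem BSS.nonneg {z : ℕ → E} {M : ℝ} (h : BSS z M) : 0 ≤ M := by
  have := h ∅ (fun _ => 0) (by simp)
  simpa using this

/-- transfer of a combination along an injective reindexing -/
theorem sum_reindex (z : ℕ → E) {φ : ℕ → ℕ} (hφ : Function.Injective φ) (A : Finset ℕ)
    (ε : ℕ → ℝ) (hε : ∀ i, |ε i| ≤ 1) :
    ∃ (A' : Finset ℕ) (ε' : ℕ → ℝ), (∀ i, |ε' i| ≤ 1) ∧
      ∑ i ∈ A, ε i • z (φ i) = ∑ i ∈ A', ε' i • z i := by
  classical
  refine ⟨A.map ⟨φ, hφ⟩, fun j => if h : ∃ i, φ i = j then ε h.choose else 0, ?_, ?_⟩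
  · intro j
    by_cases h : ∃ i, φ i = j
    · simp only [dif_pos h]; exact hε _
    · simp [dif_neg h]
  · rw [Finset.sum_map]
    refine Finset.sum_congr rfl fun i _ => ?_
    have h : ∃ i', φ i' = φ i := ⟨i, rfl⟩
    have h2 : h.choose = i := hφ h.choose_spec
    simp only [Function.Embedding.coeFn_mk, dif_pos h, h2]

theorem BSS.comp {z : ℕ → E} {M : ℝ} (h : BSS z M) {φ : ℕ → ℕ} (hφ : Function.Injective φ) :
    BSS (fun i => z (φ i)) M := by
  intro A ε hε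
  obtain ⟨A', ε', h1, h2⟩ := sum_reindex z hφ A ε hε
  rw [h2]; exact h A' ε' h1

theorem BSS.map {F : Type*} [NormedAddCommGroup F] [NormedSpace ℝ F] {z : ℕ → E} {M : ℝ}
    (h : BSS z M) (L : E →L[ℝ] F) : BSS (fun i => L (z i)) (‖L‖ * M) := by
  intro A ε hε
  have : ∑ i ∈ A, ε i • L (z i) = L (∑ i ∈ A, ε i • z i) := by
    rw [map_sum]; exact Finset.sum_congr rfl fun i _ => (L.map_smul _ _).symm
  rw [this]
  exact (L.le_opNorm _).trans (mul_le_mul_of_nonneg_left (h A ε hε) (norm_nonneg _))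

/-- choice of signs in an inner product space -/
theorem exists_signs {V : Type*} [NormedAddCommGroup V] [InnerProductSpace ℝ V] (x : ℕ → V)
    (A : Finset ℕ) : ∃ ε : ℕ → ℝ, (∀ i, |ε i| ≤ 1) ∧
      ∑ i ∈ A, ‖x i‖ ^ 2 ≤ ‖∑ i ∈ A, ε i • x i‖ ^ 2 := by
  classical
  induction A using Finset.induction_on with
  | empty => exact ⟨fun _ => 0, by simp, by simp⟩
  | insert a A ha ih =>
    obtain ⟨ε, h1, h2⟩ := ih
    set S := ∑ i ∈ A, ε i • x i with hS
    obtain ⟨s, hs, hs'⟩ : ∃ s : ℝ, |s| = 1 ∧ 0 ≤ s * inner ℝ (x a) S := by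
      rcases le_total 0 (inner ℝ (x a) S) with h | h
      · exact ⟨1, by simp, by simpa using h⟩
      · exact ⟨-1, by simp, by linarith⟩
    refine ⟨fun i => if i = a then s else ε i, fun i => ?_, ?_⟩
    · by_cases hi : i = a
      · simp [hi, hs]
      · simp [hi, h1]
    · rw [Finset.sum_insert ha, Finset.sum_insert ha]
      have e1 : ∑ i ∈ A, (if i = a then s else ε i) • x i = S := by
        rw [hS]
        refine Finset.sum_congr rfl fun i hi => ?_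
        have hia : i ≠ a := fun h => ha (h ▸ hi)
        rw [if_neg hia]
      rw [e1]
      simp only [↓reduceIte]
      rw [norm_add_sq_real, norm_smul, inner_smul_left, Real.norm_eq_abs, hs]
      simp only [one_mul, conj_trivial]
      nlinarith

theorem BSS.tendsto_hilbert {V : Type*} [NormedAddCommGroup V] [InnerProductSpace ℝ V]
    {z : ℕ → V} {M : ℝ} (h : BSS z M) : Tendsto (fun i => ‖z i‖) atTop (𝓝 0) := by
  have hM := h.nonneg
  have h1 : ∀ A : Finset ℕ, ∑ i ∈ A, ‖z i‖ ^ 2 ≤ M ^ 2 := by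
    intro A
    obtain ⟨ε, h1, h2⟩ := exists_signs z A
    exact h2.trans (pow_le_pow_left₀ (norm_nonneg _) (h A ε h1) 2)
  have h2 : Summable (fun i => ‖z i‖ ^ 2) :=
    summable_of_sum_le (fun i => by positivity) h1
  have h3 := h2.tendsto_atTop_zero
  have h4 : Tendsto (fun i => Real.sqrt (‖z i‖ ^ 2)) atTop (𝓝 (Real.sqrt 0)) :=
    (Real.continuous_sqrt.tendsto 0).comp h3
  simpa [Real.sqrt_sq (norm_nonneg _)] using h4

theorem BSS.tendsto_clm {V : Type*} [NormedAddCommGroup V] [InnerProductSpace ℝ V]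
    {z : ℕ → E} {M : ℝ} (h : BSS z M) (L : E →L[ℝ] V) : Tendsto (fun i => L (z i)) atTop (𝓝 0) :=
  tendsto_zero_iff_norm_tendsto_zero.2 (h.map L).tendsto_hilbert

/-- selection of an almost biorthogonal finite subset -/
theorem select (F : ℕ → (E →L[ℝ] ℝ)) (z : ℕ → E) (S : Set ℕ) (hS : ∃ᶠ i in atTop, i ∈ S)
    (h1 : ∀ j, Tendsto (fun i => F j (z i)) atTop (𝓝 0))
    (h2 : ∀ j, Tendsto (fun i => F i (z j)) atTop (𝓝 0))
    (Rel : ℕ → ℕ → Prop) (h3 : ∀ j, ∀ᶠ i in atTop, Rel j i) {δ : ℝ} (hδ : 0 < δ) (m : ℕ) :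
    ∃ A : Finset ℕ, (∀ i ∈ A, i ∈ S) ∧ A.card = m ∧
      (∀ i ∈ A, ∀ j ∈ A, i ≠ j → |F i (z j)| ≤ δ) ∧ (∀ i ∈ A, ∀ j ∈ A, i < j → Rel i j) := by
  classical
  induction m with
  | zero => exact ⟨∅, by simp, rfl, by simp, by simp⟩
  | succ m ih =>
    obtain ⟨A, hA, hc, hd, hr⟩ := ih
    have e1 : ∀ᶠ i in atTop, ∀ j ∈ A, |F j (z i)| ≤ δ ∧ |F i (z j)| ≤ δ ∧ Rel j i ∧ j < i := by
      rw [Finset.eventually_all]
      intro j _
      have a1 := (Metric.tendsto_nhds.1 (h1 j)) δ hδ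
      have a2 := (Metric.tendsto_nhds.1 (h2 j)) δ hδ
      filter_upwards [a1, a2, h3 j, eventually_gt_atTop j] with i b1 b2 b3 b4
      rw [Real.dist_eq, sub_zero] at b1 b2
      exact ⟨b1.le, b2.le, b3, b4⟩
    obtain ⟨i, hi, hi'⟩ := (hS.and_eventually e1).exists
    have hiA : i ∉ A := fun h => absurd (hi' i h).2.2.2 (lt_irrefl i)
    refine ⟨insert i A, ?_, ?_, ?_, ?_⟩
    · intro j hj
      rcases Finset.mem_insert.1 hj with rfl | hj
      · exact hi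
      · exact hA j hj
    · rw [Finset.card_insert_of_notMem hiA, hc]
    · intro a ha b hb hab
      rcases Finset.mem_insert.1 ha with ha1 | ha1
      · rcases Finset.mem_insert.1 hb with hb1 | hb1
        · exact absurd (ha1.trans hb1.symm) hab
        · rw [ha1]; exact (hi' b hb1).2.1
      · rcases Finset.mem_insert.1 hb with hb1 | hb1
        · rw [hb1]; exact (hi' a ha1).1
        · exact hd a ha1 b hb1 hab
    · intro a ha b hb hab
      rcases Finset.mem_insert.1 ha with ha1 | ha1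
      · rcases Finset.mem_insert.1 hb with hb1 | hb1
        · rw [ha1, hb1] at hab; exact absurd hab (lt_irrefl _)
        · rw [ha1] at hab; exact absurd hab (not_lt.2 (hi' b hb1).2.2.2.le)
      · rcases Finset.mem_insert.1 hb with hb1 | hb1
        · rw [hb1]; exact (hi' a ha1).2.2.1
        · exact hr a ha1 b hb1 hab

/-- value of the sum functional on the sum vector -/
theorem value_ge (F : ℕ → (E →L[ℝ] ℝ)) (z : ℕ → E) (A : Finset ℕ) {κ δ : ℝ}
    (hv : ∀ i ∈ A, κ ≤ F i (z i)) (hd : ∀ i ∈ A, ∀ j ∈ A, i ≠ j → |F i (z j)| ≤ δ) (hδ : 0 ≤ δ) :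
    A.card * κ - A.card * A.card * δ ≤ (∑ i ∈ A, F i) (∑ i ∈ A, (1 : ℝ) • z i) := by
  classical
  rw [sum_apply]
  have h1 : ∀ i ∈ A, κ - A.card * δ ≤ F i (∑ j ∈ A, (1 : ℝ) • z j) := by
    intro i hi
    rw [map_sum, ← Finset.add_sum_erase A _ hi]
    simp only [one_smul]
    have h2 : |∑ j ∈ A.erase i, F i (z j)| ≤ A.card * δ := by
      refine (Finset.abs_sum_le_sum_abs _ _).trans ?_
      refine (Finset.sum_le_card_nsmul _ _ δ fun j hj => ?_).trans ?_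
      · exact hd i hi j (Finset.mem_of_mem_erase hj) (Finset.ne_of_mem_erase hj).symm
      · rw [nsmul_eq_mul]
        refine mul_le_mul_of_nonneg_right ?_ hδ
        exact_mod_cast Finset.card_le_card (Finset.erase_subset _ _)
    have h3 := hv i hi
    have h4 := (abs_le.1 h2).1
    linarith
  have h5 := Finset.sum_le_sum h1
  rw [Finset.sum_const, nsmul_eq_mul] at h5
  calc (A.card : ℝ) * κ - A.card * A.card * δ = A.card * (κ - A.card * δ) := by ring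
    _ ≤ _ := h5

end

section
variable {E : Type*} [NormedAddCommGroup E] [NormedSpace ℝ E] {P : Type*} [PseudoMetricSpace P]

/-- the intermediate goal -/
def Pre (β : P → E) (z : ℕ → E) : Prop :=
  ∃ κ L B : ℝ, 0 < κ ∧ 1 ≤ L ∧ 1 ≤ B ∧ ∀ m : ℕ, 1 ≤ m → ∃ (A : Finset ℕ) (ε : ℕ → ℝ) (G : E →L[ℝ] ℝ),
    (∀ i, |ε i| ≤ 1) ∧ ‖G‖ ≤ B * m ∧ (∀ p q, |G (β p) - G (β q)| ≤ L * dist p q) ∧
    m * κ - 1 ≤ G (∑ i ∈ A, ε i • z i)

theorem Pre.of_comp {β : P → E} {z : ℕ → E} {φ : ℕ → ℕ} (hφ : Function.Injective φ)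
    (h : Pre β (fun i => z (φ i))) : Pre β z := by
  obtain ⟨κ, L, B, h1, h2, h3, h4⟩ := h
  refine ⟨κ, L, B, h1, h2, h3, fun m hm => ?_⟩
  obtain ⟨A, ε, G, a1, a2, a3, a4⟩ := h4 m hm
  obtain ⟨A', ε', b1, b2⟩ := sum_reindex z hφ A ε a1
  exact ⟨A', ε', G, b1, a2, a3, by rw [← b2]; exact a4⟩

/-- extraction of a subsequence -/
theorem Pre.of_frequently {β : P → E} {z : ℕ → E} {p : ℕ → Prop} (hp : ∃ᶠ i in atTop, p i)
    (h : ∀ φ : ℕ → ℕ, StrictMono φ → (∀ i, p (φ i)) → Pre β (fun i => z (φ i))) : Pre β z := by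
  obtain ⟨φ, h1, h2⟩ := extraction_of_frequently_atTop hp
  exact Pre.of_comp h1.injective (h φ h1 h2)

/-- direct sums: for every `m` an almost biorthogonal set of functionals whose sum is Lipschitz -/
theorem Pre.of_select {β : P → E} {z : ℕ → E} (κ L : ℝ) (hκ : 0 < κ) (hL : 1 ≤ L)
    (h : ∀ m : ℕ, 1 ≤ m → ∃ (F : ℕ → (E →L[ℝ] ℝ)) (S : Set ℕ) (Rel : ℕ → ℕ → Prop),
      (∃ᶠ i in atTop, i ∈ S) ∧ (∀ j, Tendsto (fun i => F j (z i)) atTop (𝓝 0)) ∧
      (∀ j, Tendsto (fun i => F i (z j)) atTop (𝓝 0)) ∧ (∀ j, ∀ᶠ i in atTop, Rel j i) ∧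
      (∀ i, ‖F i‖ ≤ 1) ∧ (∀ i ∈ S, κ ≤ F i (z i)) ∧
      ∀ A : Finset ℕ, (∀ i ∈ A, i ∈ S) → A.card = m → (∀ i ∈ A, ∀ j ∈ A, i < j → Rel i j) →
        ∀ p q, |∑ i ∈ A, (F i (β p) - F i (β q))| ≤ L * dist p q) : Pre β z := by
  classical
  refine ⟨κ, L, 1, hκ, hL, le_rfl, fun m hm => ?_⟩
  obtain ⟨F, S, Rel, hS, h1, h2, h3, h4, h5, h6⟩ := h m hm
  have hm' : (0 : ℝ) < m := by exact_mod_cast hm
  have hδ : (0 : ℝ) < 1 / (m * m) := by positivity
  obtain ⟨A, a1, a2, a3, a4⟩ := select F z S hS h1 h2 Rel h3 hδ m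
  refine ⟨A, fun _ => 1, ∑ i ∈ A, F i, fun _ => by simp, ?_, ?_, ?_⟩
  · rw [one_mul]
    refine (norm_sum_le _ _).trans ?_
    refine (Finset.sum_le_card_nsmul _ _ 1 fun i _ => h4 i).trans ?_
    rw [a2]; simp
  · intro p q
    rw [sum_apply, sum_apply, ← Finset.sum_sub_distrib]
    exact h6 A a1 a2 a4 p q
  · have := value_ge F z A (fun i hi => h5 i (a1 i hi)) a3 hδ.le
    rw [a2] at this
    have e : (m : ℝ) * m * (1 / (m * m)) = 1 := by field_simp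
    rw [e] at this
    exact this

/-- final rescaling -/
theorem Pre.finish {β : P → E} {z : ℕ → E} (h : Pre β z) (N : ℝ) :
    ∃ (l : ℕ) (A : Finset ℕ) (ε : ℕ → ℝ) (G : E →L[ℝ] ℝ), (∀ i, |ε i| ≤ 1) ∧
      ‖G‖ ≤ 1000 ^ l ∧ (∀ p q, |G (β p) - G (β q)| ≤ dist p q) ∧
      N ≤ (1 / 2 : ℝ) ^ (l + 1) * G (∑ i ∈ A, ε i • z i) := by
  obtain ⟨κ, L, B, h1, h2, h3, h4⟩ := h
  have hL0 : 0 < L := by linarith
  -- choose l
  have t1 : Tendsto (fun l : ℕ => (2 : ℝ) ^ l) atTop atTop :=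
    tendsto_pow_atTop_atTop_of_one_lt (by norm_num)
  obtain ⟨l, hl1, hl2⟩ := ((t1.eventually_ge_atTop (2 * (|N| * L + 1) / κ)).and
    (t1.eventually_ge_atTop B)).exists
  have e4 : ((4 ^ l : ℕ) : ℝ) = (2 : ℝ) ^ l * 2 ^ l := by
    push_cast; rw [← mul_pow]; norm_num
  obtain ⟨A, ε, G, a1, a2, a3, a4⟩ := h4 (4 ^ l) (Nat.one_le_pow _ _ (by norm_num))
  have hp : (0 : ℝ) < 2 ^ l := by positivity
  refine ⟨l, A, ε, (1 / L) • G, a1, ?_, ?_, ?_⟩
  · rw [norm_smul, Real.norm_eq_abs, abs_of_pos (by positivity)]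
    have b1 : 1 / L * ‖G‖ ≤ ‖G‖ := by
      have : 1 / L ≤ 1 := by rw [div_le_one hL0]; exact h2
      calc 1 / L * ‖G‖ ≤ 1 * ‖G‖ := mul_le_mul_of_nonneg_right this (norm_nonneg _)
        _ = ‖G‖ := one_mul _
    refine b1.trans (a2.trans ?_)
    rw [e4]
    calc B * ((2 : ℝ) ^ l * 2 ^ l) ≤ 2 ^ l * (2 ^ l * 2 ^ l) :=
          mul_le_mul_of_nonneg_right hl2 (by positivity)
      _ = 8 ^ l := by rw [← mul_pow, ← mul_pow]; norm_num
      _ ≤ 1000 ^ l := pow_le_pow_left₀ (by norm_num) (by norm_num) l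
  · intro p q
    simp only [smul_apply, smul_eq_mul]
    rw [← mul_sub, abs_mul, abs_of_pos (by positivity)]
    calc 1 / L * |G (β p) - G (β q)| ≤ 1 / L * (L * dist p q) :=
          mul_le_mul_of_nonneg_left (a3 p q) (by positivity)
      _ = dist p q := by field_simp
  · simp only [smul_apply, smul_eq_mul]
    rw [e4] at a4
    have c1 : |N| * L + 1 ≤ (2 : ℝ) ^ l * κ / 2 := by
      rw [div_le_iff₀ h1] at hl1; linarith
    have c2 : (1 / 2 : ℝ) ^ (l + 1) * (1 / L * ((2 : ℝ) ^ l * 2 ^ l * κ - 1)) ≤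
        (1 / 2 : ℝ) ^ (l + 1) * (1 / L * G (∑ i ∈ A, ε i • z i)) := by
      apply mul_le_mul_of_nonneg_left _ (by positivity)
      exact mul_le_mul_of_nonneg_left a4 (by positivity)
    refine le_trans ?_ c2
    have c3 : (1 / 2 : ℝ) ^ (l + 1) * (1 / L * ((2 : ℝ) ^ l * 2 ^ l * κ - 1)) =
        ((2 : ℝ) ^ l * κ / 2 - (1 / 2 : ℝ) ^ (l + 1)) / L := by
      have : (1 / 2 : ℝ) ^ (l + 1) = 1 / (2 * 2 ^ l) := by
        rw [one_div_pow, pow_succ]; ring
      rw [this]; field_simp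
    rw [c3, le_div_iff₀ hL0]
    have c4 : (1 / 2 : ℝ) ^ (l + 1) ≤ 1 := pow_le_one₀ (by norm_num) (by norm_num)
    have c5 : N * L ≤ |N| * L := mul_le_mul_of_nonneg_right (le_abs_self _) hL0.le
    linarith

end

end Crest.Agent.R091.Sel
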