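import Crest.Agent.R091.Cont
import Crest.Agent.R091.PhiAux
import Crest.Agent.R091.C0
import Crest.Agent.R091.Flat
import Crest.Agent.R091.Sel

/-!
# Row 91: cases V-flat, U-flat, U-overlap (helper50)
-/

set_option autoImplicit false

namespace Crest.Agent.R091.Cases

open Filter
open scoped Topology ZeroAtInfty
open Crest.Agent.R091.Sel

section
variable {ι F : Type} [TopologicalSpace ι] [DiscreteTopology ι] [NormedAddCommGroup F]
  [NormedSpace ℝ F]

/-- evaluation on `C₀` -/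
noncomputable def evC (i : ι) : C₀(ι, F) →L[ℝ] F :=
  LinearMap.mkContinuous
    { toFun := fun f => f i, map_add' := fun _ _ => rfl, map_smul' := fun _ _ => rfl } 1
    (fun f => by rw [one_mul]; exact norm_apply_le_c0 f i)

@[simp] theorem evC_apply (i : ι) (f : C₀(ι, F)) : evC i f = f i := rfl

theorem norm_evC_le (i : ι) : ‖(evC i : C₀(ι, F) →L[ℝ] F)‖ ≤ 1 :=
  LinearMap.mkContinuous_norm_le _ zero_le_one _

end

/-- the functional `⟨f, z(V_n)⟩` -/
noncomputable def fn (n : ℕ) (f : V) : E →L[ℝ] ℝ :=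
  (innerSL ℝ f).comp ((evC n).comp (ContinuousLinearMap.fst ℝ Vs C₀(Sg, ℝ)))

@[simp] theorem fn_apply (n : ℕ) (f : V) (z : E) : fn n f z = inner ℝ f (z.1 n) := rfl

theorem abs_fn_le (n : ℕ) (f : V) (z : E) : |fn n f z| ≤ ‖f‖ * ‖z.1 n‖ := by
  rw [fn_apply]; exact abs_real_inner_le_norm _ _

theorem norm_fn_le (n : ℕ) (f : V) : ‖fn n f‖ ≤ ‖f‖ := by
  refine ContinuousLinearMap.opNorm_le_bound _ (norm_nonneg _) fun z => ?_
  refine (abs_fn_le n f z).trans (mul_le_mul_of_nonneg_left ?_ (norm_nonneg _))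
  exact (norm_apply_le_c0 z.1 n).trans (_root_.norm_fst_le z)

/-- the coordinate functional -/
noncomputable def fs (σ : Sg) : E →L[ℝ] ℝ :=
  (evC σ).comp (ContinuousLinearMap.snd ℝ Vs C₀(Sg, ℝ))

@[simp] theorem fs_apply (σ : Sg) (z : E) : fs σ z = z.2 σ := rfl

theorem norm_fs_le (σ : Sg) : ‖fs σ‖ ≤ 1 := by
  refine ContinuousLinearMap.opNorm_le_bound _ zero_le_one fun z => ?_
  rw [one_mul]
  exact (norm_apply_le_c0 z.2 σ).trans (_root_.norm_snd_le z)

variable {H : Type} [NormedAddCommGroup H] [InnerProductSpace ℝ H]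

/-- `βP` is the map with the right coordinates -/
structure IsBeta (X : Ctx H) (βP : P H → E) : Prop where
  b1 : ∀ p n, (βP p).1 n = beta X n p
  b2 : ∀ p σ, (βP p).2 σ = Phi X σ p

theorem tendsto_of_inj {z : E} {σ : ℕ → Sg} (hσ : Tendsto σ atTop cofinite) :
    Tendsto (fun i => z.2 (σ i)) atTop (𝓝 0) :=
  (tendsto_cofinite_c0 z.2).comp hσ

theorem tendsto_level {z : E} {n : ℕ → ℕ} (hn : Tendsto n atTop atTop) :
    Tendsto (fun i => ‖z.1 (n i)‖) atTop (𝓝 0) := by
  have h := tendsto_cofinite_c0 z.1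
  rw [Nat.cofinite_eq_atTop] at h
  exact tendsto_zero_iff_norm_tendsto_zero.1 (h.comp hn)

/-- coordinates of a sequence with bounded signed sums tend to zero -/
theorem BSS_coord {z : ℕ → E} {M : ℝ} (h : BSS z M) (G : E →L[ℝ] ℝ) :
    Tendsto (fun i => G (z i)) atTop (𝓝 0) := h.tendsto_clm G

theorem BSS_level {z : ℕ → E} {M : ℝ} (h : BSS z M) (n : ℕ) :
    Tendsto (fun i => (z i).1 n) atTop (𝓝 0) :=
  h.tendsto_clm ((evC n).comp (ContinuousLinearMap.fst ℝ Vs C₀(Sg, ℝ)) : E →L[ℝ] V)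

/-- if a coordinate is `≥ c/2` on the index `n i`, then `n i → ∞` -/
theorem tendsto_index {α : Type} (g : ℕ → α → ℝ) (n : ℕ → α) {c : ℝ} (hc : 0 < c)
    (h1 : ∀ i, c ≤ g i (n i)) (h2 : ∀ a, Tendsto (fun i => g i a) atTop (𝓝 0)) :
    Tendsto n atTop cofinite := by
  refine le_cofinite_iff_eventually_ne.2 fun a => ?_
  rw [eventually_map]
  have h3 := (Metric.tendsto_nhds.1 (h2 a)) c hc
  filter_upwards [h3] with i hi hia
  rw [Real.dist_eq, sub_zero] at hi
  have := h1 i
  rw [hia] at this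
  linarith [le_abs_self (g i a)]

/-- **V-flat** -/
theorem pre_Vflat {X : Ctx H} {βP : P H → E} (hβ : IsBeta X βP) {z : ℕ → E} {M : ℝ}
    (hz : BSS z M) {c : ℝ} (hc : 0 < c) (n : ℕ → ℕ) (hn : ∀ i, c / 2 ≤ ‖(z i).1 (n i)‖)
    (hflat : ∀ m : ℕ, 1 ≤ m → ∃ᶠ i in atTop, ∀ (k : ℤ) (cc : Fin (n i) → ℤ),
      ‖restr (win (n i) k cc) ((z i).1 (n i))‖ ≤ (1 / m : ℝ) * ‖(z i).1 (n i)‖) :
    Pre βP z := by
  have hnt : Tendsto n atTop atTop := by
    rw [← Nat.cofinite_eq_atTop]
    rw [Nat.cofinite_eq_atTop]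
    have := tendsto_index (fun i a => ‖(z i).1 a‖) n (half_pos hc) hn
      (fun a => tendsto_zero_iff_norm_tendsto_zero.1 (BSS_level hz a))
    rwa [Nat.cofinite_eq_atTop] at this
  refine Pre.of_select (c / 2) 12 (half_pos hc) (by norm_num) fun m hm => ?_
  have hm' : (0 : ℝ) < m := by exact_mod_cast hm
  have hpos : ∀ i, 0 < ‖(z i).1 (n i)‖ := fun i => lt_of_lt_of_le (half_pos hc) (hn i)
  have hunit : ∀ i, ‖(‖(z i).1 (n i)‖⁻¹ • (z i).1 (n i) : V)‖ = 1 := by
    intro i
    rw [norm_smul, norm_inv, norm_norm, inv_mul_cancel₀ (hpos i).ne']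
  refine ⟨fun i => fn (n i) (‖(z i).1 (n i)‖⁻¹ • (z i).1 (n i)),
    {i | ∀ (k : ℤ) (cc : Fin (n i) → ℤ),
      ‖restr (win (n i) k cc) ((z i).1 (n i))‖ ≤ (1 / m : ℝ) * ‖(z i).1 (n i)‖},
    fun _ _ => True, hflat m hm, fun j => BSS_coord hz _, ?_, fun _ => by simp, ?_, ?_, ?_⟩
  · intro j
    rw [tendsto_zero_iff_norm_tendsto_zero]
    refine squeeze_zero (fun _ => norm_nonneg _) (fun i => ?_) (tendsto_level (z := z j) hnt)
    refine (abs_fn_le _ _ _).trans ?_
    rw [hunit i, one_mul]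
  · intro i
    exact (norm_fn_le _ _).trans (hunit i).le
  · intro i _
    rw [fn_apply, inner_smul_left, real_inner_self_eq_norm_sq]
    simp only [map_inv₀, conj_trivial]
    rw [pow_two, inv_mul_cancel_left₀ (hpos i).ne']
    exact hn i
  · intro A hA hAc _ p q
    refine (Finset.abs_sum_le_sum_abs _ _).trans ?_
    have h1 : ∀ i ∈ A, |fn (n i) (‖(z i).1 (n i)‖⁻¹ • (z i).1 (n i)) (βP p) -
        fn (n i) (‖(z i).1 (n i)‖⁻¹ • (z i).1 (n i)) (βP q)| ≤ 12 * (1 / m) * dist p q := by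
      intro i hi
      rw [fn_apply, fn_apply, hβ.b1, hβ.b1, dist_eq_norm]
      refine flat_lip X (n i) _ (1 / m) (by positivity) (fun k cc => ?_) p q
      have e : restr (win (n i) k cc) (‖(z i).1 (n i)‖⁻¹ • (z i).1 (n i)) =
          ‖(z i).1 (n i)‖⁻¹ • restr (win (n i) k cc) ((z i).1 (n i)) := by
        apply lp.ext; funext κ
        simp only [restr_apply, lp.coeFn_smul, Pi.smul_apply]
        by_cases hκ : κ ∈ win (n i) k cc
        · simp [Set.indicator_of_mem hκ]
        · simp [Set.indicator_of_notMem hκ]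
      rw [e, norm_smul, norm_inv, norm_norm, inv_mul_le_iff₀ (hpos i)]
      have := hA i hi k cc
      linarith
    refine (Finset.sum_le_card_nsmul _ _ _ h1).trans ?_
    rw [hAc, nsmul_eq_mul]
    apply le_of_eq
    field_simp

/-- sign making a real number nonnegative -/
theorem exists_sign (x : ℝ) : ∃ s : ℝ, |s| = 1 ∧ s * x = |x| := by
  rcases le_total 0 x with h | h
  · exact ⟨1, by simp, by rw [one_mul, abs_of_nonneg h]⟩
  · exact ⟨-1, by simp, by rw [abs_of_nonpos h]; ring⟩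

/-- **U-flat** -/
theorem pre_Uflat {X : Ctx H} {βP : P H → E} (hβ : IsBeta X βP) {z : ℕ → E} {M : ℝ}
    (hz : BSS z M) {c : ℝ} (hc : 0 < c) (σ : ℕ → Sg) (hσ : ∀ i, c / 2 ≤ |(z i).2 (σ i)|)
    (hflat : ∀ D : ℕ, ∃ᶠ i in atTop, D ≤ (σ i).2.2.2.2.2) : Pre βP z := by
  have hσt : Tendsto σ atTop cofinite :=
    tendsto_index (fun i a => |(z i).2 a|) σ (half_pos hc) hσ
      (fun a => by simpa using (BSS_coord hz (fs a)).abs)
  choose s hs1 hs2 using fun i => exists_sign ((z i).2 (σ i))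
  refine Pre.of_select (c / 2) 1 (half_pos hc) le_rfl fun m hm => ?_
  have hm' : (0 : ℝ) < m := by exact_mod_cast hm
  obtain ⟨D, hD⟩ := ((Metric.tendsto_nhds.1 PhiAux.tendsto_ep) (1 / (2 * m))
    (by positivity)).exists_forall_of_atTop
  refine ⟨fun i => s i • fs (σ i), {i | D ≤ (σ i).2.2.2.2.2}, fun _ _ => True, hflat D,
    fun j => BSS_coord hz _, ?_, fun _ => by simp, ?_, ?_, ?_⟩
  · intro j
    rw [tendsto_zero_iff_norm_tendsto_zero]
    have h0 := (tendsto_zero_iff_norm_tendsto_zero.1 (tendsto_of_inj (z := z j) hσt))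
    refine h0.congr fun i => ?_
    rw [smul_apply, norm_smul, Real.norm_eq_abs (s i), hs1, one_mul, fs_apply]
  · intro i
    rw [norm_smul, Real.norm_eq_abs, hs1, one_mul]; exact norm_fs_le _
  · intro i _
    rw [smul_apply, smul_eq_mul, fs_apply, hs2]; exact hσ i
  · intro A hA hAc _ p q
    refine (Finset.abs_sum_le_sum_abs _ _).trans ?_
    have h1 : ∀ i ∈ A, |(s i • fs (σ i)) (βP p) - (s i • fs (σ i)) (βP q)| ≤
        1 / m * dist p q := by
      intro i hi
      rw [smul_apply, smul_apply, smul_eq_mul, smul_eq_mul, ← mul_sub, abs_mul, hs1, one_mul,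
        fs_apply, fs_apply, hβ.b2, hβ.b2, dist_eq_norm]
      have h2 := hD _ (hA i hi)
      rw [Real.dist_eq, sub_zero, abs_of_pos (PhiAux.ep_pos _)] at h2
      rcases hσi : σ i with ⟨n, g, a, cc, k, d⟩
      refine (abs_Phi_sub_le X n g a cc k d p q).trans ?_
      refine mul_le_mul_of_nonneg_right ?_ (norm_nonneg _)
      have h3 : ep d < 1 / (2 * m) := by
        have : (σ i).2.2.2.2.2 = d := by rw [hσi]
        rw [this] at h2; exact h2
      have h4 : 1 / (2 * (m : ℝ)) = 1 / m / 2 := by field_simp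
      rw [h4] at h3
      linarith
    refine (Finset.sum_le_card_nsmul _ _ _ h1).trans ?_
    rw [hAc, nsmul_eq_mul]
    apply le_of_eq
    field_simp

/-- **U-overlap** -/
theorem pre_Uoverlap {X : Ctx H} {βP : P H → E} (hβ : IsBeta X βP) {z : ℕ → E} {M : ℝ}
    (hz : BSS z M) {c : ℝ} (hc : 0 < c) (σ : ℕ → Sg) (hσ : ∀ i, c / 2 ≤ |(z i).2 (σ i)|)
    (n d : ℕ) (hn : ∀ i, (σ i).1 = n) (hd : ∀ i, (σ i).2.2.2.2.2 = d) : Pre βP z := by
  classical
  have hσt : Tendsto σ atTop cofinite :=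
    tendsto_index (fun i a => |(z i).2 a|) σ (half_pos hc) hσ
      (fun a => by simpa using (BSS_coord hz (fs a)).abs)
  choose s hs1 hs2 using fun i => exists_sign ((z i).2 (σ i))
  obtain ⟨N, hN⟩ := Phi_overlap X n d
  refine Pre.of_select (c / 2) (max 1 (2 * N * (2 * ep d))) (half_pos hc) (le_max_left _ _)
    fun m hm => ?_
  refine ⟨fun i => s i • fs (σ i), Set.univ, fun i j => σ j ≠ σ i,
    Frequently.of_forall fun i => Set.mem_univ i,
    fun j => BSS_coord hz _, ?_, ?_, ?_, ?_, ?_⟩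
  · intro j
    rw [tendsto_zero_iff_norm_tendsto_zero]
    have h0 := (tendsto_zero_iff_norm_tendsto_zero.1 (tendsto_of_inj (z := z j) hσt))
    refine h0.congr fun i => ?_
    rw [smul_apply, norm_smul, Real.norm_eq_abs (s i), hs1, one_mul, fs_apply]
  · intro j
    exact eventually_map.1 ((le_cofinite_iff_eventually_ne.1 hσt) (σ j))
  · intro i
    rw [norm_smul, Real.norm_eq_abs, hs1, one_mul]; exact norm_fs_le _
  · intro i _
    rw [smul_apply, smul_eq_mul, fs_apply, hs2]; exact hσ i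
  · intro A _ _ hR p q
    have hinj : ∀ i ∈ A, ∀ j ∈ A, σ i = σ j → i = j := by
      intro i hi j hj hij
      by_contra hne
      rcases lt_or_gt_of_ne hne with h | h
      · exact hR i hi j hj h hij.symm
      · exact hR j hj i hi h hij
    have h1 := Flat.lip_overlap_sum (P := P H) A (C := 2 * ep d)
      (by have := PhiAux.ep_pos d; positivity) N
      (fun i v => s i * Phi X (σ i) v) (by
        intro i _ x y
        show |s i * Phi X (σ i) x - s i * Phi X (σ i) y| ≤ _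
        rw [← mul_sub, abs_mul, hs1, one_mul, dist_eq_norm]
        have e2 := hd i
        rcases hσi : σ i with ⟨n', g, a, cc, k, d'⟩
        rw [hσi] at e2
        simp only at e2
        rw [← e2]
        exact abs_Phi_sub_le X n' g a cc k d' x y) (by
        intro v
        refine ⟨A.filter (fun i => s i * Phi X (σ i) v ≠ 0), ?_, fun i hi h => by
          rw [Finset.mem_filter]; exact ⟨hi, h⟩⟩
        have h2 : ((A.filter (fun i => s i * Phi X (σ i) v ≠ 0)).image σ).card ≤ N := by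
          apply hN v
          intro τ hτ
          rw [Finset.mem_image] at hτ
          obtain ⟨i, hi, rfl⟩ := hτ
          rw [Finset.mem_filter] at hi
          exact ⟨hn i, hd i, right_ne_zero_of_mul hi.2⟩
        rwa [Finset.card_image_of_injOn] at h2
        intro i hi j hj hij
        rw [Finset.coe_filter] at hi hj
        exact hinj i hi.1 j hj.1 hij)
    have h2 := h1 p q
    have e3 : ∑ i ∈ A, ((s i • fs (σ i)) (βP p) - (s i • fs (σ i)) (βP q)) =
        (∑ i ∈ A, s i * Phi X (σ i) p) - ∑ i ∈ A, s i * Phi X (σ i) q := by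
      rw [← Finset.sum_sub_distrib]
      refine Finset.sum_congr rfl fun i _ => ?_
      rw [smul_apply, smul_apply, smul_eq_mul, smul_eq_mul, fs_apply, fs_apply, hβ.b2, hβ.b2]
    rw [e3]
    refine h2.trans (mul_le_mul_of_nonneg_right (le_max_right _ _) dist_nonneg)

end Crest.Agent.R091.Cases
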