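import Crest.Agent.R091.Defs

/-! # Row 91, module Tens: `θ ⊗ y` -/

set_option autoImplicit false

namespace Crest.Agent.R091

theorem tens_apply (θ : lp (fun _ : Node => ℝ) 2) (y : Y) (κ : Node) : (tens θ y) κ = θ κ • y := rfl

theorem norm_tens_apply (θ : lp (fun _ : Node => ℝ) 2) (y : Y) : ‖tens θ y‖ = ‖θ‖ * ‖y‖ :=
  norm_tensV θ y

theorem tens_sub (θ θ' : lp (fun _ : Node => ℝ) 2) : tens (θ - θ') = tens θ - tens θ' := by
  ext1 y
  refine Subtype.ext (funext fun κ => ?_)
  exact sub_smul (θ κ) (θ' κ) y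

theorem norm_tens_le (θ : lp (fun _ : Node => ℝ) 2) : ‖tens θ‖ ≤ ‖θ‖ :=
  LinearMap.mkContinuous_norm_le _ (norm_nonneg _) _

theorem norm_tens_sub_le (θ θ' : lp (fun _ : Node => ℝ) 2) : ‖tens θ - tens θ'‖ ≤ ‖θ - θ'‖ := by
  rw [← tens_sub]
  exact norm_tens_le _

/-- `⟨y, T_θ* w⟩ = Σ θ κ ⟨y, w κ⟩` (finite sum when `θ` has finite support) -/
theorem adjoint_tens_eq_sum (θ : lp (fun _ : Node => ℝ) 2) (S : Finset Node)
    (hS : ∀ κ, κ ∉ S → θ κ = 0) (w : V) :
    ContinuousLinearMap.adjoint (tens θ) w = ∑ κ ∈ S, θ κ • w κ := by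
  refine ext_inner_right ℝ fun y => ?_
  rw [ContinuousLinearMap.adjoint_inner_left, lp.inner_eq_tsum, tsum_eq_sum (s := S), sum_inner]
  · refine Finset.sum_congr rfl fun κ _ => ?_
    rw [tens_apply, inner_smul_right, inner_smul_left]
    simp
  · intro κ hκ
    rw [tens_apply, hS κ hκ, zero_smul, inner_zero_right]

theorem inner_tens_eq_sum (θ : lp (fun _ : Node => ℝ) 2) (S : Finset Node)
    (f : V) (hf : ∀ κ, κ ∉ S → f κ = 0) (u : Y) :
    inner ℝ f (tens θ u) = ∑ κ ∈ S, θ κ * inner ℝ (f κ) u := by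
  rw [lp.inner_eq_tsum, tsum_eq_sum (s := S)]
  · refine Finset.sum_congr rfl fun κ _ => ?_
    rw [tens_apply, inner_smul_right]
  · intro κ hκ
    rw [hf κ hκ, inner_zero_left]

/-! ### restriction to sets of nodes -/

theorem restr_apply (S : Set Node) (w : V) (κ : Node) : (restr S w) κ = S.indicator (fun κ => w κ) κ := rfl

theorem hasSum_norm_sq (w : V) : HasSum (fun κ => ‖w κ‖ ^ 2) (‖w‖ ^ 2) := by
  have h := lp.hasSum_norm (p := 2) (by norm_num) w
  simpa using h

theorem norm_restr_mono {S S' : Set Node} (h : S ⊆ S') (w : V) : ‖restr S w‖ ≤ ‖restr S' w‖ := by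
  refine (sq_le_sq₀ (norm_nonneg _) (norm_nonneg _)).1 ?_
  refine hasSum_le (fun κ => ?_) (hasSum_norm_sq (restr S w)) (hasSum_norm_sq (restr S' w))
  rw [restr_apply, restr_apply]
  by_cases hκ : κ ∈ S
  · rw [Set.indicator_of_mem hκ, Set.indicator_of_mem (h hκ)]
  · rw [Set.indicator_of_notMem hκ, norm_zero, zero_pow (by norm_num)]
    exact sq_nonneg _

theorem restr_univ (w : V) : restr Set.univ w = w := by
  refine Subtype.ext (funext fun κ => ?_)
  exact Set.indicator_of_mem (Set.mem_univ κ) _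

theorem norm_restr_le (S : Set Node) (w : V) : ‖restr S w‖ ≤ ‖w‖ := by
  have h := norm_restr_mono (Set.subset_univ S) w
  rwa [restr_univ] at h

theorem norm_restr_union_le (S S' : Set Node) (w : V) : ‖restr (S ∪ S') w‖ ≤ ‖restr S w‖ + ‖restr S' w‖ := by
  have h1 : restr (S ∪ S') w = restr S w + restr (S' \ S) w := by
    refine Subtype.ext (funext fun κ => ?_)
    change (S ∪ S').indicator (fun κ => w κ) κ
      = S.indicator (fun κ => w κ) κ + (S' \ S).indicator (fun κ => w κ) κ
    by_cases hκ : κ ∈ S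
    · rw [Set.indicator_of_mem (Set.mem_union_left S' hκ), Set.indicator_of_mem hκ,
        Set.indicator_of_notMem (fun h => h.2 hκ), add_zero]
    · by_cases hκ' : κ ∈ S'
      · rw [Set.indicator_of_mem (Set.mem_union_right S hκ'), Set.indicator_of_notMem hκ,
          Set.indicator_of_mem (show κ ∈ S' \ S from ⟨hκ', hκ⟩), zero_add]
      · rw [Set.indicator_of_notMem (fun h => h.elim hκ hκ'), Set.indicator_of_notMem hκ,
          Set.indicator_of_notMem (fun h => hκ' h.1), add_zero]
  rw [h1]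
  refine (norm_add_le _ _).trans ?_
  have h2 := norm_restr_mono (Set.sdiff_subset (s := S') (t := S)) w
  linarith

theorem restr_sub (S : Set Node) (w w' : V) : restr S (w - w') = restr S w - restr S w' := by
  refine Subtype.ext (funext fun κ => ?_)
  change S.indicator (fun κ => (w - w') κ) κ
      = S.indicator (fun κ => w κ) κ - S.indicator (fun κ => w' κ) κ
  by_cases hκ : κ ∈ S
  · rw [Set.indicator_of_mem hκ, Set.indicator_of_mem hκ, Set.indicator_of_mem hκ]
    rfl
  · rw [Set.indicator_of_notMem hκ, Set.indicator_of_notMem hκ, Set.indicator_of_notMem hκ,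
      sub_zero]

/-- if `w` lives on `S` then only the restriction of `F` to `S` matters -/
theorem inner_eq_inner_restr (S : Set Node) (F w : V) (hw : ∀ κ, κ ∉ S → w κ = 0) :
    inner ℝ F w = inner ℝ (restr S F) w := by
  rw [lp.inner_eq_tsum, lp.inner_eq_tsum]
  refine tsum_congr fun κ => ?_
  by_cases hκ : κ ∈ S
  · rw [restr_apply, Set.indicator_of_mem hκ]
  · rw [hw κ hκ, inner_zero_right, inner_zero_right]

theorem inner_restr_self (S : Set Node) (F : V) : inner ℝ (restr S F) F = ‖restr S F‖ ^ 2 := by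
  rw [← real_inner_self_eq_norm_sq, real_inner_comm]
  rw [lp.inner_eq_tsum, lp.inner_eq_tsum]
  refine tsum_congr fun κ => ?_
  by_cases hκ : κ ∈ S
  · rw [restr_apply, Set.indicator_of_mem hκ]
  · rw [restr_apply, Set.indicator_of_notMem hκ, inner_zero_right, inner_zero_right]

end Crest.Agent.R091
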