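import Crest.Agent.R091.Rot
import Crest.Agent.R091.Tens
import Crest.Agent.R091.Theta

/-! # Row 91, module Phi2: cells (`sfun`, `fV_loc`, `fV_height`), `tent` and `soft` -/

set_option autoImplicit false
set_option linter.unusedSectionVars false

namespace Crest.Agent.R091

open Filter
open scoped Topology ZeroAtInfty

/-! ### tent and soft -/

theorem tent_of_nonneg (h : ℝ) {x : ℝ} (hx : 0 ≤ x) : tent h x = max (min x (2 * h - x)) 0 := by
  unfold tent
  rw [max_eq_right (a := min (-x) (2 * h + x)) (b := 0)]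
  · ring
  · exact (min_le_left _ _).trans (by linarith)

theorem tent_neg (h x : ℝ) : tent h (-x) = - tent h x := by
  unfold tent
  rw [neg_neg, ← sub_eq_add_neg, sub_neg_eq_add]
  ring

theorem tent_nonneg_of_nonneg (h : ℝ) {x : ℝ} (hx : 0 ≤ x) : 0 ≤ tent h x := by
  rw [tent_of_nonneg h hx]; exact le_max_right _ _

theorem tent_le_self_of_nonneg (h : ℝ) {x : ℝ} (hx : 0 ≤ x) : tent h x ≤ x := by
  rw [tent_of_nonneg h hx]
  exact max_le (min_le_left _ _) hx

theorem abs_tent_sub_le_of_nonneg (h : ℝ) {x x' : ℝ} (hx : 0 ≤ x) (hx' : 0 ≤ x') :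
    |tent h x - tent h x'| ≤ |x - x'| := by
  rw [tent_of_nonneg h hx, tent_of_nonneg h hx']
  refine (abs_max_sub_max_le_abs _ _ _).trans ?_
  refine (abs_min_sub_min_le_max _ _ _ _).trans ?_
  refine max_le le_rfl ?_
  rw [show 2 * h - x - (2 * h - x') = -(x - x') by ring, abs_neg]

theorem abs_tent_sub_le (h x x' : ℝ) : |tent h x - tent h x'| ≤ |x - x'| := by
  rcases le_total 0 x with hx | hx
  · rcases le_total 0 x' with hx' | hx'
    · exact abs_tent_sub_le_of_nonneg h hx hx'
    · have h1 := tent_nonneg_of_nonneg h hx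
      have h2 := tent_le_self_of_nonneg h hx
      have h3 := tent_nonneg_of_nonneg h (neg_nonneg.2 hx')
      have h4 := tent_le_self_of_nonneg h (neg_nonneg.2 hx')
      rw [tent_neg] at h3 h4
      rw [abs_of_nonneg (by linarith), abs_of_nonneg (by linarith)]
      linarith
  · rcases le_total 0 x' with hx' | hx'
    · have h1 := tent_nonneg_of_nonneg h hx'
      have h2 := tent_le_self_of_nonneg h hx'
      have h3 := tent_nonneg_of_nonneg h (neg_nonneg.2 hx)
      have h4 := tent_le_self_of_nonneg h (neg_nonneg.2 hx)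
      rw [tent_neg] at h3 h4
      rw [abs_of_nonpos (by linarith), abs_of_nonpos (by linarith)]
      linarith
    · have h1 := abs_tent_sub_le_of_nonneg h (neg_nonneg.2 hx) (neg_nonneg.2 hx')
      rw [tent_neg, tent_neg] at h1
      rw [show -tent h x - -tent h x' = -(tent h x - tent h x') by ring,
        show -x - -x' = -(x - x') by ring, abs_neg, abs_neg] at h1
      exact h1

theorem tent_eq_self {h x : ℝ} (hx : |x| ≤ h) : tent h x = x := by
  have h1 := (abs_le.1 hx).1
  have h2 := (abs_le.1 hx).2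
  rcases le_total 0 x with h0 | h0
  · rw [tent_of_nonneg h h0, min_eq_left (by linarith), max_eq_left h0]
  · have h3 := tent_of_nonneg h (neg_nonneg.2 h0)
    rw [tent_neg, min_eq_left (by linarith), max_eq_left (by linarith)] at h3
    linarith

theorem tent_eq_zero {h x : ℝ} (hx : 2 * h ≤ |x|) : tent h x = 0 := by
  rcases le_total 0 x with h0 | h0
  · rw [abs_of_nonneg h0] at hx
    rw [tent_of_nonneg h h0]
    exact max_eq_right ((min_le_right _ _).trans (by linarith))
  · rw [abs_of_nonpos h0] at hx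
    have h3 := tent_of_nonneg h (neg_nonneg.2 h0)
    rw [tent_neg, max_eq_right ((min_le_right _ _).trans (by linarith))] at h3
    linarith

theorem abs_tent_le {h : ℝ} (hh : 0 ≤ h) (x : ℝ) : |tent h x| ≤ h := by
  have key : ∀ y : ℝ, 0 ≤ y → tent h y ≤ h := by
    intro y hy
    rw [tent_of_nonneg h hy]
    refine max_le ?_ hh
    rcases le_total y h with h1 | h1
    · exact (min_le_left _ _).trans h1
    · exact (min_le_right _ _).trans (by linarith)
  rcases le_total 0 x with h0 | h0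
  · rw [abs_of_nonneg (tent_nonneg_of_nonneg h h0)]
    exact key x h0
  · have h1 := key (-x) (neg_nonneg.2 h0)
    have h2 := tent_nonneg_of_nonneg h (neg_nonneg.2 h0)
    rw [tent_neg] at h1 h2
    rw [abs_of_nonpos (by linarith)]
    exact h1

/-- `x - soft b x` is the clip of `x` to `[-b, b]`. -/
theorem sub_soft_eq {b : ℝ} (hb : 0 ≤ b) (x : ℝ) : x - soft b x = max (-b) (min b x) := by
  unfold soft
  rcases le_total x b with h1 | h1
  · rw [max_eq_right (a := x - b) (by linarith), min_eq_right h1]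
    rcases le_total (-b) x with h2 | h2
    · rw [max_eq_right (a := -x - b) (by linarith), max_eq_right h2]; ring
    · rw [max_eq_left (a := -x - b) (by linarith), max_eq_left h2]; ring
  · rw [max_eq_left (a := x - b) (by linarith), min_eq_left h1,
      max_eq_right (a := -x - b) (by linarith), max_eq_right (a := -b) (by linarith)]
    ring

theorem soft_of_nonneg {b x : ℝ} (hb : 0 ≤ b) (hx : 0 ≤ x) : soft b x = max (x - b) 0 := by
  unfold soft
  rw [max_eq_right (a := -x - b) (by linarith)]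
  ring

theorem soft_neg (b x : ℝ) : soft b (-x) = - soft b x := by
  unfold soft
  rw [neg_neg]
  ring

theorem abs_soft_sub_le {b b' : ℝ} (hb : 0 ≤ b) (hb' : 0 ≤ b') (x x' : ℝ) :
    |soft b x - soft b' x'| ≤ |x - x'| + |b - b'| := by
  have key : ∀ y y' : ℝ, 0 ≤ y → 0 ≤ y' → |soft b y - soft b' y'| ≤ |y - y'| + |b - b'| := by
    intro y y' hy hy'
    rw [soft_of_nonneg hb hy, soft_of_nonneg hb' hy']
    refine (abs_max_sub_max_le_abs _ _ _).trans ?_
    rw [show y - b - (y' - b') = (y - y') - (b - b') by ring]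
    exact abs_sub _ _
  have nn : ∀ (c y : ℝ), 0 ≤ c → 0 ≤ y → 0 ≤ soft c y ∧ soft c y ≤ y := by
    intro c y hc hy
    rw [soft_of_nonneg hc hy]
    exact ⟨le_max_right _ _, max_le (by linarith) hy⟩
  have hab : 0 ≤ |b - b'| := abs_nonneg _
  rcases le_total 0 x with hx | hx
  · rcases le_total 0 x' with hx' | hx'
    · exact key x x' hx hx'
    · have h1 := nn b x hb hx
      have h2 := nn b' (-x') hb' (neg_nonneg.2 hx')
      rw [soft_neg] at h2
      rw [abs_of_nonneg (a := soft b x - soft b' x') (by linarith [h1.1, h2.1]),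
        abs_of_nonneg (a := x - x') (by linarith)]
      linarith [h1.2, h2.2]
  · rcases le_total 0 x' with hx' | hx'
    · have h1 := nn b' x' hb' hx'
      have h2 := nn b (-x) hb (neg_nonneg.2 hx)
      rw [soft_neg] at h2
      rw [abs_of_nonpos (a := soft b x - soft b' x') (by linarith [h1.1, h2.1]),
        abs_of_nonpos (a := x - x') (by linarith)]
      linarith [h1.2, h2.2]
    · have h1 := key (-x) (-x') (neg_nonneg.2 hx) (neg_nonneg.2 hx')
      rw [soft_neg, soft_neg] at h1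
      rw [show -soft b x - -soft b' x' = -(soft b x - soft b' x') by ring,
        show -x - -x' = -(x - x') by ring, abs_neg, abs_neg] at h1
      exact h1

theorem soft_eq_zero {b x : ℝ} (hb : |x| ≤ b) : soft b x = 0 := by
  have h1 := (abs_le.1 hb).1
  have h2 := (abs_le.1 hb).2
  unfold soft
  rw [max_eq_right (by linarith), max_eq_right (by linarith), sub_zero]

theorem soft_zero (x : ℝ) : soft 0 x = x := by
  have := sub_soft_eq (le_refl (0 : ℝ)) x
  rw [neg_zero, max_eq_left (min_le_left _ _)] at this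
  linarith

theorem abs_soft_le {b : ℝ} (hb : 0 ≤ b) (x : ℝ) : |soft b x| ≤ |x| := by
  have h := abs_soft_sub_le hb hb x 0
  rw [soft_eq_zero (b := b) (x := 0) (by simpa using hb)] at h
  simpa using h

/-- `x - soft b x = clip x (±b)` is `max`-Lipschitz -/
theorem abs_sub_soft_sub_le {b b' : ℝ} (hb : 0 ≤ b) (hb' : 0 ≤ b') (x x' : ℝ) :
    |(x - soft b x) - (x' - soft b' x')| ≤ max |x - x'| |b - b'| := by
  rw [sub_soft_eq hb, sub_soft_eq hb']
  refine (abs_max_sub_max_le_max _ _ _ _).trans ?_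
  refine max_le ?_ ?_
  · rw [show -b - -b' = -(b - b') by ring, abs_neg]; exact le_max_right _ _
  · refine (abs_min_sub_min_le_max _ _ _ _).trans ?_
    rw [max_comm]

theorem abs_sub_soft_le {b : ℝ} (hb : 0 ≤ b) (x : ℝ) : |x - soft b x| ≤ b := by
  rw [sub_soft_eq hb, abs_le]
  exact ⟨le_max_left _ _, max_le (by linarith) (min_le_left _ _)⟩

theorem abs_sub_soft_le' {b : ℝ} (hb : 0 ≤ b) (x : ℝ) : |x - soft b x| ≤ |x| := by
  rw [sub_soft_eq hb, abs_le]
  constructor
  · rcases le_total x 0 with h | h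
    · rw [abs_of_nonpos h, neg_neg]
      refine le_max_of_le_right (le_min ?_ le_rfl)
      linarith
    · rw [abs_of_nonneg h]
      refine le_max_of_le_right (le_min ?_ ?_) <;> linarith
  · refine max_le ?_ ((min_le_right _ _).trans (le_abs_self x))
    linarith [abs_nonneg x]

/-! ### parameters -/

theorem sc_pos (k : ℤ) : 0 < sc k := Real.exp_pos _

theorem Lam_pos : 0 < Lam := Real.exp_pos _

theorem one_le_Lam : 1 ≤ Lam := by
  unfold Lam
  exact Real.one_le_exp (by norm_num)

theorem sc_add_one (k : ℤ) : sc (k + 1) = Lam * sc k := by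
  unfold sc Lam
  rw [← Real.exp_add]
  congr 1
  push_cast
  ring

theorem sc_le_sc_add_one (k : ℤ) : sc k ≤ sc (k + 1) := by
  rw [sc_add_one]
  exact le_mul_of_one_le_left (sc_pos k).le one_le_Lam

theorem om_pos (i : ℕ) : 0 < om i := by unfold om; positivity

theorem om_le_one (i : ℕ) : om i ≤ 1 := by
  unfold om
  exact pow_le_one₀ (by norm_num) (by norm_num)

theorem rr_pos (d : ℕ) : 0 < rr d := by
  unfold rr
  have := Lam_pos
  positivity

theorem two_le_rr (d : ℕ) : 2 ≤ rr d := by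
  unfold rr
  have h1 := one_le_Lam
  have h2 : (1 : ℝ) ≤ 4 ^ d := one_le_pow₀ (by norm_num)
  nlinarith

theorem hh_pos (d : ℕ) : 0 < hh d := by
  unfold hh
  have := rr_pos d
  positivity

theorem ep_pos (d : ℕ) : 0 < ep d := by unfold ep; positivity

/-! ### cells -/

section
variable {H : Type} [NormedAddCommGroup H] [InnerProductSpace ℝ H]

theorem sfun_le_iff (X : Ctx H) (n : ℕ) (k : ℤ) (c : Fin n → ℤ) (d : ℕ) (v : ℕ → HV H) (r : ℝ) :
    sfun X n k c d v ≤ r * sc k ↔
      1 / rr d - ‖v n‖ / sc k ≤ 2 * r ∧ ‖v n‖ / sc k - rr d ≤ 2 * r ∧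
        ∀ i : Fin n, |om i * obs X i v / sc (k + 1) - c i| - rho d ≤ 2 * r := by
  have hs := sc_pos k
  unfold sfun
  rw [show r * sc k = (1 / 2 * sc k) * (2 * r) by ring, mul_le_mul_iff_right₀ (by positivity),
    Finset.sup'_le_iff]
  constructor
  · intro h
    have h0 := h none (Finset.mem_univ _)
    simp only [max_le_iff] at h0
    exact ⟨h0.1, h0.2, fun i => h (some i) (Finset.mem_univ _)⟩
  · rintro ⟨h1, h2, h3⟩ j _
    cases j with
    | none => exact max_le h1 h2
    | some i => exact h3 i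

theorem sfun_lt_iff (X : Ctx H) (n : ℕ) (k : ℤ) (c : Fin n → ℤ) (d : ℕ) (v : ℕ → HV H) (r : ℝ) :
    sfun X n k c d v < r * sc k ↔
      1 / rr d - ‖v n‖ / sc k < 2 * r ∧ ‖v n‖ / sc k - rr d < 2 * r ∧
        ∀ i : Fin n, |om i * obs X i v / sc (k + 1) - c i| - rho d < 2 * r := by
  have hs := sc_pos k
  unfold sfun
  rw [show r * sc k = (1 / 2 * sc k) * (2 * r) by ring, mul_lt_mul_iff_right₀ (by positivity),
    Finset.sup'_lt_iff]
  constructor
  · intro h
    have h0 := h none (Finset.mem_univ _)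
    simp only [max_lt_iff] at h0
    exact ⟨h0.1, h0.2, fun i => h (some i) (Finset.mem_univ _)⟩
  · rintro ⟨h1, h2, h3⟩ j _
    cases j with
    | none => exact max_lt h1 h2
    | some i => exact h3 i

theorem norm_apply_sub_le_P (p p' : P H) (m : ℕ) : ‖p m - p' m‖ ≤ ‖p - p'‖ := by
  have h := (p - p').toBCF.norm_coe_le_norm m
  rw [ZeroAtInftyContinuousMap.norm_toBCF_eq_norm] at h
  exact h

theorem abs_obs_sub_le_P2 (X : Ctx H) (i : ℕ) (p p' : P H) :
    |obs X i p - obs X i p'| ≤ ‖p - p'‖ := by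
  unfold obs
  split_ifs with h
  · exact (abs_norm_sub_norm_le _ _).trans (norm_apply_sub_le_P p p' _)
  · rw [← inner_sub_right]
    refine (abs_real_inner_le_norm _ _).trans ?_
    calc ‖X.e ((Nat.unpair i).2 - 1)‖ * ‖p (Nat.unpair i).1 - p' (Nat.unpair i).1‖
        ≤ 1 * ‖p (Nat.unpair i).1 - p' (Nat.unpair i).1‖ :=
          mul_le_mul_of_nonneg_right (X.he1 _) (norm_nonneg _)
      _ ≤ ‖p - p'‖ := by rw [one_mul]; exact norm_apply_sub_le_P p p' _

/-- `sfun ≤ sfun' + 1/2 ‖p - p'‖` -/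
theorem sfun_le_add (X : Ctx H) (n : ℕ) (k : ℤ) (c : Fin n → ℤ) (d : ℕ) (p p' : P H) :
    sfun X n k c d p ≤ sfun X n k c d p' + (1 / 2) * ‖p - p'‖ := by
  have hs := sc_pos k
  have hs1 := sc_pos (k + 1)
  have e : sfun X n k c d p' + (1 / 2) * ‖p - p'‖
      = ((sfun X n k c d p' + (1 / 2) * ‖p - p'‖) / sc k) * sc k := by
    field_simp
  have h' : sfun X n k c d p' ≤ (sfun X n k c d p' / sc k) * sc k := by
    rw [div_mul_cancel₀ _ hs.ne']
  obtain ⟨h1, h2, h3⟩ := (sfun_le_iff X n k c d p' _).1 h'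
  rw [e, sfun_le_iff]
  have hn : |‖p n‖ / sc k - ‖p' n‖ / sc k| ≤ ‖p - p'‖ / sc k := by
    rw [← sub_div, abs_div, abs_of_pos hs]
    exact div_le_div_of_nonneg_right ((abs_norm_sub_norm_le _ _).trans (norm_apply_sub_le_P p p' n))
      hs.le
  have hn1 := (abs_le.1 hn).1
  have hn2 := (abs_le.1 hn).2
  have e2 : 2 * ((sfun X n k c d p' + (1 / 2) * ‖p - p'‖) / sc k)
      = 2 * (sfun X n k c d p' / sc k) + ‖p - p'‖ / sc k := by ring
  rw [e2]
  refine ⟨by linarith, by linarith, fun i => ?_⟩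
  have h4 := h3 i
  have h5 : |om i * obs X i p / sc (k + 1) - c i| ≤
      |om i * obs X i p' / sc (k + 1) - c i| + ‖p - p'‖ / sc k := by
    have e3 : om i * obs X i p / sc (k + 1) - c i
        = (om i * obs X i p' / sc (k + 1) - c i)
          + om i * (obs X i p - obs X i p') / sc (k + 1) := by ring
    rw [e3]
    refine (abs_add_le _ _).trans (add_le_add le_rfl ?_)
    rw [abs_div, abs_mul, abs_of_pos (om_pos i), abs_of_pos hs1]
    calc om i * |obs X i p - obs X i p'| / sc (k + 1)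
        ≤ 1 * ‖p - p'‖ / sc (k + 1) :=
          div_le_div_of_nonneg_right
            (mul_le_mul (om_le_one i) (abs_obs_sub_le_P2 X i p p') (abs_nonneg _) zero_le_one) hs1.le
      _ = ‖p - p'‖ / sc (k + 1) := by rw [one_mul]
      _ ≤ ‖p - p'‖ / sc k := div_le_div_of_nonneg_left (norm_nonneg _) hs (sc_le_sc_add_one k)
  linarith

theorem abs_sfun_sub_le (X : Ctx H) (n : ℕ) (k : ℤ) (c : Fin n → ℤ) (d : ℕ) (p p' : P H) :
    |sfun X n k c d p - sfun X n k c d p'| ≤ (1 / 2) * ‖p - p'‖ := by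
  rw [abs_le]
  have h1 := sfun_le_add X n k c d p p'
  have h2 := sfun_le_add X n k c d p' p
  rw [norm_sub_rev p' p] at h2
  constructor <;> linarith

/-- an active node in the window -/
theorem fV_active (X : Ctx H) (n : ℕ) (k : ℤ) (c : Fin n → ℤ) (s : ℕ) (v : ℕ → HV H)
    (h : inner ℝ (fV X ⟨n, (k, c, s)⟩) (beta X n v) ≠ 0) :
    v n ≠ 0 ∧ ∃ κ ∈ win n k c, (th X n v) κ ≠ 0 := by
  constructor
  · intro h0
    apply h
    have : beta X n v = 0 := by
      unfold beta
      rw [h0]
      have hu : uu X.J (tens (th X n v)) (0 : HV H) = 0 := by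
        have := uu_sub X.J (tens (th X n v)) (0 : HV H) 0
        simpa using this
      rw [hu, map_zero]
    rw [this, inner_zero_right]
  · by_contra hc
    push Not at hc
    apply h
    rw [lp.inner_eq_tsum]
    have : ∀ κ : Node, inner ℝ ((fV X ⟨n, (k, c, s)⟩) κ) ((beta X n v) κ) = 0 := by
      intro κ
      by_cases hκ : κ ∈ win n k c
      · have h1 := hc κ hκ
        have h2 : (beta X n v) κ = 0 := by
          unfold beta
          rw [tens_apply, h1, zero_smul]
        rw [h2, inner_zero_right]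
      · have h2 : (fV X ⟨n, (k, c, s)⟩) κ = 0 := by
          unfold fV
          split_ifs
          · rw [restr_apply]
            exact Set.indicator_of_notMem hκ _
          · rfl
        rw [h2, inner_zero_left]
    simp only [this, tsum_zero]

theorem fV_bounds (X : Ctx H) (n : ℕ) (k : ℤ) (c : Fin n → ℤ) (s : ℕ) (v : ℕ → HV H)
    (h : inner ℝ (fV X ⟨n, (k, c, s)⟩) (beta X n v) ≠ 0) :
    1 / Lam < ‖v n‖ / sc k ∧ ‖v n‖ / sc k < Lam ∧
      ∀ i : Fin n, |om i * obs X i v / sc (k + 1) - c i| ≤ 2 := by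
  obtain ⟨h0, κ, ⟨c', hκ, hcc⟩, hth⟩ := fV_active X n k c s v h
  obtain ⟨_, h2, h3⟩ := theta_ne_zero (n := n) (y := fun i => obs X i v) (t := ‖v n‖) (κ := κ) hth
  subst hκ
  have hn : 0 < ‖v n‖ := norm_pos_iff.2 h0
  have hs := sc_pos k
  simp only [] at h2 h3
  have h4 := (abs_lt.1 h2).1
  have h5 := (abs_lt.1 h2).2
  have hexp : Real.exp (Real.log ‖v n‖) = ‖v n‖ := Real.exp_log hn
  refine ⟨?_, ?_, fun i => ?_⟩
  · rw [lt_div_iff₀ hs, one_div, ← hexp]
    unfold Lam sc
    rw [← Real.exp_neg, ← Real.exp_add]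
    exact Real.exp_lt_exp.2 (by linarith)
  · rw [div_lt_iff₀ hs, ← hexp]
    unfold Lam sc
    rw [← Real.exp_add]
    exact Real.exp_lt_exp.2 (by linarith)
  · have h6 := h3 i
    have h7 := hcc i
    have h8 : |((c' i : ℤ) : ℝ) - (c i : ℝ)| ≤ 1 := by
      have : ((|c' i - c i| : ℤ) : ℝ) ≤ ((1 : ℤ) : ℝ) := by exact_mod_cast h7
      push_cast at this
      exact this
    have e : om i * obs X i v / sc (k + 1) - c i
        = (om i * obs X i v / sc (k + 1) - c' i) + ((c' i : ℝ) - c i) := by ring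
    rw [e]
    refine (abs_add_le _ _).trans ?_
    have h9 : |om i * obs X i v / sc (k + 1) - c' i| < 1 := h6
    linarith

/-- the functionals of the levels `V_n` are localized, with flattening depth `0` -/
theorem fV_loc (X : Ctx H) (n : ℕ) (k : ℤ) (c : Fin n → ℤ) (s : ℕ) (v : ℕ → HV H)
    (h : inner ℝ (fV X ⟨n, (k, c, s)⟩) (beta X n v) ≠ 0) :
    sfun X n k c 0 v ≤ -(sc k / (2 * rr 0)) := by
  obtain ⟨h1, h2, h3⟩ := fV_bounds X n k c s v h
  have hL := one_le_Lam
  have hL0 := Lam_pos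
  have hr : rr 0 = 2 * Lam := by unfold rr; norm_num
  have e : -(sc k / (2 * rr 0)) = (-(1 / (2 * rr 0))) * sc k := by ring
  rw [e, sfun_le_iff, hr]
  have hi : 1 / Lam ≤ 1 := by rw [div_le_one hL0]; exact hL
  have hi0 : 0 < 1 / Lam := by positivity
  have e1 : 2 * -(1 / (2 * (2 * Lam))) = - (1 / 2) * (1 / Lam) := by field_simp
  have e2 : 1 / (2 * Lam) = (1 / 2) * (1 / Lam) := by field_simp
  rw [e1, e2]
  refine ⟨by linarith, by linarith, fun i => ?_⟩
  have h4 := h3 i
  have h5 : rho 0 = 3 := by unfold rho; norm_num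
  rw [h5]
  linarith

theorem fV_height (X : Ctx H) (n : ℕ) (k : ℤ) (c : Fin n → ℤ) (s : ℕ) (v : ℕ → HV H) :
    |inner ℝ (fV X ⟨n, (k, c, s)⟩) (beta X n v)| ≤ 2 * Lam * sc k := by
  by_cases h : inner ℝ (fV X ⟨n, (k, c, s)⟩) (beta X n v) = 0
  · rw [h, abs_zero]
    have := Lam_pos
    have := sc_pos k
    positivity
  · obtain ⟨_, h2, _⟩ := fV_bounds X n k c s v h
    have hs := sc_pos k
    rw [div_lt_iff₀ hs] at h2
    have hf : ‖fV X ⟨n, (k, c, s)⟩‖ ≤ 1 := by
      unfold fV
      split_ifs with h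
      · exact h
      · rw [norm_zero]; exact zero_le_one
    have hiso : ∀ y, ‖tens (th X n v) y‖ = ‖y‖ := by
      intro y
      rw [norm_tens_apply]
      unfold th
      rw [norm_theta, one_mul]
    have hb : ‖beta X n v‖ ≤ 2 * ‖v n‖ := by
      unfold beta
      rw [hiso]
      exact norm_uu_le X.J _ hiso (v n)
    calc |inner ℝ (fV X ⟨n, (k, c, s)⟩) (beta X n v)| ≤ ‖fV X ⟨n, (k, c, s)⟩‖ * ‖beta X n v‖ :=
          abs_real_inner_le_norm _ _
      _ ≤ 1 * (2 * ‖v n‖) := mul_le_mul hf hb (norm_nonneg _) zero_le_one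
      _ ≤ 2 * Lam * sc k := by linarith

end

end Crest.Agent.R091
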