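import Crest.Agent.R091.ChainInst
import Crest.Agent.R091.Cases1
import Crest.Agent.R091.Phi2

/-! # Row 91, module CasesV: the V-case, up to `Sel.Pre` (helper935) -/

set_option autoImplicit false

namespace Crest.Agent.R091

open Filter
open scoped Topology ZeroAtInfty

variable {H : Type} [NormedAddCommGroup H] [InnerProductSpace ℝ H]

theorem isBeta_betaP' (X : Ctx H) : Cases.IsBeta X (betaP X) := ⟨fun _ _ => rfl, fun _ _ => rfl⟩

/-- V-loc: every term has a window with a proportional part of the norm -/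
theorem pre_Vloc (X : Ctx H) {z : ℕ → E} {K c η : ℝ} (hc : 0 < c) (hη : 0 < η)
    (hb : Sel.BSS z K) (n : ℕ → ℕ) (hn : ∀ i, c ≤ ‖(z i).1 (n i)‖)
    (hloc : ∀ i, ∃ (k : ℤ) (cc : Fin (n i) → ℤ),
      η * ‖(z i).1 (n i)‖ < ‖restr (win (n i) k cc) ((z i).1 (n i))‖) :
    Sel.Pre (betaP X) z := by
  have hnt : Tendsto n atTop atTop := by
    have := Cases.tendsto_index (fun i a => ‖(z i).1 a‖) n hc hn
      (fun a => tendsto_zero_iff_norm_tendsto_zero.1 (Cases.BSS_level hb a))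
    rwa [Nat.cofinite_eq_atTop] at this
  choose k cc hk using hloc
  have hex : ∀ i, ∃ s : ℕ, η * c ≤ inner ℝ (fV X ⟨n i, (k i, cc i, s)⟩) ((z i).1 (n i)) := by
    intro i
    apply exists_fV X (n i) (k i) (cc i) _ (η * c)
    exact lt_of_le_of_lt (mul_le_mul_of_nonneg_left (hn i) hη.le) (hk i)
  choose s hs using hex
  have hL := PhiAux.Lam_pos
  have hrr : rr 0 = 2 * Lam := by unfold rr; norm_num
  have hK0 : (0 : ℝ) ≤ K0 := Nat.cast_nonneg _
  have hep := PhiAux.ep_pos 0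
  refine ⟨η * c, K0 + 1, 1 + (K0 + 1) / ep 0, mul_pos hη hc, by linarith, ?_, fun m _ => ?_⟩
  · have : 0 ≤ ((K0 : ℝ) + 1) / ep 0 := by positivity
    linarith
  obtain ⟨A, ε, G, h1, h2, h3, h4⟩ := chain_apply X z
    (fun b => Cases.BSS_coord hb (evB X b)) (fun i => Sum.inl ⟨n i, (k i, cc i, s i)⟩) n k cc 0
    (2 * Lam) (η * c) (fun _ => rfl) hnt (by positivity) (by
      rw [hrr]
      have h1 : 16 * Lam ^ 2 ≤ (⌈16 * Lam ^ 2⌉₊ : ℝ) := Nat.le_ceil _
      unfold K0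
      push_cast
      nlinarith) (by positivity) (fun i => (hs i).trans (le_abs_self _))
    (fun i p => fV_height X (n i) (k i) (cc i) (s i) p)
    (fun i p h => fV_loc X (n i) (k i) (cc i) (s i) p h) m
  exact ⟨A, ε, G, h1, by rw [mul_comm]; exact h2, h3, h4⟩

/-- V-case -/
theorem pre_V (X : Ctx H) {z : ℕ → E} {K c : ℝ} (hc : 0 < c) (hb : Sel.BSS z K)
    (n : ℕ → ℕ) (hn : ∀ i, c ≤ ‖(z i).1 (n i)‖) : Sel.Pre (betaP X) z := by
  by_cases hflat : ∀ m : ℕ, 1 ≤ m → ∃ᶠ i in atTop, ∀ (k : ℤ) (cc : Fin (n i) → ℤ),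
      ‖restr (win (n i) k cc) ((z i).1 (n i))‖ ≤ (1 / m : ℝ) * ‖(z i).1 (n i)‖
  · exact Cases.pre_Vflat (isBeta_betaP' X) hb (c := 2 * c) (by positivity) n
      (fun i => by rw [mul_div_cancel_left₀ c (two_ne_zero)]; exact hn i) hflat
  · push Not at hflat
    obtain ⟨m, hm, hf⟩ := hflat
    have hm' : (0 : ℝ) < m := by exact_mod_cast hm
    obtain ⟨N, hN⟩ := hf.exists_forall_of_atTop
    have hinj : Function.Injective fun i : ℕ => i + N := add_left_injective N
    refine Sel.Pre.of_comp (φ := fun i => i + N) hinj ?_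
    exact pre_Vloc X (K := K) hc (η := 1 / m) (by positivity) (hb.comp hinj)
      (fun i => n (i + N)) (fun i => hn _) (fun i => hN (i + N) (Nat.le_add_left _ _))

end Crest.Agent.R091
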