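import Crest.Agent.R091.Defs

/-!
Row 91, section 5 of the blueprint (helper441): the abstract chain theorem (helper102).
-/

set_option autoImplicit false

namespace Crest.Agent.R091.Ch

open Filter Topology

/-! ### `tent` and `soft` -/

section TS

theorem tent_eq_self {h x : ℝ} (hx : |x| ≤ h) : tent h x = x := by
  have := abs_le.1 hx
  unfold tent
  rcases le_total 0 x with h0 | h0
  · rw [min_eq_left (by linarith), max_eq_left h0, min_eq_left (by linarith),
      max_eq_right (by linarith)]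
    ring
  · rw [min_eq_left (by linarith), max_eq_right h0, min_eq_left (by linarith),
      max_eq_left (by linarith)]
    ring

theorem abs_tent_le {h : ℝ} (hh : 0 ≤ h) (x : ℝ) : |tent h x| ≤ h := by
  unfold tent
  have h1 : 0 ≤ max (min x (2 * h - x)) 0 := le_max_right _ _
  have h2 : 0 ≤ max (min (-x) (2 * h + x)) 0 := le_max_right _ _
  have h3 : max (min x (2 * h - x)) 0 ≤ h := by
    refine max_le ?_ hh
    rcases le_total x h with hx | hx
    · exact (min_le_left _ _).trans hx
    · exact (min_le_right _ _).trans (by linarith)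
  have h4 : max (min (-x) (2 * h + x)) 0 ≤ h := by
    refine max_le ?_ hh
    rcases le_total (-x) h with hx | hx
    · exact (min_le_left _ _).trans hx
    · exact (min_le_right _ _).trans (by linarith)
  rw [abs_le]
  constructor <;> linarith

theorem tent_lip {h : ℝ} (_hh : 0 ≤ h) (x y : ℝ) : |tent h x - tent h y| ≤ |x - y| := by
  -- both pieces are monotone-separated; do it by cases
  have key : ∀ x y : ℝ, x ≤ y → |tent h x - tent h y| ≤ y - x := by
    intro x y hxy
    have fp : ∀ t : ℝ, 0 ≤ t → tent h t = max (min t (2 * h - t)) 0 := by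
      intro t ht
      unfold tent
      have : min (-t) (2 * h + t) ≤ 0 := (min_le_left _ _).trans (by linarith)
      rw [max_eq_right this, sub_zero]
    have fn : ∀ t : ℝ, t ≤ 0 → tent h t = - max (min (-t) (2 * h + t)) 0 := by
      intro t ht
      unfold tent
      have : min t (2 * h - t) ≤ 0 := (min_le_left _ _).trans ht
      rw [max_eq_right this, zero_sub]
    have lpos : ∀ s t : ℝ, s ≤ t →
        |max (min s (2 * h - s)) 0 - max (min t (2 * h - t)) 0| ≤ t - s := by
      intro s t hst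
      refine (abs_max_sub_max_le_abs _ _ _).trans ?_
      refine (abs_min_sub_min_le_max _ _ _ _).trans (max_le ?_ ?_)
      · rw [abs_sub_comm, abs_of_nonneg (by linarith)]
      · rw [abs_le]; constructor <;> linarith
    rcases le_total 0 x with hx | hx
    · rw [fp x hx, fp y (hx.trans hxy)]
      exact lpos x y hxy
    rcases le_total y 0 with hy | hy
    · rw [fn x hx, fn y hy]
      have := lpos (-y) (-x) (by linarith)
      have e1 : 2 * h - -y = 2 * h + y := by ring
      have e2 : 2 * h - -x = 2 * h + x := by ring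
      rw [e1, e2] at this
      rw [show -max (min (-x) (2 * h + x)) 0 - -max (min (-y) (2 * h + y)) 0
        = max (min (-y) (2 * h + y)) 0 - max (min (-x) (2 * h + x)) 0 by ring]
      linarith
    · rw [fn x hx, fp y hy]
      have h1 : 0 ≤ max (min (-x) (2 * h + x)) 0 := le_max_right _ _
      have h2 : max (min (-x) (2 * h + x)) 0 ≤ -x :=
        max_le (min_le_left _ _) (by linarith)
      have h3 : 0 ≤ max (min y (2 * h - y)) 0 := le_max_right _ _
      have h4 : max (min y (2 * h - y)) 0 ≤ y := max_le (min_le_left _ _) hy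
      rw [abs_le]; constructor <;> linarith
  rcases le_total x y with hxy | hxy
  · have := key x y hxy
    rw [abs_sub_comm x y, abs_of_nonneg (sub_nonneg.2 hxy)]; exact this
  · have := key y x hxy
    rw [abs_sub_comm (tent h x), abs_of_nonneg (sub_nonneg.2 hxy)]; exact this

theorem soft_zero (x : ℝ) : soft 0 x = x := by
  unfold soft
  rcases le_total 0 x with h | h
  · rw [max_eq_left (by linarith), max_eq_right (by linarith)]; ring
  · rw [max_eq_right (by linarith), max_eq_left (by linarith)]; ring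

theorem soft_eq_zero {b x : ℝ} (h : |x| ≤ b) : soft b x = 0 := by
  have := abs_le.1 h
  unfold soft
  rw [max_eq_right (by linarith), max_eq_right (by linarith)]; ring

theorem abs_soft_le {b : ℝ} (hb : 0 ≤ b) (x : ℝ) : |soft b x| ≤ |x| := by
  unfold soft
  rcases le_total 0 x with h | h
  · rw [max_eq_right (a := -x - b) (by linarith), sub_zero, abs_of_nonneg h,
      abs_of_nonneg (le_max_right _ _)]
    exact max_le (by linarith) h
  · rw [max_eq_right (a := x - b) (by linarith), zero_sub, abs_neg, abs_of_nonpos h,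
      abs_of_nonneg (le_max_right _ _)]
    exact max_le (by linarith) (by linarith)

/-- the clip -/
noncomputable def clipc (b x : ℝ) : ℝ := max (-b) (min x b)

theorem sub_soft {b : ℝ} (hb : 0 ≤ b) (x : ℝ) : x - soft b x = clipc b x := by
  unfold soft clipc
  rcases le_total x b with h1 | h1
  · rcases le_total (-b) x with h2 | h2
    · rw [max_eq_right (a := x - b) (by linarith), max_eq_right (a := -x - b) (by linarith),
        min_eq_left h1, max_eq_right h2]; ring
    · rw [max_eq_right (a := x - b) (by linarith), max_eq_left (a := -x - b) (by linarith),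
        min_eq_left h1, max_eq_left h2]; ring
  · rw [max_eq_left (a := x - b) (by linarith), max_eq_right (a := -x - b) (by linarith),
        min_eq_right h1, max_eq_right (by linarith)]; ring

theorem abs_clipc_le {b : ℝ} (hb : 0 ≤ b) (x : ℝ) : |clipc b x| ≤ b := by
  unfold clipc
  rw [abs_le]
  exact ⟨le_max_left _ _, max_le (by linarith) (min_le_right _ _)⟩

theorem abs_clipc_le' {b : ℝ} (hb : 0 ≤ b) (x : ℝ) : |clipc b x| ≤ |x| := by
  unfold clipc
  rw [abs_le]
  constructor
  · rcases le_total x b with h | h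
    · rw [min_eq_left h]; exact (neg_abs_le x).trans (le_max_right _ _)
    · rw [min_eq_right h]
      have : 0 ≤ |x| := abs_nonneg x
      exact (by linarith : -|x| ≤ b).trans (le_max_right _ _)
  · refine max_le ?_ ((min_le_left _ _).trans (le_abs_self x))
    have : 0 ≤ |x| := abs_nonneg x
    linarith

theorem clipc_lip {b b' x x' : ℝ} : |clipc b x - clipc b' x'| ≤ max |x - x'| |b - b'| := by
  unfold clipc
  refine (abs_max_sub_max_le_max _ _ _ _).trans (max_le ?_ ?_)
  · rw [show -b - -b' = -(b - b') by ring, abs_neg]; exact le_max_right _ _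
  · exact abs_min_sub_min_le_max _ _ _ _

theorem soft_lip {b b' : ℝ} (hb : 0 ≤ b) (hb' : 0 ≤ b') (x x' : ℝ) :
    |soft b x - soft b' x'| ≤ |x - x'| + |b - b'| := by
  have hx : ∀ (b x x' : ℝ), 0 ≤ b → x' ≤ x → |soft b x - soft b x'| ≤ x - x' := by
    intro b x x' hb h
    have h0 : 0 ≤ soft b x - soft b x' := by
      unfold soft
      have a1 : max (x' - b) 0 ≤ max (x - b) 0 := max_le_max (by linarith) le_rfl
      have a2 : max (-x - b) 0 ≤ max (-x' - b) 0 := max_le_max (by linarith) le_rfl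
      linarith
    rw [abs_of_nonneg h0]
    have e1 := sub_soft hb x
    have e2 := sub_soft hb x'
    have : clipc b x' ≤ clipc b x := by
      unfold clipc
      exact max_le_max le_rfl (min_le_min h le_rfl)
    linarith
  have hx' : ∀ (b x x' : ℝ), 0 ≤ b → |soft b x - soft b x'| ≤ |x - x'| := by
    intro b x x' hb
    rcases le_total x x' with h | h
    · have := hx b x' x hb h
      rw [abs_sub_comm, abs_sub_comm x, abs_of_nonneg (sub_nonneg.2 h)]; exact this
    · have := hx b x x' hb h
      rw [abs_of_nonneg (sub_nonneg.2 h)]; exact this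
  have hbb : |soft b x' - soft b' x'| ≤ |b - b'| := by
    unfold soft
    rcases le_total 0 x' with h | h
    · rw [max_eq_right (a := -x' - b) (by linarith), max_eq_right (a := -x' - b') (by linarith),
        sub_zero, sub_zero]
      refine (abs_max_sub_max_le_abs _ _ _).trans ?_
      rw [show x' - b - (x' - b') = -(b - b') by ring, abs_neg]
    · rw [max_eq_right (a := x' - b) (by linarith), max_eq_right (a := x' - b') (by linarith),
        zero_sub, zero_sub, neg_sub_neg, abs_sub_comm]
      refine (abs_max_sub_max_le_abs _ _ _).trans ?_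
      rw [show -x' - b - (-x' - b') = -(b - b') by ring, abs_neg]
  calc |soft b x - soft b' x'| ≤ |soft b x - soft b x'| + |soft b x' - soft b' x'| :=
        abs_sub_le _ _ _
    _ ≤ _ := add_le_add (hx' b x x' hb) hbb

end TS

/-! ### Abstract data -/

/-- Abstract data for a chain. -/
structure ChainData {P : Type*} [PseudoMetricSpace P] {E : Type*} [NormedAddCommGroup E]
    [NormedSpace ℝ E] (β : P → E) (U : Ultrafilter ℕ) (z : ℕ → E) where
  /-- rational functionals -/
  GQ : Set (E →L[ℝ] ℝ)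
  GQ_zero : (0 : E →L[ℝ] ℝ) ∈ GQ
  GQ_add : ∀ G ∈ GQ, ∀ G' ∈ GQ, G + G' ∈ GQ
  GQ_neg : ∀ G ∈ GQ, -G ∈ GQ
  /-- observables -/
  o : ℕ → P → ℝ
  o_lip : ∀ j, LipschitzWith 1 (o j)
  /-- scales -/
  S : ℕ → ℝ
  S_pos : ∀ i, 0 < S i
  /-- cell functions -/
  s : ℕ → P → ℝ
  s_lip : ∀ i p q, |s i p - s i q| ≤ (1/2) * dist p q
  r : ℝ
  r_pos : 1 ≤ r
  Hs : ℝ
  Hs_nonneg : 0 ≤ Hs
  C1 : ℝ
  C1_nonneg : 0 ≤ C1
  κ : ℝ
  κ_nonneg : 0 ≤ κ
  ep : ℝ
  ep_pos : 0 < ep
  K : ℕ
  K_ge : 4 * r * Hs ≤ K
  K_ge' : 6 * C1 + 1 ≤ K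
  /-- localized functionals -/
  F : ℕ → (E →L[ℝ] ℝ)
  F_mem : ∀ i, F i ∈ GQ
  F_norm : ∀ i, ‖F i‖ ≤ 1
  F_val : ∀ i, κ ≤ F i (z i)
  F_lip : ∀ i p q, |F i (β p) - F i (β q)| ≤ C1 * dist p q
  F_bound : ∀ i p, |F i (β p)| ≤ Hs * S i
  F_supp : ∀ i p, F i (β p) ≠ 0 → s i p ≤ - S i / (2 * r)
  /-- weak nullity -/
  z_null : ∀ G ∈ GQ, Tendsto (fun i => G (z i)) U (𝓝 0)
  F_null : ∀ x : E, Tendsto (fun i => F i x) U (𝓝 0)
  /-- the flattening coordinates -/
  flat : ∀ G ∈ GQ, ∀ K' : ℕ, (K' = K ∨ K' = K + 1) →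
    (∀ p q, |G (β p) - G (β q)| ≤ K' * dist p q) → ∀ (x : E) (τ : ℝ), 0 < τ →
    ∀ᶠ i in (U : Filter ℕ), ∀ a : ℤ, ∃ G' ∈ GQ, ‖G'‖ ≤ K' / ep ∧ |G' x| ≤ τ ∧
      ∀ p, G' (β p) = - K' * soft (max 0 (s i p))
        (tent (1 / (4 * r) * S i) (G (β p) / K' - a * (1 / (4 * r) * S i)))
  /-- cells: on the big cell, the observables are close to the centre. -/
  cen : ℕ → ℕ → ℝ
  Cc : ℕ → ℝ
  cell : ∀ j, ∀ᶠ i in (U : Filter ℕ), ∀ p, s i p < 1 / (4 * r) * S i → |o j p - cen i j| ≤ Cc j * S i
  /-- o-continuity -/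
  ocont : ∀ (c : ℕ → ℝ), ∀ G ∈ GQ, ∃ L : ℝ,
    Tendsto (fun p => G (β p)) (comap (fun p j => o j p) (𝓝 c)) (𝓝 L)
  ocont_s : ∀ (c : ℕ → ℝ) (i : ℕ), ∃ L : ℝ,
    Tendsto (s i) (comap (fun p j => o j p) (𝓝 c)) (𝓝 L)
  /-- dichotomy of scales -/
  dich : (∀ᶠ i₀ in (U : Filter ℕ), ∀ᶠ i in (U : Filter ℕ), S i₀ ≤ S i) ∨ Tendsto S U (𝓝 0)

namespace ChainData

variable {P : Type*} [PseudoMetricSpace P] {E : Type*} [NormedAddCommGroup E]
    [NormedSpace ℝ E] {β : P → E} {U : Ultrafilter ℕ} {z : ℕ → E} (D : ChainData β U z)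

/-- the size of the lattice at stage `i` -/
noncomputable def hS (i : ℕ) : ℝ := 1 / (4 * D.r) * D.S i

lemma r0 : 0 < D.r := lt_of_lt_of_le one_pos D.r_pos

lemma hS_pos (i : ℕ) : 0 < D.hS i := by
  have := D.r0
  have := D.S_pos i
  unfold hS; positivity

lemma K_one : (1 : ℝ) ≤ D.K := le_trans (by linarith [D.C1_nonneg]) D.K_ge'

/-- the height of the localized functions is at most `K h S`. -/
lemma Hs_le (i : ℕ) : D.Hs * D.S i ≤ D.K * D.hS i := by
  have h1 := D.K_ge
  have h2 := D.r0
  have h3 := D.S_pos i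
  unfold hS
  have : D.K * (1 / (4 * D.r) * D.S i) = (D.K / (4 * D.r)) * D.S i := by ring
  rw [this]
  refine mul_le_mul_of_nonneg_right ?_ h3.le
  rw [le_div_iff₀ (by positivity)]
  linarith

lemma supp_neg {i : ℕ} {p : P} (h : D.F i (β p) ≠ 0) : D.s i p < 0 := by
  have h1 := D.F_supp i p h
  have h2 := D.r0
  have h3 := D.S_pos i
  have : - D.S i / (2 * D.r) < 0 := div_neg_of_neg_of_pos (by linarith) (by positivity)
  linarith

/-- Generic induction along the chain. -/
theorem induct (hU : (U : Filter ℕ) ≤ cofinite) (Inv : ℕ → (E →L[ℝ] ℝ) → Prop)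
    (h0 : Inv 0 0)
    (hstep : ∀ m G, G ∈ D.GQ → Inv m G → ∀ (x : E) (τ : ℝ), 0 < τ →
      ∀ᶠ i in (U : Filter ℕ), ∃ G' ∈ D.GQ, ‖G'‖ ≤ (D.K + 1) / D.ep ∧ |G' x| ≤ τ ∧
        Inv (m + 1) (G + G' + D.F i) ∧ Inv (m + 1) (G + G' - D.F i)) (M : ℕ) :
    ∃ (A : Finset ℕ) (ε : ℕ → ℝ) (G : E →L[ℝ] ℝ), (∀ j, |ε j| ≤ 1) ∧ G ∈ D.GQ ∧
      ‖G‖ ≤ M * (1 + (D.K + 1) / D.ep) ∧
      M * D.κ - (1 - (1 / 2) ^ M) ≤ G (∑ i ∈ A, ε i • z i) ∧ Inv M G := by
  classical
  induction M with
  | zero => exact ⟨∅, fun _ => 0, 0, by simp, D.GQ_zero, by simp, by simp, h0⟩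
  | succ m ih =>
    obtain ⟨A, ε, G, hε, hG, hGn, hGv, hInv⟩ := ih
    set x : E := ∑ i ∈ A, ε i • z i with hx
    set τ : ℝ := (1 / 2) ^ (m + 1) / 3 with hτ
    have hτ0 : 0 < τ := by positivity
    have e1 := hstep m G hG hInv x τ hτ0
    have e2 : ∀ᶠ i in (U : Filter ℕ), |G (z i)| ≤ τ := by
      have := (D.z_null G hG).eventually (Metric.ball_mem_nhds 0 hτ0)
      filter_upwards [this] with i hi
      simpa [Real.norm_eq_abs] using (mem_ball_zero_iff.1 hi).le
    have e3 : ∀ᶠ i in (U : Filter ℕ), |D.F i x| ≤ τ := by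
      have := (D.F_null x).eventually (Metric.ball_mem_nhds 0 hτ0)
      filter_upwards [this] with i hi
      simpa [Real.norm_eq_abs] using (mem_ball_zero_iff.1 hi).le
    have e4 : ∀ᶠ i in (U : Filter ℕ), i ∉ A := hU A.finite_toSet.compl_mem_cofinite
    obtain ⟨i, ⟨G', hG', hG'n, hG'x, hI1, hI2⟩, hi2, hi3, hi4⟩ := (e1.and (e2.and (e3.and e4))).exists
    have hpow : ((1 : ℝ) / 2) ^ m = 2 * (1 / 2) ^ (m + 1) := by rw [pow_succ]; ring
    have a2 := abs_le.1 hi2
    have a3 := abs_le.1 hi3
    have a4 := abs_le.1 hG'x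
    have hval := D.F_val i
    -- the sum over `insert i A`
    have hsum : ∀ t : ℝ, ∑ j ∈ insert i A, (Function.update ε i t) j • z j = x + t • z i := by
      intro t
      rw [Finset.sum_insert hi4, Function.update_self, add_comm]
      congr 1
      refine Finset.sum_congr rfl fun j hj => ?_
      have hji : j ≠ i := fun h => hi4 (h ▸ hj)
      rw [Function.update_of_ne hji]
    have hn : ∀ F' : E →L[ℝ] ℝ, ‖F'‖ ≤ 1 → ‖G + G' + F'‖ ≤ ((m + 1 : ℕ) : ℝ) * (1 + (D.K + 1) / D.ep) := by
      intro F' hF'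
      have : ‖G + G' + F'‖ ≤ ‖G‖ + ‖G'‖ + ‖F'‖ := (norm_add_le _ _).trans (by gcongr; exact norm_add_le _ _)
      push_cast
      linarith
    rcases le_total 0 (G' (z i)) with hs | hs
    · refine ⟨insert i A, Function.update ε i 1, G + G' + D.F i, ?_,
        D.GQ_add _ (D.GQ_add _ hG _ hG') _ (D.F_mem i), hn _ (D.F_norm i), ?_, hI1⟩
      · intro j
        by_cases hj : j = i
        · subst hj; simp
        · rw [Function.update_of_ne hj]; exact hε j
      · rw [hsum, one_smul]
        simp only [add_apply, map_add]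
        push_cast
        rw [hpow] at hGv
        linarith
    · refine ⟨insert i A, Function.update ε i (-1), G + G' - D.F i, ?_, ?_, ?_, ?_, hI2⟩
      · intro j
        by_cases hj : j = i
        · subst hj; simp
        · rw [Function.update_of_ne hj]; exact hε j
      · rw [sub_eq_add_neg]
        exact D.GQ_add _ (D.GQ_add _ hG _ hG') _ (D.GQ_neg _ (D.F_mem i))
      · rw [sub_eq_add_neg]
        exact hn _ (by rw [norm_neg]; exact D.F_norm i)
      · rw [hsum, neg_one_smul]
        simp only [sub_apply, add_apply, map_add, map_neg]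
        push_cast
        rw [hpow] at hGv
        linarith

/-- Gluing lemma. -/
theorem glue {f g σ : P → ℝ} {K : ℝ} (hf : ∀ p q, |f p - f q| ≤ K * dist p q)
    (hg : ∀ p q, |g p - g q| ≤ K * dist p q) (hσ : ∀ p q, |σ p - σ q| ≤ dist p q) (hK : 0 ≤ K)
    (hfs : ∀ p, |f p| ≤ K * max 0 (σ p)) (hgs : ∀ p, |g p| ≤ K * max 0 (-σ p)) (p q : P) :
    |(f p + g p) - (f q + g q)| ≤ K * dist p q := by
  -- f vanishes where σ ≤ 0, g vanishes where σ ≥ 0
  have f0 : ∀ p, σ p ≤ 0 → f p = 0 := by
    intro p hp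
    have := hfs p
    rw [max_eq_left hp, mul_zero] at this
    exact abs_nonpos_iff.1 this
  have g0 : ∀ p, 0 ≤ σ p → g p = 0 := by
    intro p hp
    have := hgs p
    rw [max_eq_left (by linarith), mul_zero] at this
    exact abs_nonpos_iff.1 this
  have cross : ∀ p q, 0 ≤ σ p → σ q ≤ 0 → |(f p + g p) - (f q + g q)| ≤ K * dist p q := by
    intro p q hp hq
    rw [g0 p hp, f0 q hq, add_zero, zero_add]
    have h1 := hfs p
    have h2 := hgs q
    rw [max_eq_right hp] at h1
    rw [max_eq_right (by linarith : (0:ℝ) ≤ -σ q)] at h2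
    have h3 := (le_abs_self _).trans (hσ p q)
    have h4 : K * (σ p - σ q) ≤ K * dist p q := mul_le_mul_of_nonneg_left h3 hK
    have h5 : |f p - g q| ≤ |f p| + |g q| := abs_sub _ _
    nlinarith
  rcases le_total 0 (σ p) with hp | hp
  · rcases le_total 0 (σ q) with hq | hq
    · rw [g0 p hp, g0 q hq, add_zero, add_zero]; exact hf p q
    · exact cross p q hp hq
  · rcases le_total 0 (σ q) with hq | hq
    · rw [abs_sub_comm, dist_comm]; exact cross q p hq hp
    · rw [f0 p hp, f0 q hq, zero_add, zero_add]; exact hg p q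

/-! ### Case A -/

theorem caseA (hU : (U : Filter ℕ) ≤ cofinite)
    (hA : ∀ᶠ i₀ in (U : Filter ℕ), ∀ᶠ i in (U : Filter ℕ), D.S i₀ ≤ D.S i) (M : ℕ) :
    ∃ (A : Finset ℕ) (ε : ℕ → ℝ) (G : E →L[ℝ] ℝ), (∀ j, |ε j| ≤ 1) ∧
      ‖G‖ ≤ M * (1 + (D.K + 1) / D.ep) ∧
      (∀ p q, |G (β p) - G (β q)| ≤ (D.K + 1) * dist p q) ∧
      M * D.κ - 1 ≤ G (∑ i ∈ A, ε i • z i) := by
  have hK1 := D.K_one
  have hr := D.r0
  have hKC : D.C1 ≤ D.K := by linarith [D.K_ge', D.C1_nonneg]
  suffices hst : _ by
    obtain ⟨A, ε, G, h1, _, h3, h4, h5, _⟩ := D.induct hU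
      (fun _ G => (∀ p q, |G (β p) - G (β q)| ≤ D.K * dist p q) ∧
        ∃ b : ℝ, (∀ p, |G (β p)| ≤ b) ∧ ∀ᶠ i in (U : Filter ℕ), b ≤ D.K * D.hS i)
      ⟨fun p q => by simp; positivity, 0, fun p => by simp, Eventually.of_forall fun i => by
        have := D.hS_pos i; positivity⟩ hst M
    refine ⟨A, ε, G, h1, h3, fun p q => (h5 p q).trans ?_, ?_⟩
    · have : 0 ≤ dist p q := dist_nonneg
      nlinarith
    · have : (0 : ℝ) < (1 / 2) ^ M := by positivity
      linarith
  · rintro m G hG ⟨hL, b, hb, hbi⟩ x τ hτ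
    have e1 := D.flat G hG D.K (Or.inl rfl) hL x τ hτ
    filter_upwards [e1, hbi, hA] with i hi1 hi2 hi3
    obtain ⟨G', hG', hn, hx, hval⟩ := hi1 0
    have hhS := D.hS_pos i
    have hSi := D.S_pos i
    refine ⟨G', hG', hn.trans ?_, hx, ?_⟩
    · exact div_le_div_of_nonneg_right (by linarith) D.ep_pos.le
    -- the function f = K clip(D/K)
    have hK0 : (0 : ℝ) < D.K := by linarith
    have hbd : ∀ p, |G (β p) / D.K| ≤ D.hS i := by
      intro p
      rw [abs_div, abs_of_pos hK0, div_le_iff₀ hK0, mul_comm]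
      exact (hb p).trans hi2
    have hf : ∀ p, G (β p) + G' (β p) = D.K * clipc (max 0 (D.s i p)) (G (β p) / D.K) := by
      intro p
      rw [hval p]
      have : (1 : ℝ) / (4 * D.r) * D.S i = D.hS i := rfl
      rw [this]
      simp only [Int.cast_zero, zero_mul, sub_zero]
      rw [tent_eq_self (hbd p), ← sub_soft (le_max_left _ _)]
      field_simp
      ring
    have hfl : ∀ p q, |(G (β p) + G' (β p)) - (G (β q) + G' (β q))| ≤ D.K * dist p q := by
      intro p q
      rw [hf p, hf q, ← mul_sub, abs_mul, abs_of_pos hK0]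
      refine mul_le_mul_of_nonneg_left ?_ hK0.le
      refine clipc_lip.trans (max_le ?_ ?_)
      · rw [← sub_div, abs_div, abs_of_pos hK0, div_le_iff₀ hK0, mul_comm]
        exact hL p q
      · refine (abs_max_sub_max_le_max _ _ _ _).trans (max_le ?_ ?_)
        · simp
        · have := D.s_lip i p q
          have : 0 ≤ dist p q := dist_nonneg
          linarith
    have hfs : ∀ p, |G (β p) + G' (β p)| ≤ D.K * max 0 (D.s i p) := by
      intro p
      rw [hf p, abs_mul, abs_of_pos hK0]
      exact mul_le_mul_of_nonneg_left (abs_clipc_le (le_max_left _ _) _) hK0.le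
    have hfb : ∀ p, |G (β p) + G' (β p)| ≤ D.K * D.hS i := by
      intro p
      rw [hf p, abs_mul, abs_of_pos hK0]
      exact mul_le_mul_of_nonneg_left ((abs_clipc_le' (le_max_left _ _) _).trans (hbd p)) hK0.le
    have hgs : ∀ p, |D.F i (β p)| ≤ D.K * max 0 (-D.s i p) := by
      intro p
      by_cases h : D.F i (β p) = 0
      · rw [h, abs_zero]; positivity
      · have e1 := D.F_supp i p h
        have e2 := D.F_bound i p
        have e3 := D.Hs_le i
        have e4 : D.hS i ≤ D.S i / (2 * D.r) := by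
          unfold hS
          rw [div_mul_eq_mul_div, one_mul]
          exact div_le_div_of_nonneg_left hSi.le (by positivity) (by linarith)
        have e5 : D.S i / (2 * D.r) ≤ max 0 (-D.s i p) := by
          refine le_trans ?_ (le_max_right _ _)
          have : - D.S i / (2 * D.r) = -(D.S i / (2 * D.r)) := by ring
          linarith
        calc |D.F i (β p)| ≤ D.K * D.hS i := e2.trans e3
          _ ≤ D.K * max 0 (-D.s i p) := mul_le_mul_of_nonneg_left (e4.trans e5) hK0.le
    have hgl : ∀ p q, |D.F i (β p) - D.F i (β q)| ≤ D.K * dist p q := fun p q =>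
      (D.F_lip i p q).trans (mul_le_mul_of_nonneg_right hKC dist_nonneg)
    have hsl : ∀ p q, |D.s i p - D.s i q| ≤ dist p q := fun p q => by
      have := D.s_lip i p q
      have : 0 ≤ dist p q := dist_nonneg
      linarith
    have bound : ∀ (g : P → ℝ), (∀ p, |g p| = |D.F i (β p)|) → ∀ p,
        |(G (β p) + G' (β p)) + g p| ≤ D.K * D.hS i := by
      intro g hg p
      rcases le_total (D.s i p) 0 with h | h
      · have e1 : G (β p) + G' (β p) = 0 := by
          have := hfs p
          rw [max_eq_left h, mul_zero] at this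
          exact abs_nonpos_iff.1 this
        rw [e1, zero_add, hg]
        exact (D.F_bound i p).trans (D.Hs_le i)
      · have e1 : D.F i (β p) = 0 := by
          by_contra hne
          have := D.supp_neg hne
          linarith
        have e2 : g p = 0 := by
          have := hg p
          rw [e1, abs_zero] at this
          exact abs_eq_zero.1 this
        rw [e2, add_zero]
        exact hfb p
    constructor
    · refine ⟨fun p q => ?_, D.K * D.hS i, fun p => ?_, ?_⟩
      · simp only [add_apply]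
        exact glue hfl hgl hsl hK0.le hfs hgs p q
      · simp only [add_apply]
        exact bound (fun p => D.F i (β p)) (fun _ => rfl) p
      · filter_upwards [hi3] with j hj
        refine mul_le_mul_of_nonneg_left ?_ hK0.le
        unfold hS
        exact mul_le_mul_of_nonneg_left hj (by positivity)
    · refine ⟨fun p q => ?_, D.K * D.hS i, fun p => ?_, ?_⟩
      · simp only [add_apply, sub_eq_add_neg]
        have := glue (f := fun p => G (β p) + G' (β p)) (g := fun p => -D.F i (β p)) hfl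
          (fun p q => by
            rw [show -D.F i (β p) - -D.F i (β q) = -(D.F i (β p) - D.F i (β q)) by ring, abs_neg]
            exact hgl p q) hsl hK0.le hfs (fun p => by rw [abs_neg]; exact hgs p) p q
        simpa [sub_eq_add_neg] using this
      · simp only [add_apply, sub_eq_add_neg]
        exact bound (fun p => -D.F i (β p)) (fun _ => abs_neg _) p
      · filter_upwards [hi3] with j hj
        refine mul_le_mul_of_nonneg_left ?_ hK0.le
        unfold hS
        exact mul_le_mul_of_nonneg_left hj (by positivity)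

/-! ### Disjoint supports -/

theorem caseDisj (hU : (U : Filter ℕ) ≤ cofinite)
    (hA : ∀ᶠ i₀ in (U : Filter ℕ), ∀ᶠ i in (U : Filter ℕ), ∀ p, D.F i₀ (β p) ≠ 0 → D.F i (β p) = 0)
    (M : ℕ) :
    ∃ (A : Finset ℕ) (ε : ℕ → ℝ) (G : E →L[ℝ] ℝ), (∀ j, |ε j| ≤ 1) ∧
      ‖G‖ ≤ M * (1 + (D.K + 1) / D.ep) ∧
      (∀ p q, |G (β p) - G (β q)| ≤ (D.K + 1) * dist p q) ∧
      M * D.κ - 1 ≤ G (∑ i ∈ A, ε i • z i) := by
  have hK1 := D.K_one
  have hC0 := D.C1_nonneg
  have hKC := D.K_ge'
  suffices hst : _ by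
    obtain ⟨A, ε, G, h1, _, h3, h4, h5, _⟩ := D.induct hU
      (fun _ G => (∀ p q, |G (β p) - G (β q)| ≤ (2 * D.C1) * dist p q) ∧
        (∀ p q, G (β q) = 0 → |G (β p)| ≤ D.C1 * dist p q) ∧
        ∀ᶠ i in (U : Filter ℕ), ∀ p, G (β p) ≠ 0 → D.F i (β p) = 0)
      ⟨fun p q => by simp; positivity, fun p q _ => by simp; positivity,
        Eventually.of_forall fun i p h => absurd (by simp) h⟩ hst M
    refine ⟨A, ε, G, h1, h3, fun p q => (h5 p q).trans ?_, ?_⟩
    · have : 0 ≤ dist p q := dist_nonneg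
      nlinarith
    · have : (0 : ℝ) < (1 / 2) ^ M := by positivity
      linarith
  · rintro m G hG ⟨hL, hV, hbi⟩ x τ hτ
    filter_upwards [hbi, hA] with i hi hi3
    refine ⟨0, D.GQ_zero, by simpa using div_nonneg (by linarith) D.ep_pos.le, by simpa using hτ.le, ?_⟩
    -- generic claim for a function `g` with the same support as `F i ∘ β`
    have claim : ∀ (g : P → ℝ), (∀ p q, |g p - g q| ≤ D.C1 * dist p q) →
        (∀ p, D.F i (β p) = 0 ↔ g p = 0) →
        (∀ p q, |(G (β p) + g p) - (G (β q) + g q)| ≤ (2 * D.C1) * dist p q) ∧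
        (∀ p q, G (β q) + g q = 0 → |G (β p) + g p| ≤ D.C1 * dist p q) ∧
        ∀ᶠ j in (U : Filter ℕ), ∀ p, G (β p) + g p ≠ 0 → D.F j (β p) = 0 := by
      intro g hg hg0
      have hdisj : ∀ p, G (β p) ≠ 0 → g p = 0 := fun p hp => (hg0 p).1 (hi p hp)
      have hdisj' : ∀ p, g p ≠ 0 → G (β p) = 0 := fun p hp => by
        by_contra h; exact hp (hdisj p h)
      have hgz : ∀ p q, g q = 0 → |g p| ≤ D.C1 * dist p q := fun p q hq => by
        have := hg p q
        rwa [hq, sub_zero] at this
      have hV' : ∀ p q, G (β q) + g q = 0 → |G (β p) + g p| ≤ D.C1 * dist p q := by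
        intro p q hq
        have hGq : G (β q) = 0 := by
          by_contra h
          rw [hdisj q h, add_zero] at hq
          exact h hq
        have hgq : g q = 0 := by rwa [hGq, zero_add] at hq
        by_cases hp : G (β p) = 0
        · rw [hp, zero_add]; exact hgz p q hgq
        · rw [hdisj p hp, add_zero]; exact hV p q hGq
      refine ⟨fun p q => ?_, hV', ?_⟩
      · have hd : 0 ≤ dist p q := dist_nonneg
        have hCd : 0 ≤ D.C1 * dist p q := mul_nonneg hC0 hd
        by_cases hp : G (β p) = 0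
        · by_cases hq : G (β q) = 0
          · rw [hp, hq, zero_add, zero_add]
            have := hg p q
            linarith
          · -- q in supp G, so g q = 0
            have hgq := hdisj q hq
            rw [hp, hgq, zero_add, add_zero]
            have e1 := hgz p q hgq
            have e2 := hV q p hp
            rw [dist_comm] at e2
            have e3 : |g p - G (β q)| ≤ |g p| + |G (β q)| := abs_sub _ _
            linarith
        · have hgp := hdisj p hp
          by_cases hq : G (β q) = 0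
          · rw [hgp, hq, zero_add, add_zero]
            have e1 := hgz q p hgp
            rw [dist_comm] at e1
            have e2 := hV p q hq
            have e3 : |G (β p) - g q| ≤ |G (β p)| + |g q| := abs_sub _ _
            linarith
          · rw [hgp, hdisj q hq, add_zero, add_zero]; exact hL p q
      · filter_upwards [hbi, hi3] with j h1 h2
        intro p hp
        by_cases hG0 : G (β p) = 0
        · rw [hG0, zero_add] at hp
          exact h2 p (fun h => hp ((hg0 p).1 h))
        · exact h1 p hG0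
    constructor
    · have := claim (fun p => D.F i (β p)) (D.F_lip i) (fun p => Iff.rfl)
      simpa using this
    · have := claim (fun p => -D.F i (β p)) (fun p q => by
        rw [show -D.F i (β p) - -D.F i (β q) = -(D.F i (β p) - D.F i (β q)) by ring, abs_neg]
        exact D.F_lip i p q) (fun p => by simp)
      simpa [sub_eq_add_neg] using this

/-! ### Case B2 -/

/-- basic neighbourhoods -/
def W (c : ℕ → ℝ) (N : ℕ) (δ : ℝ) : Set P := {p | ∀ j < N, |D.o j p - c j| < δ}

lemma exists_W (c : ℕ → ℝ) {T : Set P} (hT : T ∈ comap (fun p j => D.o j p) (𝓝 c)) :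
    ∃ N : ℕ, ∃ δ > 0, D.W c N δ ⊆ T := by
  obtain ⟨t, ht, hsub⟩ := mem_comap.1 hT
  obtain ⟨u, hut, hu, hcu⟩ := mem_nhds_iff.1 ht
  obtain ⟨I, v, hv, hvu⟩ := isOpen_pi_iff.1 hu c hcu
  have : ∀ j : ℕ, ∃ δ > 0, j ∈ I → Metric.ball (c j) δ ⊆ v j := by
    intro j
    by_cases hj : j ∈ I
    · obtain ⟨δ, hδ, h⟩ := Metric.isOpen_iff.1 (hv j hj).1 (c j) (hv j hj).2
      exact ⟨δ, hδ, fun _ => h⟩
    · exact ⟨1, one_pos, fun h => absurd h hj⟩
  choose δ hδ hball using this
  obtain ⟨N, hN⟩ : ∃ N, ∀ j ∈ I, j < N := ⟨I.sup id + 1, fun j hj =>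
    Nat.lt_succ_of_le (Finset.le_sup (f := id) hj)⟩
  obtain ⟨δ₀, hδ₀, hle⟩ : ∃ δ₀ > 0, ∀ j ∈ I, δ₀ ≤ δ j := by
    rcases I.eq_empty_or_nonempty with h | hne
    · exact ⟨1, one_pos, by simp [h]⟩
    · obtain ⟨j0, _, hmin⟩ := I.exists_min_image δ hne
      exact ⟨δ j0, hδ j0, hmin⟩
  refine ⟨N, δ₀, hδ₀, fun p hp => hsub (hut (hvu ?_))⟩
  intro j hj
  have hj' : j ∈ I := hj
  refine hball j hj' ?_
  rw [Metric.mem_ball, Real.dist_eq]
  exact (hp j (hN j hj')).trans_le (hle j hj')

lemma cells (hS0 : Tendsto D.S U (𝓝 0)) (c : ℕ → ℝ)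
    (hcen : ∀ j, Tendsto (fun i => D.cen i j) U (𝓝 (c j))) (N : ℕ) {δ : ℝ} (hδ : 0 < δ) :
    ∀ᶠ i in (U : Filter ℕ), ∀ p, D.s i p < D.hS i → p ∈ D.W c N δ := by
  have : ∀ j ∈ Finset.range N, ∀ᶠ i in (U : Filter ℕ), ∀ p, D.s i p < D.hS i → |D.o j p - c j| < δ := by
    intro j _
    have h1 := D.cell j
    have h2 : ∀ᶠ i in (U : Filter ℕ), |D.cen i j - c j| < δ / 2 := by
      have := (hcen j).eventually (Metric.ball_mem_nhds (c j) (half_pos hδ))
      filter_upwards [this] with i hi
      rwa [Real.dist_eq] at hi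
    have h3 : ∀ᶠ i in (U : Filter ℕ), D.Cc j * D.S i < δ / 2 := by
      have : Tendsto (fun i => D.Cc j * D.S i) U (𝓝 (D.Cc j * 0)) := hS0.const_mul _
      rw [mul_zero] at this
      exact this.eventually (gt_mem_nhds (half_pos hδ))
    filter_upwards [h1, h2, h3] with i a1 a2 a3 p hp
    have a4 := a1 p hp
    calc |D.o j p - c j| ≤ |D.o j p - D.cen i j| + |D.cen i j - c j| := abs_sub_le _ _ _
      _ < δ := by linarith
  have := (Filter.eventually_all_finset (Finset.range N)).2 this
  filter_upwards [this] with i hi p hp j hj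
  exact hi j (Finset.mem_range.2 hj) p hp

theorem caseB2 (hU : (U : Filter ℕ) ≤ cofinite) (hS0 : Tendsto D.S U (𝓝 0)) (c : ℕ → ℝ)
    (hcen : ∀ j, Tendsto (fun i => D.cen i j) U (𝓝 (c j)))
    (hB2 : ∀ᶠ i in (U : Filter ℕ), ∀ (N : ℕ) (δ : ℝ), 0 < δ → ∃ p ∈ D.W c N δ, D.F i (β p) ≠ 0)
    (M : ℕ) :
    ∃ (A : Finset ℕ) (ε : ℕ → ℝ) (G : E →L[ℝ] ℝ), (∀ j, |ε j| ≤ 1) ∧
      ‖G‖ ≤ M * (1 + (D.K + 1) / D.ep) ∧
      (∀ p q, |G (β p) - G (β q)| ≤ (D.K + 1) * dist p q) ∧
      M * D.κ - 1 ≤ G (∑ i ∈ A, ε i • z i) := by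
  have hK1 := D.K_one
  have hC0 := D.C1_nonneg
  have hKC := D.K_ge'
  have hr := D.r0
  suffices hst : _ by
    obtain ⟨A, ε, G, h1, _, h3, h4, h5, _⟩ := D.induct hU
      (fun m G => (∀ p q, |G (β p) - G (β q)| ≤ (D.K + 1 - (1 / 2) ^ m) * dist p q) ∧
        ∃ (N : ℕ) (δ : ℝ), 0 < δ ∧ ∀ p ∈ D.W c N δ, ∀ q ∈ D.W c N δ,
          |G (β p) - G (β q)| ≤ D.C1 * dist p q)
      ⟨fun p q => by simp; positivity, 0, 1, one_pos, fun p _ q _ => by simp; positivity⟩ hst M
    refine ⟨A, ε, G, h1, h3, fun p q => (h5 p q).trans ?_, ?_⟩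
    · have : 0 ≤ dist p q := dist_nonneg
      have h2 : (0 : ℝ) < (1 / 2) ^ M := by positivity
      nlinarith
    · have : (0 : ℝ) < (1 / 2) ^ M := by positivity
      linarith
  · rintro m G hG ⟨hL, N, δ, hδ, hloc⟩ x τ hτ
    have hpm : (0 : ℝ) < (1 / 2) ^ m := by positivity
    have hpm1 : (0 : ℝ) < (1 / 2) ^ (m + 1) := by positivity
    have hpow : ((1 : ℝ) / 2) ^ m = 2 * (1 / 2) ^ (m + 1) := by rw [pow_succ]; ring
    have hpm1' : ((1 : ℝ) / 2) ^ (m + 1) ≤ 1 := pow_le_one₀ (by norm_num) (by norm_num)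
    have hL' : ∀ p q, |G (β p) - G (β q)| ≤ ((D.K + 1 : ℕ) : ℝ) * dist p q := fun p q => by
      have h0 : 0 ≤ dist p q := dist_nonneg
      refine (hL p q).trans ?_
      push_cast
      nlinarith
    have E1 := D.flat G hG (D.K + 1) (Or.inr rfl) hL' x τ hτ
    have E2 := D.cells hS0 c hcen N (half_pos hδ)
    have E3 : ∀ᶠ i in (U : Filter ℕ),
        (D.K + 1) * D.hS i + D.Hs * D.S i < δ / 2 * (1 / 2) ^ (m + 1) := by
      have : Tendsto (fun i => ((D.K + 1) * (1 / (4 * D.r)) + D.Hs) * D.S i) U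
        (𝓝 (((D.K + 1) * (1 / (4 * D.r)) + D.Hs) * 0)) := hS0.const_mul _
      rw [mul_zero] at this
      have h2 := this.eventually (gt_mem_nhds (show (0:ℝ) < δ / 2 * (1 / 2) ^ (m + 1) by positivity))
      filter_upwards [h2] with i hi
      have : (D.K + 1) * D.hS i + D.Hs * D.S i = ((D.K + 1) * (1 / (4 * D.r)) + D.Hs) * D.S i := by
        unfold hS; ring
      rw [this]; exact hi
    filter_upwards [E1, E2, E3, hB2] with i F1 F2 F3 F4
    have hhS := D.hS_pos i
    have hSi := D.S_pos i
    set K' : ℝ := D.K + 1 with hK'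
    have hK'0 : 0 < K' := by linarith
    -- limits
    obtain ⟨Lg, hLg⟩ := D.ocont c G hG
    obtain ⟨Ls, hLs⟩ := D.ocont_s c i
    have hnegS : - D.S i / (2 * D.r) < 0 := div_neg_of_neg_of_pos (by linarith) (by positivity)
    have hLs0 : Ls < 0 := by
      by_contra hcon
      have h1 : - D.S i / (2 * D.r) < Ls := lt_of_lt_of_le hnegS (not_lt.1 hcon)
      have h2 := hLs.eventually (lt_mem_nhds h1)
      obtain ⟨N1, δ1, hδ1, hsub⟩ := D.exists_W c h2
      obtain ⟨p, hp, hFp⟩ := F4 N1 δ1 hδ1
      have h3 : - D.S i / (2 * D.r) < D.s i p := hsub hp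
      have h4 := D.F_supp i p hFp
      linarith
    have hs_ev := hLs.eventually (gt_mem_nhds hLs0)
    have hg_ev : ∀ᶠ p in comap (fun p j => D.o j p) (𝓝 c), |G (β p) - Lg| < K' * D.hS i / 8 := by
      have := hLg.eventually (Metric.ball_mem_nhds Lg (show 0 < K' * D.hS i / 8 by positivity))
      filter_upwards [this] with p hp
      rwa [Real.dist_eq] at hp
    obtain ⟨N', δ', hδ', hsub⟩ := D.exists_W c (hs_ev.and hg_ev)
    obtain ⟨p0, hp0, _⟩ := F4 N' δ' hδ'
    have hp0' := hsub hp0
    set a : ℤ := round (G (β p0) / (K' * D.hS i)) with ha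
    obtain ⟨G', hG', hn, hx, hval⟩ := F1 a
    have hval' : ∀ p, G' (β p) = - K' * soft (max 0 (D.s i p))
        (tent (D.hS i) (G (β p) / K' - a * D.hS i)) := by
      intro p
      have := hval p
      push_cast at this
      exact this
    -- on W'
    have hflat : ∀ p ∈ D.W c N' δ', G (β p) + G' (β p) = K' * (a * D.hS i) := by
      intro p hp
      have hp' := hsub hp
      have hsn : D.s i p < 0 := hp'.1
      have hgn : |G (β p) - Lg| < K' * D.hS i / 8 := hp'.2
      have hg0 : |G (β p0) - Lg| < K' * D.hS i / 8 := hp0'.2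
      have h1 : |G (β p0) / (K' * D.hS i) - a| ≤ 1 / 2 := by
        rw [ha]; exact abs_sub_round _
      have h2 : |G (β p0) - a * (K' * D.hS i)| ≤ K' * D.hS i / 2 := by
        have hpos : 0 < K' * D.hS i := by positivity
        have : G (β p0) - a * (K' * D.hS i) = (G (β p0) / (K' * D.hS i) - a) * (K' * D.hS i) := by
          field_simp
        rw [this, abs_mul, abs_of_pos hpos]
        nlinarith
      have h3 : |G (β p) / K' - a * D.hS i| ≤ D.hS i := by
        have e : G (β p) / K' - a * D.hS i = (G (β p) - a * (K' * D.hS i)) / K' := by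
          field_simp
        rw [e, abs_div, abs_of_pos hK'0, div_le_iff₀ hK'0]
        have e1 : |G (β p) - a * (K' * D.hS i)| ≤
            |G (β p) - Lg| + |G (β p0) - Lg| + |G (β p0) - a * (K' * D.hS i)| := by
          have : G (β p) - a * (K' * D.hS i) =
            (G (β p) - Lg) - (G (β p0) - Lg) + (G (β p0) - a * (K' * D.hS i)) := by ring
          rw [this]
          refine (abs_add_le _ _).trans ?_
          gcongr
          exact abs_sub _ _
        have e2 : 0 < K' * D.hS i := by positivity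
        linarith
      rw [hval' p, max_eq_left hsn.le, tent_eq_self h3, soft_zero]
      field_simp
      ring
    -- the perturbation T
    have hT0 : ∀ p, D.hS i ≤ D.s i p → G' (β p) = 0 := by
      intro p hp
      rw [hval' p, soft_eq_zero, mul_zero]
      exact (abs_tent_le hhS.le _).trans (hp.trans (le_max_right _ _))
    have hTb : ∀ p, |G' (β p)| ≤ K' * D.hS i := by
      intro p
      rw [hval' p, abs_mul, abs_neg, abs_of_pos hK'0]
      refine mul_le_mul_of_nonneg_left ?_ hK'0.le
      exact (abs_soft_le (le_max_left _ _) _).trans (abs_tent_le hhS.le _)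
    have hTl : ∀ p ∈ D.W c N δ, ∀ q ∈ D.W c N δ,
        |G' (β p) - G' (β q)| ≤ (D.C1 + K' / 2) * dist p q := by
      intro p hp q hq
      rw [hval' p, hval' q, ← mul_sub, abs_mul, abs_neg, abs_of_pos hK'0]
      have h1 := soft_lip (le_max_left 0 (D.s i p)) (le_max_left 0 (D.s i q))
        (tent (D.hS i) (G (β p) / K' - a * D.hS i)) (tent (D.hS i) (G (β q) / K' - a * D.hS i))
      have h2 := tent_lip hhS.le (G (β p) / K' - a * D.hS i) (G (β q) / K' - a * D.hS i)
      have h3 : |G (β p) / K' - a * D.hS i - (G (β q) / K' - a * D.hS i)| ≤ D.C1 / K' * dist p q := by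
        have : G (β p) / K' - a * D.hS i - (G (β q) / K' - a * D.hS i) =
          (G (β p) - G (β q)) / K' := by ring
        rw [this, abs_div, abs_of_pos hK'0, div_le_iff₀ hK'0]
        have := hloc p hp q hq
        calc |G (β p) - G (β q)| ≤ D.C1 * dist p q := this
          _ = D.C1 / K' * dist p q * K' := by field_simp
      have h4 : |max 0 (D.s i p) - max 0 (D.s i q)| ≤ 1 / 2 * dist p q := by
        refine (abs_max_sub_max_le_max _ _ _ _).trans (max_le ?_ (D.s_lip i p q))
        simp
      have h5 : |soft (max 0 (D.s i p)) (tent (D.hS i) (G (β p) / K' - a * D.hS i)) -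
          soft (max 0 (D.s i q)) (tent (D.hS i) (G (β q) / K' - a * D.hS i))| ≤
          (D.C1 / K' + 1 / 2) * dist p q := by
        linarith
      calc K' * _ ≤ K' * ((D.C1 / K' + 1 / 2) * dist p q) := mul_le_mul_of_nonneg_left h5 hK'0.le
        _ = (D.C1 + K' / 2) * dist p q := by field_simp
    -- generic claim
    have claim : ∀ g : P → ℝ, (∀ p q, |g p - g q| ≤ D.C1 * dist p q) →
        (∀ p, |g p| = |D.F i (β p)|) →
        (∀ p q, |(G (β p) + G' (β p) + g p) - (G (β q) + G' (β q) + g q)|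
          ≤ (K' - (1 / 2) ^ (m + 1)) * dist p q) ∧
        ∃ (N : ℕ) (δ : ℝ), 0 < δ ∧ ∀ p ∈ D.W c N δ, ∀ q ∈ D.W c N δ,
          |(G (β p) + G' (β p) + g p) - (G (β q) + G' (β q) + g q)| ≤ D.C1 * dist p q := by
      intro g hg hgF
      have g0 : ∀ p, D.hS i ≤ D.s i p → g p = 0 := by
        intro p hp
        have : D.F i (β p) = 0 := by
          by_contra h
          have := D.supp_neg h
          linarith
        have h2 := hgF p
        rw [this, abs_zero] at h2
        exact abs_eq_zero.1 h2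
      have gb : ∀ p, |g p| ≤ D.Hs * D.S i := fun p => by rw [hgF]; exact D.F_bound i p
      have one : ∀ p q, D.s i p < D.hS i →
          |(G (β p) + G' (β p) + g p) - (G (β q) + G' (β q) + g q)|
            ≤ (K' - (1 / 2) ^ (m + 1)) * dist p q := by
        intro p q hp
        have hd : 0 ≤ dist p q := dist_nonneg
        have hpW := F2 p hp
        by_cases hq : q ∈ D.W c N δ
        · have hpW' : p ∈ D.W c N δ := fun j hj => (hpW j hj).trans (by linarith)
          have a1 := hloc p hpW' q hq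
          have a2 := hTl p hpW' q hq
          have a3 := hg p q
          have e : (G (β p) + G' (β p) + g p) - (G (β q) + G' (β q) + g q) =
            (G (β p) - G (β q)) + (G' (β p) - G' (β q)) + (g p - g q) := by ring
          rw [e]
          refine (abs_add_three _ _ _).trans ?_
          have : D.C1 * dist p q + (D.C1 + K' / 2) * dist p q + D.C1 * dist p q
            ≤ (K' - (1 / 2) ^ (m + 1)) * dist p q := by
            rw [← add_mul, ← add_mul]
            refine mul_le_mul_of_nonneg_right ?_ hd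
            rw [hK']
            linarith
          linarith
        · -- far apart
          obtain ⟨j, hj, hjq⟩ : ∃ j < N, δ ≤ |D.o j q - c j| := by
            by_contra hcon
            push Not at hcon
            exact hq hcon
          have hdist : δ / 2 ≤ dist p q := by
            have h1 := (D.o_lip j).dist_le_mul p q
            simp only [NNReal.coe_one, one_mul, Real.dist_eq] at h1
            have h2 := hpW j hj
            have h3 : |D.o j q - c j| ≤ |D.o j p - c j| + |D.o j p - D.o j q| := by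
              have : D.o j q - c j = (D.o j p - c j) - (D.o j p - D.o j q) := by ring
              rw [this]; exact abs_sub _ _
            linarith
          have hqs : D.hS i ≤ D.s i q := by
            by_contra hcon
            have := F2 q (not_le.1 hcon)
            exact hq (fun j hj => (this j hj).trans (by linarith))
          rw [hT0 q hqs, g0 q hqs]
          have a1 := hL p q
          have a2 := hTb p
          have a3 := gb p
          have e : (G (β p) + G' (β p) + g p) - (G (β q) + 0 + 0) =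
            (G (β p) - G (β q)) + G' (β p) + g p := by ring
          rw [e]
          refine (abs_add_three _ _ _).trans ?_
          have a4 : δ / 2 * (1 / 2) ^ (m + 1) ≤ (1 / 2) ^ (m + 1) * dist p q := by
            rw [mul_comm]
            exact mul_le_mul_of_nonneg_left hdist hpm1.le
          have a5 : (D.K + 1 - (1 / 2) ^ m) * dist p q + (1 / 2) ^ (m + 1) * dist p q =
            (K' - (1 / 2) ^ (m + 1)) * dist p q := by
            rw [hpow]; ring
          linarith
      constructor
      · intro p q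
        by_cases hp : D.s i p < D.hS i
        · exact one p q hp
        · by_cases hq : D.s i q < D.hS i
          · rw [abs_sub_comm, dist_comm]; exact one q p hq
          · push Not at hp hq
            rw [hT0 p hp, hT0 q hq, g0 p hp, g0 q hq]
            have := hL p q
            have hd : 0 ≤ dist p q := dist_nonneg
            simp only [add_zero]
            refine this.trans (mul_le_mul_of_nonneg_right ?_ hd)
            rw [hpow]; linarith
      · refine ⟨N', δ', hδ', fun p hp q hq => ?_⟩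
        rw [hflat p hp, hflat q hq]
        have := hg p q
        rwa [add_sub_add_left_eq_sub]
    refine ⟨G', hG', ?_, hx, ?_, ?_⟩
    · refine hn.trans (le_of_eq ?_)
      push_cast; rfl
    · have := claim (fun p => D.F i (β p)) (D.F_lip i) (fun _ => rfl)
      simpa using this
    · have := claim (fun p => -D.F i (β p)) (fun p q => by
        rw [show -D.F i (β p) - -D.F i (β q) = -(D.F i (β p) - D.F i (β q)) by ring, abs_neg]
        exact D.F_lip i p q) (fun p => abs_neg _)
      simpa [sub_eq_add_neg] using this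

/-- **Chain theorem.** -/
theorem chain (hU : (U : Filter ℕ) ≤ cofinite) (M : ℕ) :
    ∃ (A : Finset ℕ) (ε : ℕ → ℝ) (G : E →L[ℝ] ℝ), (∀ j, |ε j| ≤ 1) ∧
      ‖G‖ ≤ M * (1 + (D.K + 1) / D.ep) ∧
      (∀ p q, |G (β p) - G (β q)| ≤ (D.K + 1) * dist p q) ∧
      M * D.κ - 1 ≤ G (∑ i ∈ A, ε i • z i) := by
  have hr := D.r0
  rcases D.dich with hA | hS0
  · exact D.caseA hU hA M
  -- the functions `F i` live on the big cells
  have hcell : ∀ i p, D.F i (β p) ≠ 0 → D.s i p < D.hS i := fun i p h =>
    (D.supp_neg h).trans (D.hS_pos i)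
  by_cases hlim : ∀ j, ∃ c : ℝ, Tendsto (fun i => D.cen i j) U (𝓝 c)
  · choose c hc using hlim
    by_cases hB : ∀ᶠ i in (U : Filter ℕ), ∃ (N : ℕ) (δ : ℝ), 0 < δ ∧ ∀ p ∈ D.W c N δ, D.F i (β p) = 0
    · -- B1
      refine D.caseDisj hU ?_ M
      filter_upwards [hB] with i₀ ⟨N, δ, hδ, h0⟩
      filter_upwards [D.cells hS0 c hc N hδ] with i hi p hp
      by_contra hne
      exact hp (h0 p (hi p (hcell i p hne)))
    · refine D.caseB2 hU hS0 c hc ?_ M
      have := Ultrafilter.eventually_not.2 hB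
      filter_upwards [this] with i hi N δ hδ
      by_contra hcon
      push Not at hcon
      exact hi ⟨N, δ, hδ, hcon⟩
  · -- some centre is unbounded
    push Not at hlim
    obtain ⟨j, hj⟩ := hlim
    have hunb : ∀ R : ℝ, ∀ᶠ i in (U : Filter ℕ), R < |D.cen i j| := by
      intro R
      by_contra hcon
      have h1 : ∀ᶠ i in (U : Filter ℕ), D.cen i j ∈ Set.Icc (-R) R := by
        have := Ultrafilter.eventually_not.2 hcon
        filter_upwards [this] with i hi
        exact abs_le.1 (not_lt.1 hi)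
      obtain ⟨c, _, hc⟩ := (isCompact_Icc (a := -R) (b := R)).ultrafilter_le_nhds
        (U.map (fun i => D.cen i j)) (by
          rw [le_principal_iff]
          exact h1)
      exact hj c hc
    refine D.caseDisj hU ?_ M
    have hsmall : ∀ᶠ i in (U : Filter ℕ), D.Cc j * D.S i < 1 := by
      have : Tendsto (fun i => D.Cc j * D.S i) U (𝓝 (D.Cc j * 0)) := hS0.const_mul _
      rw [mul_zero] at this
      exact this.eventually (gt_mem_nhds one_pos)
    filter_upwards [D.cell j] with i₀ h0
    filter_upwards [hunb (|D.cen i₀ j| + D.Cc j * D.S i₀ + 1), hsmall, D.cell j] with i h1 h2 h3 p hp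
    by_contra hne
    have a1 := h0 p (hcell i₀ p hp)
    have a2 := h3 p (hcell i p hne)
    have a3 : |D.cen i j| ≤ |D.o j p - D.cen i j| + |D.o j p - D.cen i₀ j| + |D.cen i₀ j| := by
      have : D.cen i j = -(D.o j p - D.cen i j) + (D.o j p - D.cen i₀ j) + D.cen i₀ j := by ring
      conv_lhs => rw [this]
      refine (abs_add_three _ _ _).trans ?_
      rw [abs_neg]
    linarith

end ChainData

/-- **Chain theorem**, in the form of the interface. -/
theorem chain {P : Type*} [PseudoMetricSpace P] {E : Type*} [NormedAddCommGroup E]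
    [NormedSpace ℝ E] {β : P → E} {U : Ultrafilter ℕ} (hU : (U : Filter ℕ) ≤ cofinite)
    {z : ℕ → E} (D : ChainData β U z) (M : ℕ) :
    ∃ (A : Finset ℕ) (ε : ℕ → ℝ) (G : E →L[ℝ] ℝ), (∀ j, |ε j| ≤ 1) ∧
      ‖G‖ ≤ M * (1 + (D.K + 1) / D.ep) ∧
      (∀ p q, |G (β p) - G (β q)| ≤ (D.K + 1) * dist p q) ∧
      M * D.κ - 1 ≤ G (∑ i ∈ A, ε i • z i) := D.chain hU M

end Crest.Agent.R091.Ch
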