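import Crest.Agent.R091.Eval
import Crest.Agent.R091.Phi
import Crest.Agent.R091.PhiAux

/-! # Row 91, module ChainInstA (helper102): the fields `flat`, `dich`, `cell` of the chain data for the
concrete block functionals. -/

set_option autoImplicit false

namespace Crest.Agent.R091

open Filter
open scoped Topology ZeroAtInfty

variable {H : Type} [NormedAddCommGroup H] [InnerProductSpace ℝ H]

/-- centre of the window of the `j`-th observable in the `i`-th cell -/
noncomputable def cenI (n : ℕ → ℕ) (k : ℕ → ℤ) (c : (i : ℕ) → Fin (n i) → ℤ) (i j : ℕ) : ℝ :=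
  if h : j < n i then c i ⟨j, h⟩ * sc (k i + 1) / om j else 0

/-- relative size of the window of the `j`-th observable -/
noncomputable def CcI (d j : ℕ) : ℝ := (rho d + 1 / 2) * Lam / om j

theorem sc_succ' (k : ℤ) : sc (k + 1) = Lam * sc k := by
  unfold sc Lam
  rw [← Real.exp_add]
  congr 1
  push_cast
  ring

theorem cell_apply (X : Ctx H) (U : Ultrafilter ℕ) (hU : (U : Filter ℕ) ≤ atTop) (n : ℕ → ℕ)
    (k : ℕ → ℤ) (c : (i : ℕ) → Fin (n i) → ℤ) (d : ℕ) (hn : Tendsto n atTop atTop) (j : ℕ) :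
    ∀ᶠ i in (U : Filter ℕ), ∀ p : P H,
      sfun X (n i) (k i) (c i) d p < 1 / (4 * rr d) * sc (k i) →
        |obs X j p - cenI n k c i j| ≤ CcI d j * sc (k i) := by
  have h1 : ∀ᶠ i in (U : Filter ℕ), j < n i := (hn.mono_left hU).eventually (eventually_gt_atTop j)
  filter_upwards [h1] with i hi p hp
  obtain ⟨-, -, h3⟩ := bigcell_facts X (n i) (c i) (k i) d p hp
  have h4 := h3 ⟨j, hi⟩
  have hom : 0 < om j := PhiAux.om_pos j
  have hsc : 0 < sc (k i) := PhiAux.sc_pos (k i)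
  have hsc1 : 0 < sc (k i + 1) := PhiAux.sc_pos (k i + 1)
  unfold cenI
  rw [dif_pos hi]
  have e : obs X j p - c i ⟨j, hi⟩ * sc (k i + 1) / om j =
      sc (k i + 1) / om j * (om j * obs X j p / sc (k i + 1) - c i ⟨j, hi⟩) := by
    field_simp
  rw [e, abs_mul, abs_of_pos (div_pos hsc1 hom)]
  refine (mul_le_mul_of_nonneg_left h4.le (div_pos hsc1 hom).le).trans ?_
  unfold CcI
  rw [sc_succ']
  exact le_of_eq (by ring)

theorem sc_mono' {a b : ℤ} (h : a ≤ b) : sc a ≤ sc b := by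
  unfold sc
  apply Real.exp_le_exp.2
  have : (a : ℝ) ≤ b := by exact_mod_cast h
  linarith

theorem exists_sc_lt (ε : ℝ) (hε : 0 < ε) : ∃ m : ℤ, sc m < ε := by
  refine ⟨⌊Real.log ε / 1000⌋ - 1, ?_⟩
  unfold sc
  rw [← Real.lt_log_iff_exp_lt hε]
  have := Int.floor_le (Real.log ε / 1000)
  push_cast
  linarith

theorem dich_apply (U : Ultrafilter ℕ) (_hU : (U : Filter ℕ) ≤ atTop) (k : ℕ → ℤ) :
    (∀ᶠ i₀ in (U : Filter ℕ), ∀ᶠ i in (U : Filter ℕ), sc (k i₀) ≤ sc (k i)) ∨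
      Tendsto (fun i => sc (k i)) U (𝓝 0) := by
  by_cases h : ∀ᶠ i₀ in (U : Filter ℕ), ∀ᶠ i in (U : Filter ℕ), k i₀ ≤ k i
  · left
    filter_upwards [h] with i₀ h0
    filter_upwards [h0] with i hi
    exact sc_mono' hi
  · right
    have h' : ∀ᶠ i₀ in (U : Filter ℕ), ∀ᶠ i in (U : Filter ℕ), k i < k i₀ := by
      have h1 : ∀ᶠ i₀ in (U : Filter ℕ), ¬ ∀ᶠ i in (U : Filter ℕ), k i₀ ≤ k i :=
        Ultrafilter.eventually_not.2 h
      filter_upwards [h1] with i₀ h0
      have h2 := Ultrafilter.eventually_not.2 h0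
      filter_upwards [h2] with i hi
      exact not_le.1 hi
    obtain ⟨i₁, hi₁⟩ := h'.exists
    have key : ∀ t : ℕ, ∀ᶠ i in (U : Filter ℕ), k i ≤ k i₁ - t := by
      intro t
      induction t with
      | zero =>
        filter_upwards [hi₁] with i hi
        push_cast
        omega
      | succ t ih =>
        obtain ⟨j, hj1, hj2⟩ := (ih.and h').exists
        filter_upwards [hj2] with i hi
        push_cast
        omega
    rw [Metric.tendsto_nhds]
    intro ε hε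
    obtain ⟨m, hm⟩ := exists_sc_lt ε hε
    filter_upwards [key (k i₁ - m).toNat] with i hi
    have h3 : k i ≤ m := by
      have := Int.self_le_toNat (k i₁ - m)
      omega
    rw [dist_zero_right, Real.norm_eq_abs, abs_of_pos (PhiAux.sc_pos _)]
    exact (sc_mono' h3).trans_lt hm

theorem flat_apply (X : Ctx H) (U : Ultrafilter ℕ) (hU : (U : Filter ℕ) ≤ atTop) (n : ℕ → ℕ)
    (k : ℕ → ℤ) (c : (i : ℕ) → Fin (n i) → ℤ) (d : ℕ) (hn : Tendsto n atTop atTop)
    (G : E →L[ℝ] ℝ) (hG : G ∈ Set.range (evG X)) (K' : ℕ) (hK' : 1 ≤ K')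
    (hlip : ∀ p q : P H, |G (betaP X p) - G (betaP X q)| ≤ K' * dist p q) (x : E) (τ : ℝ)
    (hτ : 0 < τ) :
    ∀ᶠ i in (U : Filter ℕ), ∀ a : ℤ, ∃ G' ∈ Set.range (evG X),
      ‖G'‖ ≤ K' / ep d ∧ |G' x| ≤ τ ∧ ∀ p : P H, G' (betaP X p) =
        - K' * soft (max 0 (sfun X (n i) (k i) (c i) d p))
          (tent (1 / (4 * rr d) * sc (k i)) (G (betaP X p) / K' - a * (1 / (4 * rr d) * sc (k i)))) := by
  obtain ⟨G0, rfl⟩ := hG
  have hep : 0 < ep d := PhiAux.ep_pos d
  have hKpos : (0 : ℝ) < K' := by exact_mod_cast (Nat.lt_of_lt_of_le Nat.zero_lt_one hK')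
  set G1 : GG := (1 / (K' : ℚ)) • G0 with hG1
  obtain ⟨g, hg⟩ := X.hen G1
  have hDG1 : ∀ v : ℕ → HV H, DG X G1 v = DG X G0 v / K' := by
    intro v
    rw [hG1, DG_smul]
    push_cast
    ring
  have hLip1 : ∀ p p' : P H, |DG X G1 p - DG X G1 p'| ≤ ‖p - p'‖ := by
    intro p p'
    rw [hDG1, hDG1, ← sub_div, abs_div, abs_of_pos hKpos, div_le_iff₀ hKpos, ← evG_betaP, ← evG_betaP,
      mul_comm, ← dist_eq_norm]
    exact hlip p p'
  obtain ⟨N, hN⟩ := evB_small X x (τ * ep d / K') (by positivity)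
  have h1 : ∀ᶠ i in (U : Filter ℕ), g < n i := (hn.mono_left hU).eventually (eventually_gt_atTop g)
  have h2 : ∀ᶠ i in (U : Filter ℕ), G1.support.sup lev < n i :=
    (hn.mono_left hU).eventually (eventually_gt_atTop _)
  have h3 : ∀ᶠ i in (U : Filter ℕ), N ≤ n i := (hn.mono_left hU).eventually (eventually_ge_atTop _)
  filter_upwards [h1, h2, h3] with i hi1 hi2 hi3 a
  set σ : Sg := ⟨n i, (g, a, c i, k i, d)⟩ with hσ
  set q : ℚ := - (K' * 100 * 2 ^ d) with hq
  have hqe : (q : ℝ) = - (K' / ep d) := by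
    have h12 : ((2 : ℝ) ^ d) * (1 / 2) ^ d = 1 := by
      rw [← mul_pow]; norm_num
    have hep' : ep d = (1 / 100) * (1 / 2) ^ d := rfl
    rw [hq]
    push_cast
    rw [neg_inj, eq_div_iff hep.ne', hep']
    calc (K' : ℝ) * 100 * 2 ^ d * (1 / 100 * (1 / 2) ^ d) = K' * (2 ^ d * (1 / 2) ^ d) := by ring
      _ = K' := by rw [h12, mul_one]
  refine ⟨evG X (Finsupp.single (Sum.inr σ) q), ⟨_, rfl⟩, ?_, ?_, ?_⟩
  · rw [evG_single]
    refine ContinuousLinearMap.opNorm_le_bound _ (by positivity) fun y => ?_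
    change |(q : ℝ) * evB X (Sum.inr σ) y| ≤ K' / ep d * ‖y‖
    rw [abs_mul, hqe, abs_neg, abs_of_pos (by positivity)]
    refine mul_le_mul_of_nonneg_left ?_ (by positivity)
    have h5 := (evB X (Sum.inr σ)).le_opNorm y
    rw [Real.norm_eq_abs] at h5
    refine h5.trans ?_
    exact mul_le_of_le_one_left (norm_nonneg _) (norm_evB_le X _)
  · rw [evG_single]
    change |(q : ℝ) * evB X (Sum.inr σ) x| ≤ τ
    have h4 := hN (Sum.inr σ) hi3
    rw [abs_mul, hqe, abs_neg, abs_of_pos (by positivity)]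
    calc K' / ep d * |evB X (Sum.inr σ) x| ≤ K' / ep d * (τ * ep d / K') :=
          mul_le_mul_of_nonneg_left h4 (by positivity)
      _ = τ := by field_simp
  · intro p
    rw [evG_betaP, DG_single]
    have hDB : DB X (Sum.inr σ) p = Phi X σ p := rfl
    rw [hDB, hσ, Phi_of_valid X (n i) g a (c i) (k i) d G1
      (fun b hb => lt_of_le_of_lt (Finset.le_sup (f := lev) hb) hi2) hg hi1 hLip1 p, hDG1, hqe,
      evG_betaP]
    unfold hh
    field_simp

end Crest.Agent.R091
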