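import Crest.Agent.R091.Phi

/-! # Row 91, module Cont: o-continuity of the functions `DG X G` (helper89) -/

set_option autoImplicit false

namespace Crest.Agent.R091

open Filter
open scoped Topology ZeroAtInfty

variable {H : Type} [NormedAddCommGroup H] [InnerProductSpace ℝ H]

/-- `F` converges along every filter along which all observables converge -/
def OCont (X : Ctx H) (F : (ℕ → HV H) → ℝ) : Prop :=
  ∀ 𝒱 : Filter (P H), 𝒱.NeBot → (∀ i, ∃ x : ℝ, Tendsto (fun p : P H => obs X i p) 𝒱 (𝓝 x)) →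
    ∃ y : ℝ, Tendsto (fun p : P H => F p) 𝒱 (𝓝 y)

/-! ### auxiliary convergence lemmas -/

theorem exists_tendsto_of_approx {α : Type*} {𝒱 : Filter α} [𝒱.NeBot] (F : α → ℝ)
    (h : ∀ ε : ℝ, 0 < ε → ∃ F' : α → ℝ, (∃ y : ℝ, Tendsto F' 𝒱 (𝓝 y)) ∧
      ∀ᶠ p in 𝒱, |F p - F' p| ≤ ε) :
    ∃ y : ℝ, Tendsto F 𝒱 (𝓝 y) := by
  rw [← cauchy_map_iff_exists_tendsto]
  rw [Metric.cauchy_iff]
  refine ⟨inferInstance, fun ε hε => ?_⟩
  obtain ⟨F', ⟨y, hy⟩, hF⟩ := h (ε / 4) (by positivity)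
  have h1 : ∀ᶠ p in 𝒱, |F' p - y| < ε / 4 := by
    have := Metric.tendsto_nhds.1 hy (ε / 4) (by positivity)
    simpa [Real.dist_eq] using this
  refine ⟨F '' {p | |F p - F' p| ≤ ε / 4 ∧ |F' p - y| < ε / 4}, image_mem_map (hF.and h1), ?_⟩
  rintro _ ⟨p, ⟨hp1, hp2⟩, rfl⟩ _ ⟨q, ⟨hq1, hq2⟩, rfl⟩
  rw [Real.dist_eq]
  rw [abs_le] at hp1 hq1
  rw [abs_lt] at hp2 hq2 ⊢
  constructor <;> linarith [hp1.1, hp1.2, hq1.1, hq1.2, hp2.1, hp2.2, hq2.1, hq2.2]

theorem obs_norm (X : Ctx H) (n : ℕ) (v : ℕ → HV H) : obs X (Nat.pair n 0) v = ‖v n‖ := by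
  simp [obs, Nat.unpair_pair]

theorem obs_inner (X : Ctx H) (n s : ℕ) (v : ℕ → HV H) :
    obs X (Nat.pair n (s + 1)) v = inner ℝ (X.e s) (v n) := by
  simp [obs, Nat.unpair_pair]

theorem tendsto_norm_of_obs (X : Ctx H) {𝒱 : Filter (P H)}
    (hobs : ∀ i, ∃ x : ℝ, Tendsto (fun p : P H => obs X i p) 𝒱 (𝓝 x)) (n : ℕ) :
    ∃ t : ℝ, Tendsto (fun p : P H => ‖p n‖) 𝒱 (𝓝 t) := by
  obtain ⟨t, ht⟩ := hobs (Nat.pair n 0)
  exact ⟨t, by simpa only [obs_norm] using ht⟩

theorem tendsto_inner_of_obs (X : Ctx H) {𝒱 : Filter (P H)} [𝒱.NeBot]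
    (hobs : ∀ i, ∃ x : ℝ, Tendsto (fun p : P H => obs X i p) 𝒱 (𝓝 x)) (n : ℕ) (g : HV H) :
    ∃ y : ℝ, Tendsto (fun p : P H => inner ℝ g (p n)) 𝒱 (𝓝 y) := by
  obtain ⟨t, ht⟩ := tendsto_norm_of_obs X hobs n
  have hM : 0 < ‖g‖ + 1 := by positivity
  have hev : ∀ᶠ p in 𝒱, ‖p n‖ ≤ |t| + 1 := by
    have h1 := Metric.tendsto_nhds.1 ht 1 one_pos
    filter_upwards [h1] with p hp
    rw [Real.dist_eq, abs_lt] at hp
    linarith [le_abs_self t, hp.2]
  apply exists_tendsto_of_approx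
  intro ε hε
  have hT : 0 < |t| + 1 := by positivity
  have hg' : ‖(‖g‖ + 1)⁻¹ • g‖ ≤ 1 := by
    rw [norm_smul, norm_inv, Real.norm_of_nonneg hM.le, inv_mul_le_iff₀ hM]
    linarith
  obtain ⟨s, hs⟩ := X.hed _ hg' (ε / ((‖g‖ + 1) * (|t| + 1))) (by positivity)
  refine ⟨fun p => (‖g‖ + 1) * inner ℝ (X.e s) (p n), ?_, ?_⟩
  · obtain ⟨x, hx⟩ := hobs (Nat.pair n (s + 1))
    refine ⟨(‖g‖ + 1) * x, Tendsto.const_mul _ ?_⟩
    simpa only [obs_inner] using hx
  · filter_upwards [hev] with p hp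
    have e1 : inner ℝ g (p n) - (‖g‖ + 1) * inner ℝ (X.e s) (p n)
        = (‖g‖ + 1) * inner ℝ ((‖g‖ + 1)⁻¹ • g - X.e s) (p n) := by
      rw [inner_sub_left, mul_sub, real_inner_smul_left, ← mul_assoc, mul_inv_cancel₀ hM.ne', one_mul]
    rw [e1, abs_mul, abs_of_pos hM]
    have h2 : |inner ℝ ((‖g‖ + 1)⁻¹ • g - X.e s) (p n)| ≤
        ε / ((‖g‖ + 1) * (|t| + 1)) * (|t| + 1) :=
      (abs_real_inner_le_norm _ _).trans (mul_le_mul hs.le hp (norm_nonneg _) (by positivity))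
    calc (‖g‖ + 1) * |inner ℝ ((‖g‖ + 1)⁻¹ • g - X.e s) (p n)|
        ≤ (‖g‖ + 1) * (ε / ((‖g‖ + 1) * (|t| + 1)) * (|t| + 1)) := by gcongr
      _ = ε := by field_simp

/-- for fixed `T`, `v ↦ ⟨f, T (uu J T v)⟩` is given by an explicit vector of `H ⊕₂ V` -/
theorem exists_inner_rep (J : WithLp 2 (H × Y) ≃ₗᵢ[ℝ] Y) (T : Y →L[ℝ] V) (f : V) :
    ∃ g : HV H, ∀ v : HV H, inner ℝ f (T (uu J T v)) = inner ℝ g v := by
  set z := J.symm (ContinuousLinearMap.adjoint T f) with hz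
  refine ⟨WithLp.toLp 2 (z.fst, T z.snd - T (ContinuousLinearMap.adjoint T f)), fun v => ?_⟩
  rw [← ContinuousLinearMap.adjoint_inner_left]
  have hJ : J z = ContinuousLinearMap.adjoint T f := by rw [hz, LinearIsometryEquiv.apply_symm_apply]
  unfold uu
  rw [inner_sub_right]
  have h1 : inner ℝ (ContinuousLinearMap.adjoint T f)
      (J (WithLp.toLp 2 (v.fst, ContinuousLinearMap.adjoint T v.snd)))
      = inner ℝ z (WithLp.toLp 2 (v.fst, ContinuousLinearMap.adjoint T v.snd)) := by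
    conv_lhs => rw [← hJ]
    rw [LinearIsometryEquiv.inner_map_map]
  rw [h1, WithLp.prod_inner_apply, WithLp.prod_inner_apply]
  have h2 : inner ℝ z.snd (ContinuousLinearMap.adjoint T v.snd) = inner ℝ (T z.snd) v.snd :=
    ContinuousLinearMap.adjoint_inner_right _ _ _
  have h3 : inner ℝ (ContinuousLinearMap.adjoint T f) (ContinuousLinearMap.adjoint T v.snd)
      = inner ℝ (T (ContinuousLinearMap.adjoint T f)) v.snd :=
    ContinuousLinearMap.adjoint_inner_right _ _ _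
  have h4 : inner ℝ (T z.snd - T (ContinuousLinearMap.adjoint T f)) v.snd
      = inner ℝ (T z.snd) v.snd - inner ℝ (T (ContinuousLinearMap.adjoint T f)) v.snd :=
    inner_sub_left _ _ _
  change inner ℝ z.fst v.fst + inner ℝ z.snd (ContinuousLinearMap.adjoint T v.snd)
      - inner ℝ (ContinuousLinearMap.adjoint T f) (ContinuousLinearMap.adjoint T v.snd)
      = inner ℝ z.fst v.fst + inner ℝ (T z.snd - T (ContinuousLinearMap.adjoint T f)) v.snd
  rw [h2, h3, h4]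
  ring

/-- convergence of the node vectors -/
theorem theta_eventually (X : Ctx H) (n : ℕ) {𝒱 : Filter (P H)} (y : ℕ → ℝ) (t : ℝ) (ht : 0 < t)
    (hy : ∀ i, Tendsto (fun p : P H => obs X i p) 𝒱 (𝓝 (y i)))
    (hn : Tendsto (fun p : P H => ‖p n‖) 𝒱 (𝓝 t)) (ε : ℝ) (hε : 0 < ε) :
    ∀ᶠ p in 𝒱, ‖th X n (fun m => p m) - theta n y t‖ ≤ ε := by
  set e' := min (t / 2) (ε * t) with he'
  have he0 : 0 < e' := lt_min (by positivity) (by positivity)
  have h1 : ∀ᶠ p : P H in 𝒱, ∀ i ∈ Finset.range n, |obs X i p - y i| < e' := by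
    rw [Filter.eventually_all_finset]
    intro i _
    have := Metric.tendsto_nhds.1 (hy i) e' he0
    simpa [Real.dist_eq] using this
  have h2 : ∀ᶠ p in 𝒱, |‖p n‖ - t| < e' := by
    have := Metric.tendsto_nhds.1 hn e' he0
    simpa [Real.dist_eq] using this
  filter_upwards [h1, h2] with p hp1 hp2
  have h3 := theta_lip n (fun i => obs X i p) y ‖p n‖ t e' (norm_nonneg _) ht.le he0.le
    (fun i hi => (hp1 i (Finset.mem_range.2 hi)).le)
  have h4 : t / 2 ≤ min ‖p n‖ t := by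
    refine le_min ?_ (by linarith)
    have := (abs_lt.1 hp2).1
    have h5 : e' ≤ t / 2 := min_le_left _ _
    linarith
  have h5 : e' ≤ ε * t := min_le_right _ _
  change ‖theta n (fun i => obs X i p) ‖p n‖ - theta n y t‖ ≤ ε
  set A := ‖theta n (fun i => obs X i p) ‖p n‖ - theta n y t‖ with hA
  have hA0 : 0 ≤ A := norm_nonneg _
  have h6 : A * (t / 2) ≤ 1 / 250 * (e' + |‖p n‖ - t|) :=
    (mul_le_mul_of_nonneg_left h4 hA0).trans h3
  have h7 : A * (t / 2) ≤ 1 / 250 * (ε * t + ε * t) := by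
    refine h6.trans ?_
    gcongr
    exact hp2.le.trans h5
  have h8 : A * t ≤ ε * t := by
    have : 0 ≤ ε * t := by positivity
    linarith
  exact le_of_mul_le_mul_right h8 ht

theorem oCont_inner_beta (X : Ctx H) (n : ℕ) (f : V) : OCont X (fun v => inner ℝ f (beta X n v)) := by
  intro 𝒱 h𝒱 hobs
  choose y hy using hobs
  obtain ⟨t, ht⟩ := tendsto_norm_of_obs X (fun i => ⟨y i, hy i⟩) n
  have ht0 : 0 ≤ t := ge_of_tendsto ht (Eventually.of_forall fun p => norm_nonneg _)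
  rcases ht0.eq_or_lt with h0 | htpos
  · refine ⟨0, ?_⟩
    rw [← h0] at ht
    refine squeeze_zero_norm (a := fun p : P H => ‖f‖ * (2 * ‖p n‖)) (fun p => ?_) ?_
    · rw [Real.norm_eq_abs]
      exact (abs_real_inner_le_norm _ _).trans
        (mul_le_mul_of_nonneg_left (norm_beta_le X n _) (norm_nonneg _))
    · have := (ht.const_mul 2).const_mul ‖f‖
      simpa using this
  · set T' := tens (theta n y t) with hT'
    have hiso' : ∀ z, ‖T' z‖ = ‖z‖ := fun z => by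
      rw [hT', norm_tens_apply, norm_theta, one_mul]
    obtain ⟨g, hg⟩ := exists_inner_rep X.J T' f
    apply exists_tendsto_of_approx
    intro ε hε
    have hF : 0 < 4 * (‖f‖ + 1) * (t + 1) := by positivity
    refine ⟨fun p => inner ℝ g (p n), tendsto_inner_of_obs X (fun i => ⟨y i, hy i⟩) n g, ?_⟩
    have h1 := theta_eventually X n y t htpos hy ht (ε / (4 * (‖f‖ + 1) * (t + 1))) (by positivity)
    have h2 : ∀ᶠ p in 𝒱, ‖p n‖ ≤ t + 1 := by
      have h1 := Metric.tendsto_nhds.1 ht 1 one_pos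
      filter_upwards [h1] with p hp
      rw [Real.dist_eq, abs_lt] at hp
      linarith [hp.2]
    filter_upwards [h1, h2] with p hp1 hp2
    rw [← hg]
    have e1 : beta X n (fun m => p m) - T' (uu X.J T' (p n))
        = rot X.J (tens (th X n (fun m => p m))) (p n) - rot X.J T' (p n) := by
      unfold beta rot
      abel
    change |inner ℝ f (beta X n (fun m => p m)) - inner ℝ f (T' (uu X.J T' (p n)))| ≤ ε
    rw [← inner_sub_right, e1]
    refine (abs_real_inner_le_norm _ _).trans ?_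
    have h3 := norm_rot_sub_rot_le X.J (tens (th X n (fun m => p m))) T'
      (tens_th_iso X n _) hiso' (p n)
    have h4 : ‖tens (th X n (fun m => p m)) - T'‖ ≤ ε / (4 * (‖f‖ + 1) * (t + 1)) :=
      (norm_tens_sub_le _ _).trans hp1
    have hd : 0 ≤ ε / (4 * (‖f‖ + 1) * (t + 1)) := by positivity
    calc ‖f‖ * ‖rot X.J (tens (th X n (fun m => p m))) (p n) - rot X.J T' (p n)‖
        ≤ (‖f‖ + 1) * (4 * (ε / (4 * (‖f‖ + 1) * (t + 1))) * (t + 1)) := by
          refine mul_le_mul (by linarith) (h3.trans ?_) (norm_nonneg _) (by positivity)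
          refine mul_le_mul ?_ hp2 (norm_nonneg _) (by positivity)
          exact mul_le_mul_of_nonneg_left h4 (by norm_num)
      _ = ε := by field_simp

theorem oCont_beta (X : Ctx H) (μ : Mu) : OCont X (fun v => inner ℝ (fV X μ) (beta X μ.1 v)) :=
  oCont_inner_beta X μ.1 (fV X μ)

/-! ### closure properties -/

theorem OCont.const (X : Ctx H) (c : ℝ) : OCont X (fun _ => c) := fun _ _ _ => ⟨c, tendsto_const_nhds⟩

theorem OCont.comp {X : Ctx H} {F : (ℕ → HV H) → ℝ} (hF : OCont X F) {g : ℝ → ℝ} (hg : Continuous g) :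
    OCont X (fun v => g (F v)) := fun 𝒱 h h' => by
  obtain ⟨y, hy⟩ := hF 𝒱 h h'
  exact ⟨g y, (hg.tendsto y).comp hy⟩

theorem OCont.comp₂ {X : Ctx H} {F G : (ℕ → HV H) → ℝ} (hF : OCont X F) (hG : OCont X G)
    {g : ℝ → ℝ → ℝ} (hg : Continuous (fun z : ℝ × ℝ => g z.1 z.2)) :
    OCont X (fun v => g (F v) (G v)) := fun 𝒱 h h' => by
  obtain ⟨y, hy⟩ := hF 𝒱 h h'
  obtain ⟨z, hz⟩ := hG 𝒱 h h'
  exact ⟨g y z, (hg.tendsto (y, z)).comp (hy.prodMk_nhds hz)⟩

theorem OCont.sum {X : Ctx H} {ι : Type*} (s : Finset ι) {F : ι → (ℕ → HV H) → ℝ}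
    (hF : ∀ i ∈ s, OCont X (F i)) : OCont X (fun v => ∑ i ∈ s, F i v) := by
  classical
  induction s using Finset.induction_on with
  | empty => simpa using OCont.const X 0
  | insert a s ha ih =>
    have h1 := hF a (Finset.mem_insert_self a s)
    have h2 := ih (fun i hi => hF i (Finset.mem_insert_of_mem hi))
    have h3 := OCont.comp₂ h1 h2 (g := fun x y => x + y) (by fun_prop)
    refine fun 𝒱 h h' => ?_
    obtain ⟨y, hy⟩ := h3 𝒱 h h'
    exact ⟨y, by simpa only [Finset.sum_insert ha] using hy⟩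

theorem oCont_obs (X : Ctx H) (i : ℕ) : OCont X (obs X i) := fun _ _ h => h i

theorem oCont_norm (X : Ctx H) (n : ℕ) : OCont X (fun v => ‖v n‖) :=
  fun _ _ h => tendsto_norm_of_obs X h n

theorem oCont_sfun (X : Ctx H) (n : ℕ) (k : ℤ) (c : Fin n → ℤ) (d : ℕ) : OCont X (sfun X n k c d) := by
  intro 𝒱 h𝒱 hobs
  obtain ⟨t, ht⟩ := tendsto_norm_of_obs X hobs n
  choose y hy using hobs
  have key : ∀ j ∈ (Finset.univ : Finset (Option (Fin n))), Tendsto
      (fun p : P H => (match j with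
        | none => max (1 / rr d - ‖p n‖ / sc k) (‖p n‖ / sc k - rr d)
        | some i => |om i * obs X i p / sc (k + 1) - c i| - rho d : ℝ)) 𝒱
      (𝓝 (match j with
        | none => max (1 / rr d - t / sc k) (t / sc k - rr d)
        | some i => |om i * y i / sc (k + 1) - c i| - rho d : ℝ)) := by
    intro j _
    cases j with
    | none =>
      exact (tendsto_const_nhds.sub (ht.div_const _)).max ((ht.div_const _).sub tendsto_const_nhds)
    | some i =>
      exact ((((hy i).const_mul _).div_const _).sub tendsto_const_nhds).abs.sub tendsto_const_nhds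
  exact ⟨_, (Tendsto.finset_sup'_nhds_apply Finset.univ_nonempty key).const_mul _⟩

theorem continuous_soft_tent (e h c : ℝ) :
    Continuous (fun z : ℝ × ℝ => e * soft (max 0 z.1) (tent h (z.2 - c))) := by
  unfold soft tent
  fun_prop

theorem oCont_gval (X : Ctx H) {F : (ℕ → HV H) → ℝ} (hF : OCont X F) (n : ℕ) (a : ℤ) (c : Fin n → ℤ)
    (k : ℤ) (d : ℕ) : OCont X (gval X F n a c k d) :=
  OCont.comp₂ (oCont_sfun X n k c d) hF
    (g := fun s x => ep d * soft (max 0 s) (tent (hh d * sc k) (x - a * (hh d * sc k))))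
    (continuous_soft_tent _ _ _)

theorem oCont_DBT (X : Ctx H) {T : Sg → (ℕ → HV H) → ℝ} (hT : ∀ σ, OCont X (T σ)) (b : Bk) :
    OCont X (DBT X T b) := by
  cases b with
  | inl μ => exact oCont_beta X μ
  | inr σ => exact hT σ

theorem oCont_DT (X : Ctx H) {T : Sg → (ℕ → HV H) → ℝ} (hT : ∀ σ, OCont X (T σ)) (n : ℕ) (G : GG) :
    OCont X (DT X T n G) := by
  unfold DT
  refine OCont.sum _ fun b _ => ?_
  by_cases hb : lev b < n
  · simp only [hb, if_true]
    exact (oCont_DBT X hT b).comp (g := fun x => (G b : ℝ) * x) (by fun_prop)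
  · simp only [hb, if_false]
    exact OCont.const X 0

theorem oCont_Tab (X : Ctx H) (n : ℕ) : ∀ σ, OCont X (Tab X n σ) := by
  induction n with
  | zero => exact fun σ => OCont.const X 0
  | succ n ih =>
    intro σ
    unfold Tab
    by_cases h1 : σ.1 = n
    · simp only [h1, if_true]
      split_ifs with h2
      · exact oCont_gval X (oCont_DT X ih n _) _ _ _ _ _
      · exact OCont.const X 0
    · simp only [h1, if_false]
      exact ih σ

theorem oCont_Phi (X : Ctx H) (σ : Sg) : OCont X (Phi X σ) := oCont_Tab X (σ.1 + 1) σ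

theorem oCont_DG (X : Ctx H) (G : GG) : OCont X (DG X G) := by
  unfold DG
  refine OCont.sum _ fun b _ => ?_
  exact (oCont_DBT X (oCont_Phi X) b).comp (g := fun x => (G b : ℝ) * x) (by fun_prop)

/-- basic neighbourhoods of a virtual point `cs : ℕ → ℝ` -/
def Wn (X : Ctx H) (cs : ℕ → ℝ) (N : ℕ) (δ : ℝ) : Set (P H) := {p | ∀ j < N, |obs X j p - cs j| < δ}

theorem Wn_anti (X : Ctx H) (cs : ℕ → ℝ) {N N' : ℕ} {δ δ' : ℝ} (hN : N ≤ N') (hδ : δ' ≤ δ) :
    Wn X cs N' δ' ⊆ Wn X cs N δ :=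
  fun _ hp j hj => (hp j (hj.trans_le hN)).trans_le hδ

/-- small oscillation near a virtual point -/
theorem OCont.osc (X : Ctx H) {F : (ℕ → HV H) → ℝ} (hF : OCont X F) (cs : ℕ → ℝ) (e : ℝ) (he : 0 < e) :
    ∃ (N : ℕ) (δ : ℝ), 0 < δ ∧ ∀ p ∈ Wn X cs N δ, ∀ p' ∈ Wn X cs N δ, |F p - F p'| ≤ e := by
  by_cases hemp : ∃ m : ℕ, Wn X cs m (1 / ((m : ℝ) + 1)) = ∅
  · obtain ⟨m, hm⟩ := hemp
    refine ⟨m, 1 / ((m : ℝ) + 1), by positivity, fun p hp => ?_⟩
    rw [hm] at hp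
    exact absurd hp (Set.notMem_empty p)
  · simp only [not_exists, ← Set.nonempty_iff_ne_empty, ← ne_eq] at hemp
    have hanti : Antitone (fun m : ℕ => Wn X cs m (1 / ((m : ℝ) + 1))) := by
      intro m m' hmm
      refine Wn_anti X cs hmm ?_
      have : (m : ℝ) ≤ m' := by exact_mod_cast hmm
      gcongr
    have hbasis : (⨅ m : ℕ, 𝓟 (Wn X cs m (1 / ((m : ℝ) + 1)))).HasBasis (fun _ : ℕ => True)
        (fun m : ℕ => Wn X cs m (1 / ((m : ℝ) + 1))) :=
      Filter.hasBasis_iInf_principal (hanti.directed_ge)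
    set 𝒱 := ⨅ m : ℕ, 𝓟 (Wn X cs m (1 / ((m : ℝ) + 1))) with h𝒱
    have hne : 𝒱.NeBot := by
      rw [hbasis.neBot_iff]
      intro m _
      exact hemp m
    have hobs : ∀ i, ∃ x : ℝ, Tendsto (fun p : P H => obs X i p) 𝒱 (𝓝 x) := by
      intro i
      refine ⟨cs i, ?_⟩
      rw [Metric.tendsto_nhds]
      intro ε hε
      obtain ⟨m, hm⟩ := exists_nat_one_div_lt hε
      refine (hbasis.eventually_iff).2 ⟨max (i + 1) m, trivial, fun p hp => ?_⟩
      rw [Real.dist_eq]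
      have h1 := hp i (lt_of_lt_of_le (Nat.lt_succ_self i) (le_max_left _ _))
      refine h1.trans_le (le_trans ?_ hm.le)
      have : (m : ℝ) ≤ ((max (i + 1) m : ℕ) : ℝ) := by exact_mod_cast le_max_right _ _
      gcongr
    obtain ⟨y, hy⟩ := hF 𝒱 hne hobs
    have h2 := Metric.tendsto_nhds.1 hy (e / 2) (by positivity)
    obtain ⟨m, -, hm⟩ := hbasis.eventually_iff.1 h2
    refine ⟨m, 1 / ((m : ℝ) + 1), by positivity, fun p hp p' hp' => ?_⟩
    have a1 := hm hp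
    have a2 := hm hp'
    rw [Real.dist_eq, abs_lt] at a1 a2
    rw [abs_le]
    constructor <;> linarith [a1.1, a1.2, a2.1, a2.2]

end Crest.Agent.R091
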