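import Crest.Agent.R091.Eval
import Crest.Agent.R091.Cont
import Crest.Agent.R091.Chain
import Crest.Agent.R091.ChainInstA

/-! # Row 91, module ChainInst: the abstract chain theorem applied to localized block functionals -/

set_option autoImplicit false

namespace Crest.Agent.R091

open Filter
open scoped Topology ZeroAtInfty

variable {H : Type} [NormedAddCommGroup H] [InnerProductSpace ℝ H]

/-- the constant of the chain argument -/
noncomputable def K0 : ℕ := ⌈16 * Lam ^ 2⌉₊ + 19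

theorem range_evG_zero (X : Ctx H) : (0 : E →L[ℝ] ℝ) ∈ Set.range (evG X) :=
  ⟨0, by unfold evG; exact Finsupp.sum_zero_index⟩

theorem range_evG_add (X : Ctx H) (G : E →L[ℝ] ℝ) (hG : G ∈ Set.range (evG X)) (G' : E →L[ℝ] ℝ)
    (hG' : G' ∈ Set.range (evG X)) : G + G' ∈ Set.range (evG X) := by
  obtain ⟨g, rfl⟩ := hG
  obtain ⟨g', rfl⟩ := hG'
  exact ⟨g + g', evG_add X g g'⟩

theorem range_evG_neg (X : Ctx H) (G : E →L[ℝ] ℝ) (hG : G ∈ Set.range (evG X)) :
    -G ∈ Set.range (evG X) := by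
  obtain ⟨g, rfl⟩ := hG
  refine ⟨(-1 : ℚ) • g, ?_⟩
  rw [evG_smul]
  refine ContinuousLinearMap.ext fun y => ?_
  rw [smul_apply, smul_eq_mul, neg_apply]
  push_cast
  ring

/-- the sign of the value of the block functional -/
noncomputable def sgI (X : Ctx H) (z : ℕ → E) (b : ℕ → Bk) (i : ℕ) : ℚ :=
  if 0 ≤ evB X (b i) (z i) then 1 else -1

/-- the signed block functionals -/
noncomputable def FI (X : Ctx H) (z : ℕ → E) (b : ℕ → Bk) (i : ℕ) : E →L[ℝ] ℝ :=
  evG X (Finsupp.single (b i) (sgI X z b i))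

theorem FI_eq (X : Ctx H) (z : ℕ → E) (b : ℕ → Bk) (i : ℕ) :
    FI X z b i = (sgI X z b i : ℝ) • evB X (b i) := evG_single X _ _

theorem abs_sgI (X : Ctx H) (z : ℕ → E) (b : ℕ → Bk) (i : ℕ) : |(sgI X z b i : ℝ)| = 1 := by
  unfold sgI
  split_ifs <;> simp

theorem sgI_mul (X : Ctx H) (z : ℕ → E) (b : ℕ → Bk) (i : ℕ) :
    (sgI X z b i : ℝ) * evB X (b i) (z i) = |evB X (b i) (z i)| := by
  unfold sgI
  split_ifs with h
  · rw [abs_of_nonneg h]; simp
  · rw [abs_of_neg (not_le.1 h)]; simp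

theorem FI_betaP (X : Ctx H) (z : ℕ → E) (b : ℕ → Bk) (i : ℕ) (p : P H) :
    FI X z b i (betaP X p) = (sgI X z b i : ℝ) * DB X (b i) p := by
  rw [FI_eq, smul_apply, evB_betaP, smul_eq_mul]

theorem tendsto_evG (X : Ctx H) (z : ℕ → E) (hz : ∀ b : Bk, Tendsto (fun i => evB X b (z i)) atTop (𝓝 0))
    (G : GG) : Tendsto (fun i => evG X G (z i)) atTop (𝓝 0) := by
  have h : (fun i => evG X G (z i)) = fun i => ∑ b ∈ G.support, (G b : ℝ) * evB X b (z i) := by
    funext i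
    unfold evG Finsupp.sum
    rw [sum_apply]
    rfl
  rw [h]
  have h0 : (0 : ℝ) = ∑ b ∈ G.support, (G b : ℝ) * 0 := by simp
  rw [h0]
  exact tendsto_finsetSum _ fun b _ => (hz b).const_mul _

theorem tendsto_FI (X : Ctx H) (z : ℕ → E) (b : ℕ → Bk) (n : ℕ → ℕ) (hlev : ∀ i, lev (b i) = n i)
    (hn : Tendsto n atTop atTop) (x : E) : Tendsto (fun i => FI X z b i x) atTop (𝓝 0) := by
  rw [Metric.tendsto_nhds]
  intro ε hε
  obtain ⟨N, hN⟩ := evB_small X x (ε / 2) (by positivity)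
  filter_upwards [hn.eventually_ge_atTop N] with i hi
  rw [Real.dist_eq, sub_zero, FI_eq, smul_apply, smul_eq_mul, abs_mul, abs_sgI,
    one_mul]
  have := hN (b i) (by rw [hlev i]; exact hi)
  linarith

theorem ocont_of_OCont (X : Ctx H) {F : (ℕ → HV H) → ℝ} (hF : OCont X F) (c : ℕ → ℝ) :
    ∃ L : ℝ, Tendsto (fun p : P H => F p) (comap (fun (p : P H) j => obs X j p) (𝓝 c)) (𝓝 L) := by
  by_cases h : (comap (fun (p : P H) j => obs X j p) (𝓝 c)).NeBot
  · refine hF _ h fun j => ⟨c j, ?_⟩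
    have h1 : Tendsto (fun (p : P H) j => obs X j p) (comap (fun (p : P H) j => obs X j p) (𝓝 c)) (𝓝 c) :=
      tendsto_comap
    exact (tendsto_pi_nhds.1 h1) j
  · rw [Filter.not_neBot] at h
    rw [h]
    exact ⟨0, tendsto_bot⟩

/-- the chain data -/
noncomputable def chainData (X : Ctx H) (z : ℕ → E)
    (hz : ∀ b : Bk, Tendsto (fun i => evB X b (z i)) atTop (𝓝 0))
    (b : ℕ → Bk) (n : ℕ → ℕ) (k : ℕ → ℤ) (c : (i : ℕ) → Fin (n i) → ℤ) (d : ℕ) (Hs κ : ℝ)
    (hlev : ∀ i, lev (b i) = n i) (hn : Tendsto n atTop atTop)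
    (hHs : 0 ≤ Hs) (hHs' : 4 * rr d * Hs ≤ K0)
    (hκ : 0 ≤ κ) (hval : ∀ i, κ ≤ |evB X (b i) (z i)|)
    (hbound : ∀ i (p : P H), |DB X (b i) p| ≤ Hs * sc (k i))
    (hsupp : ∀ i (p : P H), DB X (b i) p ≠ 0 → sfun X (n i) (k i) (c i) d p ≤ -(sc (k i) / (2 * rr d)))
    (U : Ultrafilter ℕ) (hU : (U : Filter ℕ) ≤ atTop) :
    Ch.ChainData (betaP X) U z where
  GQ := Set.range (evG X)
  GQ_zero := range_evG_zero X
  GQ_add := range_evG_add X
  GQ_neg := range_evG_neg X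
  o := fun j p => obs X j p
  o_lip := fun j => LipschitzWith.of_dist_le_mul fun p q => by
    rw [Real.dist_eq, NNReal.coe_one, one_mul, dist_eq_norm]
    exact abs_obs_sub_le' X j p q
  S := fun i => sc (k i)
  S_pos := fun i => PhiAux.sc_pos _
  s := fun i p => sfun X (n i) (k i) (c i) d p
  s_lip := fun i p q => by
    rw [dist_eq_norm]
    exact PhiAux.abs_sfun_sub_le X _ _ _ _ p q
  r := rr d
  r_pos := PhiAux.one_le_rr d
  Hs := Hs
  Hs_nonneg := hHs
  C1 := 3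
  C1_nonneg := by norm_num
  κ := κ
  κ_nonneg := hκ
  ep := ep d
  ep_pos := PhiAux.ep_pos d
  K := K0
  K_ge := hHs'
  K_ge' := by
    unfold K0
    push_cast
    have : (0:ℝ) ≤ (⌈16 * Lam ^ 2⌉₊ : ℝ) := Nat.cast_nonneg _
    linarith
  F := FI X z b
  F_mem := fun i => ⟨_, rfl⟩
  F_norm := fun i => by
    rw [FI_eq, norm_smul, Real.norm_eq_abs, abs_sgI, one_mul]
    exact norm_evB_le X _
  F_val := fun i => by
    rw [FI_eq, smul_apply, smul_eq_mul, sgI_mul]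
    exact hval i
  F_lip := fun i p q => by
    rw [FI_betaP, FI_betaP, ← mul_sub, abs_mul, abs_sgI, one_mul, dist_eq_norm]
    exact abs_DB_sub_le X _ p q
  F_bound := fun i p => by
    rw [FI_betaP, abs_mul, abs_sgI, one_mul]
    exact hbound i p
  F_supp := fun i p h => by
    rw [FI_betaP] at h
    have := hsupp i p (right_ne_zero_of_mul h)
    rw [neg_div]
    exact this
  z_null := fun G hG => by
    obtain ⟨g, rfl⟩ := hG
    exact (tendsto_evG X z hz g).mono_left hU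
  F_null := fun x => (tendsto_FI X z b n hlev hn x).mono_left hU
  flat := fun G hG K' hK' hlip x τ hτ => by
    refine flat_apply X U hU n k c d hn G hG K' ?_ hlip x τ hτ
    rcases hK' with h | h <;> rw [h]
    · unfold K0; omega
    · omega
  cen := cenI n k c
  Cc := CcI d
  cell := fun j => cell_apply X U hU n k c d hn j
  ocont := fun c' G hG => by
    obtain ⟨g, rfl⟩ := hG
    obtain ⟨L, hL⟩ := ocont_of_OCont X (oCont_DG X g) c'
    refine ⟨L, ?_⟩
    simpa only [evG_betaP] using hL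
  ocont_s := fun c' i => ocont_of_OCont X (oCont_sfun X (n i) (k i) (c i) d) c'
  dich := dich_apply U hU k

/-- Chain theorem for a sequence of localized block functionals `± evB (b i)`. -/
theorem chain_apply (X : Ctx H) (z : ℕ → E) (hz : ∀ b : Bk, Tendsto (fun i => evB X b (z i)) atTop (𝓝 0))
    (b : ℕ → Bk) (n : ℕ → ℕ) (k : ℕ → ℤ) (c : (i : ℕ) → Fin (n i) → ℤ) (d : ℕ) (Hs κ : ℝ)
    (hlev : ∀ i, lev (b i) = n i) (hn : Tendsto n atTop atTop)
    (hHs : 0 ≤ Hs) (hHs' : 4 * rr d * Hs ≤ K0)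
    (hκ : 0 ≤ κ) (hval : ∀ i, κ ≤ |evB X (b i) (z i)|)
    (hbound : ∀ i (p : P H), |DB X (b i) p| ≤ Hs * sc (k i))
    (hsupp : ∀ i (p : P H), DB X (b i) p ≠ 0 → sfun X (n i) (k i) (c i) d p ≤ -(sc (k i) / (2 * rr d)))
    (M : ℕ) :
    ∃ (A : Finset ℕ) (ε : ℕ → ℝ) (G : E →L[ℝ] ℝ), (∀ j, |ε j| ≤ 1) ∧
      ‖G‖ ≤ M * (1 + (K0 + 1) / ep d) ∧
      (∀ p p' : P H, |G (betaP X p) - G (betaP X p')| ≤ (K0 + 1) * dist p p') ∧
      M * κ - 1 ≤ G (∑ i ∈ A, ε i • z i) := by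
  have hU : ((hyperfilter ℕ : Ultrafilter ℕ) : Filter ℕ) ≤ cofinite := hyperfilter_le_cofinite
  have hU' : ((hyperfilter ℕ : Ultrafilter ℕ) : Filter ℕ) ≤ atTop := Nat.hyperfilter_le_atTop
  exact Ch.chain hU (chainData X z hz b n k c d Hs κ hlev hn hHs hHs' hκ hval hbound hsupp
    (hyperfilter ℕ) hU') M

end Crest.Agent.R091
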