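import Crest.Agent.R091.BetaMap

/-! # Row 91, module Eval: the formal functionals as elements of `E*` -/

set_option autoImplicit false

namespace Crest.Agent.R091

open Filter
open scoped Topology ZeroAtInfty

variable {H : Type} [NormedAddCommGroup H] [InnerProductSpace ℝ H]

/-- coordinate projections of `E` -/
noncomputable def evV (n : ℕ) : E →L[ℝ] V :=
  LinearMap.mkContinuous
    { toFun := fun z => z.1 n
      map_add' := fun _ _ => rfl
      map_smul' := fun _ _ => rfl } 1 (fun z => by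
        rw [one_mul]
        exact (norm_apply_le_c0 z.1 n).trans (_root_.norm_fst_le z))

noncomputable def evS (σ : Sg) : E →L[ℝ] ℝ :=
  LinearMap.mkContinuous
    { toFun := fun z => z.2 σ
      map_add' := fun _ _ => rfl
      map_smul' := fun _ _ => rfl } 1 (fun z => by
        rw [one_mul]
        exact (norm_apply_le_c0 z.2 σ).trans (_root_.norm_snd_le z))

@[simp] theorem evV_apply (n : ℕ) (z : E) : evV n z = z.1 n := rfl
@[simp] theorem evS_apply (σ : Sg) (z : E) : evS σ z = z.2 σ := rfl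

/-- block functionals -/
noncomputable def evB (X : Ctx H) : Bk → (E →L[ℝ] ℝ)
  | Sum.inl μ => (innerSL ℝ (fV X μ)).comp (evV μ.1)
  | Sum.inr σ => evS σ

theorem norm_evV_le (n : ℕ) : ‖evV n‖ ≤ 1 := LinearMap.mkContinuous_norm_le _ zero_le_one _

theorem norm_evS_le (σ : Sg) : ‖evS σ‖ ≤ 1 := LinearMap.mkContinuous_norm_le _ zero_le_one _

theorem norm_evB_le (X : Ctx H) (b : Bk) : ‖evB X b‖ ≤ 1 := by
  rcases b with μ | σ
  · refine (ContinuousLinearMap.opNorm_comp_le _ _).trans ?_
    rw [innerSL_apply_norm]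
    calc ‖fV X μ‖ * ‖evV μ.1‖ ≤ 1 * 1 :=
          mul_le_mul (norm_fV_le X μ) (norm_evV_le μ.1) (ContinuousLinearMap.opNorm_nonneg _) zero_le_one
      _ = 1 := one_mul 1
  · exact norm_evS_le σ

theorem evB_inl (X : Ctx H) (μ : Mu) (z : E) : evB X (Sum.inl μ) z = inner ℝ (fV X μ) (z.1 μ.1) := rfl

theorem evB_inr (X : Ctx H) (σ : Sg) (z : E) : evB X (Sum.inr σ) z = z.2 σ := rfl

theorem evB_betaP (X : Ctx H) (b : Bk) (p : P H) : evB X b (betaP X p) = DB X b p := by
  rcases b with μ | σ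
  · rw [evB_inl, betaP_fst]; rfl
  · rw [evB_inr, betaP_snd]; rfl

noncomputable def evG (X : Ctx H) (G : GG) : E →L[ℝ] ℝ := G.sum fun b q => (q : ℝ) • evB X b

theorem evG_zero (X : Ctx H) : evG X 0 = 0 := by
  unfold evG; exact Finsupp.sum_zero_index

theorem evG_add (X : Ctx H) (G G' : GG) : evG X (G + G') = evG X G + evG X G' := by
  unfold evG
  refine Finsupp.sum_add_index' (fun b => ?_) (fun b q q' => ?_)
  · simp
  · rw [Rat.cast_add, add_smul]

theorem evG_smul (X : Ctx H) (q : ℚ) (G : GG) : evG X (q • G) = (q : ℝ) • evG X G := by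
  unfold evG
  rw [Finsupp.sum_smul_index (fun b => by simp)]
  unfold Finsupp.sum
  rw [Finset.smul_sum]
  refine Finset.sum_congr rfl fun b _ => ?_
  change ((q * G b : ℚ) : ℝ) • evB X b = (q : ℝ) • ((G b : ℝ) • evB X b)
  rw [Rat.cast_mul, mul_smul]

theorem evG_neg (X : Ctx H) (G : GG) : evG X (-G) = - evG X G := by
  have h : -G = (-1 : ℚ) • G := by simp
  rw [h, evG_smul]
  refine ContinuousLinearMap.ext fun z => ?_
  change (((-1 : ℚ) : ℝ)) * evG X G z = - evG X G z
  push_cast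
  ring

theorem evG_sub (X : Ctx H) (G G' : GG) : evG X (G - G') = evG X G - evG X G' := by
  rw [sub_eq_add_neg G G', evG_add, evG_neg]
  refine ContinuousLinearMap.ext fun z => ?_
  change evG X G z + - evG X G' z = evG X G z - evG X G' z
  ring

theorem evG_single (X : Ctx H) (b : Bk) (q : ℚ) : evG X (Finsupp.single b q) = (q : ℝ) • evB X b := by
  unfold evG
  exact Finsupp.sum_single_index (by simp)

theorem evG_apply (X : Ctx H) (G : GG) (z : E) : evG X G z = G.sum fun b q => (q : ℝ) * evB X b z := by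
  unfold evG Finsupp.sum
  rw [sum_apply]
  rfl

theorem evG_betaP (X : Ctx H) (G : GG) (p : P H) : evG X G (betaP X p) = DG X G p := by
  rw [evG_apply]
  unfold DG
  refine Finsupp.sum_congr fun b _ => ?_
  rw [evB_betaP]

/-- for a fixed `z`, blocks of high level are small -/
theorem evB_small (X : Ctx H) (z : E) (τ : ℝ) (hτ : 0 < τ) :
    ∃ N : ℕ, ∀ b : Bk, N ≤ lev b → |evB X b z| ≤ τ := by
  have h1 : ∀ᶠ n in cofinite, ‖z.1 n‖ < τ := by
    have := (tendsto_cofinite_c0 z.1).norm
    rw [norm_zero] at this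
    exact this.eventually_lt_const hτ
  have h2 : ∀ᶠ σ in cofinite, ‖z.2 σ‖ < τ := by
    have := (tendsto_cofinite_c0 z.2).norm
    rw [norm_zero] at this
    exact this.eventually_lt_const hτ
  rw [eventually_cofinite] at h1 h2
  obtain ⟨N1, hN1⟩ := h1.bddAbove
  obtain ⟨N2, hN2⟩ := (h2.image Sigma.fst).bddAbove
  refine ⟨max N1 N2 + 1, fun b hb => ?_⟩
  rcases b with μ | σ
  · have hlt : N1 < μ.1 := by
      have : max N1 N2 + 1 ≤ μ.1 := hb
      have := le_max_left N1 N2
      omega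
    have hz : ‖z.1 μ.1‖ < τ := by
      by_contra hc
      exact absurd (hN1 hc) (not_le.2 hlt)
    rw [evB_inl]
    calc |inner ℝ (fV X μ) (z.1 μ.1)| ≤ ‖fV X μ‖ * ‖z.1 μ.1‖ := abs_real_inner_le_norm _ _
      _ ≤ 1 * ‖z.1 μ.1‖ := mul_le_mul_of_nonneg_right (norm_fV_le X μ) (norm_nonneg _)
      _ ≤ τ := by rw [one_mul]; exact hz.le
  · have hlt : N2 < σ.1 := by
      have : max N1 N2 + 1 ≤ σ.1 := hb
      have := le_max_right N1 N2
      omega
    have hz : ‖z.2 σ‖ < τ := by
      by_contra hc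
      exact absurd (hN2 ⟨σ, hc, rfl⟩) (not_le.2 hlt)
    rw [evB_inr]
    exact hz.le

end Crest.Agent.R091
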