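import Mathlib
import Crest.Agent.R091.Frame

/-! # Row 91, module Framework: the interpolation space `Z` (abstract `B`, `E`, `β`) -/

set_option autoImplicit false

namespace Crest.Agent.R091

open TopologicalSpace

section
variable {B E : Type} [NormedAddCommGroup B] [NormedSpace ℝ B] [NormedAddCommGroup E] [NormedSpace ℝ E]

/-- admissible functionals -/
def Adm (β : B × E → E) (C R : ℝ) : Set (E →L[ℝ] ℝ) :=
  {G | ‖G‖ ≤ R ∧ ∀ p p' : B × E, |G (β p) - G (β p')| ≤ C * ‖p - p'‖}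

/-- the norms `q_l` -/
noncomputable def qn (β : B × E → E) (C R : ℝ) (z : E) : ℝ :=
  sSup ((fun G : E →L[ℝ] ℝ => |G z|) '' Adm β C R)

omit [NormedSpace ℝ B] in
theorem adm_iff (β : B × E → E) (C R : ℝ) (G : E →L[ℝ] ℝ) :
    Fr.Adm β C R G ↔ G ∈ Adm β C R := by
  constructor
  · intro h
    refine ⟨h.bd, fun p p' => ?_⟩
    have := h.lip p p'
    rwa [dist_eq_norm] at this
  · rintro ⟨h1, h2⟩
    refine ⟨fun p p' => ?_, h1⟩
    rw [dist_eq_norm]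
    exact h2 p p'

omit [NormedSpace ℝ B] in
theorem qn_eq (β : B × E → E) (C R : ℝ) (z : E) : qn β C R z = Fr.qs β C R z := by
  unfold qn Fr.qs
  rw [iSup]
  congr 1
  ext x
  constructor
  · rintro ⟨G, hG, rfl⟩
    exact ⟨⟨G, (adm_iff β C R G).2 hG⟩, rfl⟩
  · rintro ⟨⟨G, hG⟩, rfl⟩
    exact ⟨G, (adm_iff β C R G).1 hG, rfl⟩

omit [NormedSpace ℝ B] in
theorem qn_le (β : B × E → E) {C R : ℝ} (hC : 0 ≤ C) (hR : 0 ≤ R) (z : E) : qn β C R z ≤ R * ‖z‖ := by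
  rw [qn_eq]
  exact Fr.qs_le_norm hC hR z

omit [NormedSpace ℝ B] in
theorem le_qn (β : B × E → E) {C R : ℝ} {G : E →L[ℝ] ℝ} (hG : G ∈ Adm β C R) (z : E) :
    |G z| ≤ qn β C R z := by
  rw [qn_eq]
  exact Fr.le_qs ((adm_iff β C R G).2 hG) z

omit [NormedSpace ℝ B] in
theorem qn_nonneg (β : B × E → E) (C R : ℝ) (z : E) : 0 ≤ qn β C R z := by
  refine Real.sSup_nonneg ?_
  rintro _ ⟨G, _, rfl⟩
  exact abs_nonneg _

omit [NormedSpace ℝ B] in
theorem qn_add_le (β : B × E → E) {C R : ℝ} (hC : 0 ≤ C) (hR : 0 ≤ R) (z z' : E) :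
    qn β C R (z + z') ≤ qn β C R z + qn β C R z' := by
  rw [qn_eq, qn_eq, qn_eq]
  exact Fr.qs_add hC hR z z'

omit [NormedSpace ℝ B] in
open scoped Pointwise in
theorem qn_smul (β : B × E → E) (C R : ℝ) (r : ℝ) (z : E) : qn β C R (r • z) = |r| * qn β C R z := by
  have h : (fun G : E →L[ℝ] ℝ => |G (r • z)|) '' Adm β C R =
      |r| • ((fun G : E →L[ℝ] ℝ => |G z|) '' Adm β C R) := by
    ext x
    simp only [Set.mem_image, Set.mem_smul_set, smul_eq_mul, map_smul, abs_mul]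
    constructor
    · rintro ⟨G, hG, rfl⟩
      exact ⟨_, ⟨G, hG, rfl⟩, rfl⟩
    · rintro ⟨_, ⟨G, hG, rfl⟩, rfl⟩
      exact ⟨G, hG, rfl⟩
  unfold qn
  rw [h, Real.sSup_smul_of_nonneg (abs_nonneg r), smul_eq_mul]

/-- The interpolation space, packaged existentially.  `ι : Z → E` is the inclusion. -/
theorem framework [CompleteSpace E] [SeparableSpace E] (β : B × E → E) (C C2 : ℝ) (R : ℕ → ℝ)
    (hC : 1 ≤ C) (hC2 : 0 ≤ C2) (hC2' : C2 ≤ 1 + C * C2) (hR : ∀ l, 1 ≤ R l) (hβ0 : β 0 = 0)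
    (hnorming : ∀ z : E, ∀ ε > 0, ∃ G ∈ Adm β C 1, ‖z‖ - ε ≤ |G z|)
    (hbij : Function.Bijective (fun p : B × E => p.2 + β p))
    (hinv : ∀ p p' : B × E, ‖p - p'‖ ≤ C2 * ‖(p.2 + β p) - (p'.2 + β p')‖) :
    ∃ (Z : Type) (_ : NormedAddCommGroup Z) (_ : NormedSpace ℝ Z) (ι : Z →L[ℝ] E),
      CompleteSpace Z ∧ SeparableSpace Z ∧ Function.Injective ι ∧ (∀ z, ‖ι z‖ ≤ ‖z‖) ∧
      (∀ z : Z, HasSum (fun l : ℕ => (1 / 2 : ℝ) ^ (l + 1) * qn β C (R l) (ι z)) ‖z‖) ∧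
      ∃ Ψ : B × Z → Z, Function.Bijective Ψ ∧
        (∀ s t, ‖Ψ s - Ψ t‖ ≤ (1 + C) * ‖s - t‖) ∧
        (∀ s t, ‖s - t‖ ≤ (1 + C * C2) * ‖Ψ s - Ψ t‖) := by
  let D : Fr.Par (B × E) E :=
    { β := β
      C := C
      R := R
      p₀ := 0
      hC := zero_le_one.trans hC
      hR := hR
      β_p₀ := hβ0
      norming := fun z e he => by
        obtain ⟨G, hG, h⟩ := hnorming z e he
        exact ⟨G, (adm_iff β C 1 G).2 hG, h⟩ }
  have hdist : ∀ p p' : B × E, dist p p' ≤ C2 * ‖(p.2 + β p) - (p'.2 + β p')‖ := by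
    intro p p'
    rw [dist_eq_norm]
    exact hinv p p'
  have hΨ := Fr.Psi_main (D := D) (π := ContinuousLinearMap.id ℝ E) (ι := fun p : B × E => p)
    (fun z => le_rfl) (κ := 1) (C' := C2) zero_le_one hC2
    (fun p p' => by rw [one_mul]) (fun p p' => le_rfl) hdist hbij.2
  refine ⟨D.Z, inferInstance, inferInstance, D.valZ, inferInstance, inferInstance,
    D.valZ_injective, D.norm_valZ_le, fun z => ?_, Fr.Psi D (ContinuousLinearMap.id ℝ E)
      (fun p : B × E => p), hΨ.1, fun s t => ?_, fun s t => ?_⟩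
  · have h1 : HasSum (fun l => Fr.Par.wt l * D.q l (D.val z.1)) ‖z.1‖ := by
      rw [Fr.Par.norm_Z0_eq]
      exact (Fr.Par.summable_val z.1).hasSum
    have h2 : (fun l : ℕ => (1 / 2 : ℝ) ^ (l + 1) * qn β C (R l) (D.valZ z)) =
        fun l => Fr.Par.wt l * D.q l (D.val z.1) := by
      funext l
      rw [qn_eq]
      have h3 : (1 / 2 : ℝ) ^ (l + 1) = Fr.Par.wt l := by
        unfold Fr.Par.wt
        rw [pow_succ, div_div, one_div_pow, one_div, one_div, one_div, mul_inv, mul_comm]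
      rw [h3]
      rfl
    rw [h2]
    exact h1
  · have := (hΨ.2 s t).1
    rwa [mul_one] at this
  · have := (hΨ.2 s t).2
    rwa [max_eq_right hC2'] at this

end

end Crest.Agent.R091
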