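import Crest.Agent.R091.ChainInst
import Crest.Agent.R091.Sel

/-! # Row 91, module LargeA: bounded signed sums, `Good`, passing to subsequences -/

set_option autoImplicit false

namespace Crest.Agent.R091

open Filter
open scoped Topology ZeroAtInfty

variable {H : Type} [NormedAddCommGroup H] [InnerProductSpace ℝ H]

/-- bounded signed sums -/
def BddSigned (z : ℕ → E) (K : ℝ) : Prop :=
  ∀ (s : Finset ℕ) (ε : ℕ → ℝ), (∀ i, |ε i| ≤ 1) → ‖∑ i ∈ s, ε i • z i‖ ≤ K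

theorem BddSigned.comp {z : ℕ → E} {K : ℝ} (h : BddSigned z K) {φ : ℕ → ℕ} (hφ : StrictMono φ) :
    BddSigned (fun i => z (φ i)) K := by
  intro A ε hε
  obtain ⟨A', ε', h1, h2⟩ := Sel.sum_reindex z hφ.injective A ε hε
  rw [h2]
  exact h A' ε' h1

/-- conclusion of every case -/
def Good (X : Ctx H) (z : ℕ → E) : Prop :=
  ∀ N : ℝ, ∃ (l : ℕ) (s : Finset ℕ) (ε : ℕ → ℝ), (∀ i, |ε i| ≤ 1) ∧
    N ≤ Fr.Par.wt l * (parX X).q l (∑ i ∈ s, ε i • z i)

/-- passing to a subsequence -/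
theorem Good.of_subseq (X : Ctx H) {z : ℕ → E} {φ : ℕ → ℕ} (hφ : StrictMono φ)
    (h : Good X (fun i => z (φ i))) : Good X z := by
  intro N
  obtain ⟨l, A, ε, h1, h2⟩ := h N
  obtain ⟨A', ε', b1, b2⟩ := Sel.sum_reindex z hφ.injective A ε h1
  exact ⟨l, A', ε', b1, by rw [← b2]; exact h2⟩

/-- how a functional gives the lower bound (`G` of norm `≤ K' 1000^l`, `G ∘ β` being `K'`-Lipschitz) -/
theorem q_ge (X : Ctx H) (l : ℕ) (G : E →L[ℝ] ℝ) (K' : ℝ) (hK' : 1 ≤ K')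
    (hG : ‖G‖ ≤ K' * 1000 ^ l) (hLip : ∀ p p' : P H, |G (betaP X p) - G (betaP X p')| ≤ K' * dist p p')
    (x : E) : |G x| / K' ≤ (parX X).q l x := by
  have hpos : 0 < K' := by linarith
  have hadm : Fr.Adm (betaP X) (51 / 25) (1000 ^ l) (K'⁻¹ • G) := by
    refine ⟨fun p p' => ?_, ?_⟩
    · have h := hLip p p'
      have hd : (0 : ℝ) ≤ dist p p' := dist_nonneg
      rw [smul_apply, smul_apply, smul_eq_mul, smul_eq_mul,
        ← mul_sub, abs_mul, abs_of_pos (inv_pos.2 hpos)]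
      calc K'⁻¹ * |G (betaP X p) - G (betaP X p')| ≤ K'⁻¹ * (K' * dist p p') :=
            mul_le_mul_of_nonneg_left h (inv_pos.2 hpos).le
        _ = dist p p' := by rw [← mul_assoc, inv_mul_cancel₀ hpos.ne', one_mul]
        _ ≤ 51 / 25 * dist p p' := by linarith
    · rw [norm_smul, Real.norm_eq_abs, abs_of_pos (inv_pos.2 hpos)]
      calc K'⁻¹ * ‖G‖ ≤ K'⁻¹ * (K' * 1000 ^ l) := mul_le_mul_of_nonneg_left hG (inv_pos.2 hpos).le
        _ = 1000 ^ l := by rw [← mul_assoc, inv_mul_cancel₀ hpos.ne', one_mul]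
  have h := Fr.le_qs hadm x
  rw [smul_apply, smul_eq_mul, abs_mul, abs_of_pos (inv_pos.2 hpos)] at h
  rw [div_eq_inv_mul]
  exact h

end Crest.Agent.R091
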