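import Crest.Agent.R091.LargeA
import Crest.Agent.R091.Cases1
import Crest.Agent.R091.ChainInst

/-! # Row 91, module LargeU: the U-cases -/

set_option autoImplicit false

namespace Crest.Agent.R091

open Filter
open scoped Topology ZeroAtInfty
open Crest.Agent.R091.Sel

variable {H : Type} [NormedAddCommGroup H] [InnerProductSpace ℝ H]

theorem isBeta_betaP (X : Ctx H) : Cases.IsBeta X (betaP X) :=
  ⟨fun _ _ => rfl, fun _ _ => rfl⟩

theorem good_of_pre (X : Ctx H) {z : ℕ → E} (h : Pre (betaP X) z) : Good X z := by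
  intro N
  obtain ⟨l, A, ε, G, h1, h2, h3, h4⟩ := h.finish N
  refine ⟨l, A, ε, h1, h4.trans ?_⟩
  have hw : (1 / 2 : ℝ) ^ (l + 1) = Fr.Par.wt l := by
    unfold Fr.Par.wt
    rw [pow_succ, div_div, one_div_pow, one_div, one_div, one_div, mul_inv, mul_comm]
  rw [hw]
  refine mul_le_mul_of_nonneg_left ((le_abs_self _).trans ?_) (Fr.Par.wt_pos l).le
  refine Fr.le_qs ⟨fun p p' => (h3 p p').trans ?_, h2⟩ _
  have : (0 : ℝ) ≤ dist p p' := dist_nonneg
  change dist p p' ≤ 51 / 25 * dist p p'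
  linarith

/-- U-case, constant level, constant depth -/
theorem good_U_overlap (X : Ctx H) (z : ℕ → E) (K c : ℝ) (hc : 0 < c) (hb : BddSigned z K)
    (σ : ℕ → Sg) (hσ : ∀ i, c ≤ |(z i).2 (σ i)|) (n d : ℕ) (hd : ∀ i, (σ i).2.2.2.2.2 = d)
    (hn : ∀ i, (σ i).1 = n) : Good X z :=
  good_of_pre X (Cases.pre_Uoverlap (isBeta_betaP X) (M := K) hb hc σ
    (fun i => by have := hσ i; linarith) n d hn hd)

/-- U-case, depth tending to infinity -/
theorem good_U_flat (X : Ctx H) (z : ℕ → E) (K c : ℝ) (hc : 0 < c) (hb : BddSigned z K)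
    (σ : ℕ → Sg) (hσ : ∀ i, c ≤ |(z i).2 (σ i)|)
    (hd : Tendsto (fun i => (σ i).2.2.2.2.2) atTop atTop) : Good X z :=
  good_of_pre X (Cases.pre_Uflat (isBeta_betaP X) (M := K) hb hc σ
    (fun i => by have := hσ i; linarith) fun D => (hd.eventually_ge_atTop D).frequently)

/-- U-case, levels tending to infinity, constant depth -/
theorem good_U_chain (X : Ctx H) (z : ℕ → E) (K c : ℝ) (hc : 0 < c) (hb : BddSigned z K)
    (σ : ℕ → Sg) (hσ : ∀ i, c ≤ |(z i).2 (σ i)|) (d : ℕ) (hd : ∀ i, (σ i).2.2.2.2.2 = d)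
    (hn : Tendsto (fun i => (σ i).1) atTop atTop) : Good X z := by
  have hz : ∀ b : Bk, Tendsto (fun i => evB X b (z i)) atTop (𝓝 0) := fun b =>
    Cases.BSS_coord (M := K) hb (evB X b)
  have hep : 0 < ep d := PhiAux.ep_pos d
  have hep' : 0 < ep (d + 1) := PhiAux.ep_pos (d + 1)
  have hhh : 0 < hh d := PhiAux.hh_pos d
  refine good_of_pre X ⟨c, K0 + 1, 1 + (K0 + 1) / ep (d + 1), hc, by linarith [(Nat.cast_nonneg K0 : (0:ℝ) ≤ K0)],
    ?_, fun m hm => ?_⟩
  · have : (0 : ℝ) ≤ (K0 + 1) / ep (d + 1) := by positivity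
    linarith
  · have hHs : 4 * rr (d + 1) * (ep d * hh d) ≤ K0 := by
      have e1 : 4 * rr (d + 1) * (ep d * hh d) = 4 * ep d := by
        unfold hh
        rw [PhiAux.rr_succ]
        have := PhiAux.rr_pos d
        field_simp
      rw [e1]
      have e2 : ep d ≤ 1 := PhiAux.ep_le_one d
      have e3 : (19 : ℝ) ≤ K0 := by
        unfold K0
        push_cast
        linarith [(Nat.cast_nonneg ⌈16 * Lam ^ 2⌉₊ : (0:ℝ) ≤ (⌈16 * Lam ^ 2⌉₊ : ℝ))]
      linarith
    have hbd : ∀ i (p : P H), |DB X (Sum.inr (σ i)) p| ≤ ep d * hh d * sc (σ i).2.2.2.2.1 := by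
      intro i p
      have e := hd i
      rcases hσi : σ i with ⟨n', g, a, cc, k, d'⟩
      rw [hσi] at e
      simp only at e
      subst e
      have := abs_Phi_le X n' g a cc k d' p
      rw [← mul_assoc] at this
      exact this
    have hsp : ∀ i (p : P H), DB X (Sum.inr (σ i)) p ≠ 0 →
        sfun X (σ i).1 (σ i).2.2.2.2.1 (σ i).2.2.2.1 (d + 1) p ≤
          -(sc (σ i).2.2.2.2.1 / (2 * rr (d + 1))) := by
      intro i p hp
      have e := hd i
      have hp' : Phi X (σ i) p ≠ 0 := hp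
      rcases hσi : σ i with ⟨n', g, a, cc, k, d'⟩
      rw [hσi] at e hp'
      simp only at e
      subst e
      exact Phi_loc X n' g a cc k d' p hp'
    obtain ⟨A, ε, G, h1, h2, h3, h4⟩ := chain_apply X z hz (fun i => Sum.inr (σ i)) (fun i => (σ i).1)
      (fun i => (σ i).2.2.2.2.1) (fun i => (σ i).2.2.2.1) (d + 1) (ep d * hh d) c (fun _ => rfl) hn
      (by positivity) hHs hc.le hσ hbd hsp m
    exact ⟨A, ε, G, h1, by linarith, h3, h4⟩

end Crest.Agent.R091
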