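import Crest.Agent.R091.LargeA
import Crest.Agent.R091.CasesV

/-! # Row 91, module LargeV: the V-case (helper935) -/

set_option autoImplicit false

namespace Crest.Agent.R091

open Filter
open scoped Topology ZeroAtInfty

variable {H : Type} [NormedAddCommGroup H] [InnerProductSpace ℝ H]

/-- from the intermediate goal `Sel.Pre` to `Good` -/
theorem Good.of_pre (X : Ctx H) {z : ℕ → E} (h : Sel.Pre (betaP X) z) : Good X z := by
  intro N
  obtain ⟨l, A, ε, G, h1, h2, h3, h4⟩ := h.finish N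
  refine ⟨l, A, ε, h1, ?_⟩
  have h5 := q_ge X l G 1 le_rfl (by rwa [one_mul])
    (fun p p' => (h3 p p').trans (by rw [one_mul])) (∑ i ∈ A, ε i • z i)
  rw [div_one] at h5
  have hw : Fr.Par.wt l = (1 / 2 : ℝ) ^ (l + 1) := by
    unfold Fr.Par.wt
    rw [pow_succ, one_div_pow, div_eq_mul_one_div, mul_comm]
  rw [hw]
  exact h4.trans (mul_le_mul_of_nonneg_left ((le_abs_self _).trans h5) (by positivity))

/-- V-case -/
theorem good_V (X : Ctx H) (z : ℕ → E) (K c : ℝ) (hc : 0 < c) (hb : BddSigned z K)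
    (n : ℕ → ℕ) (hn : ∀ i, c ≤ ‖(z i).1 (n i)‖) : Good X z :=
  Good.of_pre X (pre_V X hc (K := K) hb n hn)

end Crest.Agent.R091
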