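import Crest.Agent.R091.LargeA
import Crest.Agent.R091.LargeV
import Crest.Agent.R091.LargeU

/-! # Row 91, module LargeMain: `Large (parX X)` -/

set_option autoImplicit false

namespace Crest.Agent.R091

open Filter
open scoped Topology ZeroAtInfty

variable {H : Type} [NormedAddCommGroup H] [InnerProductSpace ℝ H]

/-- a sequence of naturals has a subsequence tending to infinity or a constant one -/
theorem exists_subseq_cases (f : ℕ → ℕ) :
    (∃ φ : ℕ → ℕ, StrictMono φ ∧ Tendsto (fun i => f (φ i)) atTop atTop) ∨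
      ∃ (φ : ℕ → ℕ) (v : ℕ), StrictMono φ ∧ ∀ i, f (φ i) = v := by
  by_cases h : ∀ N : ℕ, ∃ᶠ k in atTop, N ≤ f k
  · left
    obtain ⟨φ, hφ, hφ2⟩ := Filter.extraction_forall_of_frequently h
    exact ⟨φ, hφ, tendsto_atTop_mono hφ2 tendsto_id⟩
  · right
    push Not at h
    obtain ⟨N, hN⟩ := h
    have h1 : ∃ v, ∃ᶠ k in atTop, f k = v := by
      by_contra hcon
      push Not at hcon
      have h2 : ∀ᶠ k in atTop, ∀ v ∈ Finset.range N, f k ≠ v :=
        (Filter.eventually_all_finset _).2 fun v _ => by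
          simpa using hcon v
      obtain ⟨k, hk1, hk2⟩ := (h2.and hN).exists
      exact hk1 (f k) (Finset.mem_range.2 (by simpa using hk2)) rfl
    obtain ⟨v, hv⟩ := h1
    obtain ⟨φ, hφ, hφ2⟩ := Filter.extraction_of_frequently_atTop hv
    exact ⟨φ, v, hφ, hφ2⟩

theorem good_U (X : Ctx H) (z : ℕ → E) (K c : ℝ) (hc : 0 < c) (hb : BddSigned z K)
    (σ : ℕ → Sg) (hσ : ∀ i, c ≤ |(z i).2 (σ i)|) : Good X z := by
  rcases exists_subseq_cases (fun i => (σ i).2.2.2.2.2) with ⟨φ, hφ, hd⟩ | ⟨φ, d, hφ, hd⟩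
  · exact Good.of_subseq X hφ
      (good_U_flat X (fun i => z (φ i)) K c hc (hb.comp hφ) (fun i => σ (φ i))
        (fun i => hσ (φ i)) hd)
  · refine Good.of_subseq X hφ ?_
    rcases exists_subseq_cases (fun i => (σ (φ i)).1) with ⟨ψ, hψ, hn⟩ | ⟨ψ, n, hψ, hn⟩
    · exact Good.of_subseq X hψ
        (good_U_chain X (fun i => z (φ (ψ i))) K c hc ((hb.comp hφ).comp hψ)
          (fun i => σ (φ (ψ i))) (fun i => hσ (φ (ψ i))) d (fun i => hd (ψ i)) hn)
    · exact Good.of_subseq X hψ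
        (good_U_overlap X (fun i => z (φ (ψ i))) K c hc ((hb.comp hφ).comp hψ)
          (fun i => σ (φ (ψ i))) (fun i => hσ (φ (ψ i))) n d (fun i => hd (ψ i)) hn)

theorem large (X : Ctx H) : Fr.Large (parX X) := by
  intro z K c hc hb hz
  suffices h : Good X z from h
  have hc2 : 0 < c / 2 := half_pos hc
  -- for every `i` one of the two components is large at one point
  have hi : ∀ i, (∃ n, c / 2 ≤ ‖(z i).1 n‖) ∨ ∃ σ, c / 2 ≤ |(z i).2 σ| := by
    intro i
    by_contra hcon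
    push Not at hcon
    obtain ⟨h1, h2⟩ := hcon
    have h3 : ‖(z i).1‖ ≤ c / 2 := (norm_le_iff_c0 _ hc2.le).2 fun n => (h1 n).le
    have h4 : ‖(z i).2‖ ≤ c / 2 := (norm_le_iff_c0 _ hc2.le).2 fun n => by
      rw [Real.norm_eq_abs]; exact (h2 n).le
    have h5 : ‖z i‖ ≤ c / 2 := by
      rw [Prod.norm_def]
      exact max_le h3 h4
    linarith [hz i]
  by_cases hV : ∃ᶠ i in atTop, ∃ n, c / 2 ≤ ‖(z i).1 n‖
  · obtain ⟨φ, hφ, hφ2⟩ := Filter.extraction_of_frequently_atTop hV
    choose n hn using hφ2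
    exact Good.of_subseq X hφ
      (good_V X (fun i => z (φ i)) K (c / 2) hc2 (BddSigned.comp hb hφ) n hn)
  · have hU : ∃ᶠ i in atTop, ∃ σ, c / 2 ≤ |(z i).2 σ| := by
      refine Eventually.frequently ?_
      rw [Filter.not_frequently] at hV
      filter_upwards [hV] with i hi2
      exact (hi i).resolve_left hi2
    obtain ⟨φ, hφ, hφ2⟩ := Filter.extraction_of_frequently_atTop hU
    choose σ hσ using hφ2
    exact Good.of_subseq X hφ
      (good_U X (fun i => z (φ i)) K (c / 2) hc2 (BddSigned.comp hb hφ) σ hσ)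

end Crest.Agent.R091
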