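import Crest.Agent.R091.LargeMain
import Crest.Agent.R091.CtxExists
import Crest.Agent.R091.Final

/-! # Row 91, module Main: the main theorem for `H = ℝ` and `H = ℓ²` -/

set_option autoImplicit false

namespace Crest.Agent.R091

open TopologicalSpace
open scoped ZeroAtInfty

theorem mainFor_real : MainFor ℝ := by
  obtain ⟨J⟩ := exists_J_real
  obtain ⟨X⟩ := exists_ctx J
  exact mainFor_of_large X (large X)

theorem mainFor_l2 : MainFor (lp (fun _ : ℕ => ℝ) 2) := by
  have : SeparableSpace Y := separable_l2
  obtain ⟨J⟩ := exists_J_l2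
  obtain ⟨X⟩ := exists_ctx (H := Y) J
  exact mainFor_of_large X (large X)

end Crest.Agent.R091
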