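import Crest.Agent.R091.Framework

/-! # Row 91, module NoC0: gliding hump in the `ℓ₁`-interpolation space (abstract)

`Z → E` with norm `‖z‖ = ∑ 2^{-l-1} q_l (ι z)`.  If a bounded-below operator `T : c₀ → Z` existed, then
either `ι ∘ T` is not bounded below on any tail of `c₀` (then a normalized block sequence behaves like the
`ℓ₁` basis: contradiction), or `z_i = ι (T e_{i+n₀})` satisfies `‖z_i‖ ≥ c` and all `±1` sums are bounded in
`Z`, which contradicts `hchain`. -/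

set_option autoImplicit false

namespace Crest.Agent.R091

open TopologicalSpace Filter Topology
open scoped ZeroAtInfty

/-! ### Helpers on `c₀` -/

section c0

variable {H : Type} [NormedAddCommGroup H] [NormedSpace ℝ H]

theorem noC0_norm_le {f : C₀(ℕ, H)} {C : ℝ} (hC : 0 ≤ C) :
    ‖f‖ ≤ C ↔ ∀ n, ‖f n‖ ≤ C := by
  rw [← ZeroAtInftyContinuousMap.norm_toBCF_eq_norm, BoundedContinuousFunction.norm_le hC]
  rfl

theorem noC0_norm_apply_le (f : C₀(ℕ, H)) (n : ℕ) : ‖f n‖ ≤ ‖f‖ :=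
  (noC0_norm_le (norm_nonneg f)).1 le_rfl n

/-- The element of `c₀(H)` with value `h` at `n` and `0` elsewhere. -/
noncomputable def noC0_sgl (n : ℕ) (h : H) : C₀(ℕ, H) where
  toFun := Pi.single n h
  continuous_toFun := continuous_of_discreteTopology
  zero_at_infty' := by
    rw [Filter.cocompact_eq_cofinite]
    refine tendsto_nhds_of_eventually_eq ?_
    rw [Filter.eventually_cofinite]
    refine (Set.finite_singleton n).subset fun m hm => ?_
    by_contra hmn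
    exact hm (Pi.single_eq_of_ne (M := fun _ : ℕ => H) hmn h)

theorem noC0_sgl_apply (n m : ℕ) (h : H) :
    noC0_sgl n h m = (Pi.single n h : ℕ → H) m := rfl

theorem noC0_norm_sgl (n : ℕ) (h : H) : ‖noC0_sgl n h‖ = ‖h‖ := by
  apply le_antisymm
  · rw [noC0_norm_le (norm_nonneg h)]
    intro m
    by_cases hm : m = n
    · subst hm; simp [noC0_sgl_apply]
    · simp [noC0_sgl_apply, Pi.single_eq_of_ne hm]
  · have := noC0_norm_apply_le (noC0_sgl n h) n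
    simpa [noC0_sgl_apply] using this

theorem noC0_sum_apply {ι : Type} (A : Finset ι) (f : ι → C₀(ℕ, H)) (m : ℕ) :
    (∑ j ∈ A, f j) m = ∑ j ∈ A, f j m := by
  classical
  induction A using Finset.induction_on with
  | empty => simp
  | insert a s ha ih => rw [Finset.sum_insert ha, Finset.sum_insert ha]; simp [ih]

theorem noC0_norm_sum_sgl_le (A : Finset ℕ) (ε : ℕ → ℝ) (hε : ∀ j, |ε j| ≤ 1) (h : H) :
    ‖∑ j ∈ A, ε j • noC0_sgl j h‖ ≤ ‖h‖ := by
  classical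
  rw [noC0_norm_le (norm_nonneg h)]
  intro m
  rw [noC0_sum_apply]
  have : ∀ j ∈ A, j ≠ m → (ε j • noC0_sgl j h) m = 0 := by
    intro j _ hj
    simp [noC0_sgl_apply, Pi.single_eq_of_ne (Ne.symm hj)]
  by_cases hm : m ∈ A
  · rw [Finset.sum_eq_single_of_mem m hm this]
    have h1 : (ε m • noC0_sgl m h) m = ε m • h := by simp [noC0_sgl_apply]
    rw [h1, norm_smul, Real.norm_eq_abs]
    nlinarith [hε m, norm_nonneg h, abs_nonneg (ε m)]
  · rw [Finset.sum_eq_zero fun j hj => this j hj (fun h => hm (h ▸ hj))]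
    simp

/-- The isometric embedding `c₀ → c₀(H)` given by a unit vector. -/
noncomputable def noC0_emb (h : H) : C₀(ℕ, ℝ) →L[ℝ] C₀(ℕ, H) :=
  LinearMap.mkContinuous
    { toFun := fun f =>
        { toFun := fun n => f n • h
          continuous_toFun := continuous_of_discreteTopology
          zero_at_infty' := by
            have := f.zero_at_infty'
            have h2 : Tendsto (fun n => f n • h) (cocompact ℕ) (𝓝 ((0 : ℝ) • h)) :=
              this.smul_const h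
            simpa using h2 }
      map_add' := fun f g => by ext n; exact add_smul (f n) (g n) h
      map_smul' := fun r f => by ext n; exact mul_smul r (f n) h }
    ‖h‖ (fun f => by
      refine (noC0_norm_le (by positivity)).2 fun n => ?_
      change ‖f n • h‖ ≤ ‖h‖ * ‖f‖
      rw [norm_smul, mul_comm]
      exact mul_le_mul_of_nonneg_left (noC0_norm_apply_le f n) (norm_nonneg h))

theorem noC0_emb_apply (h : H) (f : C₀(ℕ, ℝ)) (n : ℕ) : noC0_emb h f n = f n • h := rfl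

theorem noC0_norm_emb (h : H) (hh : ‖h‖ = 1) (f : C₀(ℕ, ℝ)) : ‖noC0_emb h f‖ = ‖f‖ := by
  apply le_antisymm
  · refine (noC0_norm_le (norm_nonneg f)).2 fun n => ?_
    rw [noC0_emb_apply, norm_smul, hh, mul_one]
    exact noC0_norm_apply_le f n
  · refine (noC0_norm_le (norm_nonneg _)).2 fun n => ?_
    have := noC0_norm_apply_le (noC0_emb h f) n
    rwa [noC0_emb_apply, norm_smul, hh, mul_one] at this

end c0

section
variable {B E : Type} [NormedAddCommGroup B] [NormedSpace ℝ B] [NormedAddCommGroup E] [NormedSpace ℝ E]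

/-- One step of the gliding hump. -/
theorem noC0_step (β : B × E → E) (C : ℝ) (R : ℕ → ℝ) (hC : 1 ≤ C) (hR : ∀ l, 1 ≤ R l)
    (Z : Type) [NormedAddCommGroup Z] [NormedSpace ℝ Z] (ι : Z →L[ℝ] E)
    (hsum : ∀ z : Z, HasSum (fun l : ℕ => (1 / 2 : ℝ) ^ (l + 1) * qn β C (R l) (ι z)) ‖z‖)
    (z : ℕ → Z) (δ : ℝ) (hδ : 0 < δ) (hz : ∀ j, δ ≤ ‖z j‖)
    (hlim : Tendsto (fun j => ‖ι (z j)‖) atTop (𝓝 0)) (w : Z) :
    ∀ᶠ j in atTop, ‖w‖ + δ / 2 ≤ ‖w + z j‖ := by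
  have hC0 : 0 ≤ C := by linarith
  have hR0 : ∀ l, 0 ≤ R l := fun l => by linarith [hR l]
  set f : Z → ℕ → ℝ := fun z l => (1 / 2 : ℝ) ^ (l + 1) * qn β C (R l) (ι z) with hf
  have hf0 : ∀ z l, 0 ≤ f z l := fun z l => mul_nonneg (by positivity) (qn_nonneg β C (R l) _)
  have hsm : ∀ z, Summable (f z) := fun z => (hsum z).summable
  have hts : ∀ z, ∑' l, f z l = ‖z‖ := fun z => (hsum z).tsum_eq
  -- choose `L`
  have htail : Tendsto (fun L => ∑' l, f w (l + L)) atTop (𝓝 0) := tendsto_sum_nat_add (f w)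
  obtain ⟨L, hL⟩ := ((htail.eventually (gt_mem_nhds (show (0 : ℝ) < δ / 8 by positivity)))).exists
  -- heads of `z j`
  have hhead : Tendsto (fun j => ∑ l ∈ Finset.range L, f (z j) l) atTop (𝓝 0) := by
    have h1 : ∀ j, ∑ l ∈ Finset.range L, f (z j) l
        ≤ (∑ l ∈ Finset.range L, (1 / 2 : ℝ) ^ (l + 1) * R l) * ‖ι (z j)‖ := by
      intro j
      rw [Finset.sum_mul]
      refine Finset.sum_le_sum fun l _ => ?_
      rw [mul_assoc]
      exact mul_le_mul_of_nonneg_left (qn_le β hC0 (hR0 l) _) (by positivity)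
    have h2 : Tendsto (fun j => (∑ l ∈ Finset.range L, (1 / 2 : ℝ) ^ (l + 1) * R l) * ‖ι (z j)‖)
        atTop (𝓝 0) := by
      simpa using hlim.const_mul (∑ l ∈ Finset.range L, (1 / 2 : ℝ) ^ (l + 1) * R l)
    exact squeeze_zero (fun j => Finset.sum_nonneg fun l _ => hf0 _ _) h1 h2
  filter_upwards [hhead.eventually (gt_mem_nhds (show (0 : ℝ) < δ / 8 by positivity))] with j hj
  -- pointwise inequalities
  have hq1 : ∀ l, f w l - f (z j) l ≤ f (w + z j) l := by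
    intro l
    have h1 := qn_add_le β hC0 (hR0 l) (ι (w + z j)) (ι (-(z j)))
    have h2 : ι (w + z j) + ι (-(z j)) = ι w := by rw [← map_add]; simp
    have h3 : qn β C (R l) (ι (-(z j))) = qn β C (R l) (ι (z j)) := by
      have := qn_smul β C (R l) (-1) (ι (z j))
      simpa using this
    rw [h2, h3] at h1
    have h4 : (0 : ℝ) < (1 / 2 : ℝ) ^ (l + 1) := by positivity
    simp only [hf]
    nlinarith
  have hq2 : ∀ l, f (z j) l - f w l ≤ f (w + z j) l := by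
    intro l
    have h1 := qn_add_le β hC0 (hR0 l) (ι (w + z j)) (ι (-w))
    have h2 : ι (w + z j) + ι (-w) = ι (z j) := by rw [← map_add]; simp
    have h3 : qn β C (R l) (ι (-w)) = qn β C (R l) (ι w) := by
      have := qn_smul β C (R l) (-1) (ι w)
      simpa using this
    rw [h2, h3] at h1
    have h4 : (0 : ℝ) < (1 / 2 : ℝ) ^ (l + 1) := by positivity
    simp only [hf]
    nlinarith
  have e1 := (hsm (w + z j)).sum_add_tsum_nat_add L
  have e2 := (hsm w).sum_add_tsum_nat_add L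
  have e3 := (hsm (z j)).sum_add_tsum_nat_add L
  rw [hts] at e1 e2 e3
  have s1 : ∑ l ∈ Finset.range L, f w l - ∑ l ∈ Finset.range L, f (z j) l
      ≤ ∑ l ∈ Finset.range L, f (w + z j) l := by
    rw [← Finset.sum_sub_distrib]
    exact Finset.sum_le_sum fun l _ => hq1 l
  have sw : Summable fun l => f w (l + L) := (summable_nat_add_iff L).2 (hsm w)
  have sz : Summable fun l => f (z j) (l + L) := (summable_nat_add_iff L).2 (hsm (z j))
  have swz : Summable fun l => f (w + z j) (l + L) := (summable_nat_add_iff L).2 (hsm (w + z j))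
  have s2 : ∑' l, f (z j) (l + L) - ∑' l, f w (l + L) ≤ ∑' l, f (w + z j) (l + L) := by
    rw [← sz.tsum_sub sw]
    exact (sz.sub sw).tsum_le_tsum (fun l => hq2 (l + L)) swz
  have h5 := hz j
  linarith

theorem noC0_criterion (β : B × E → E) (C : ℝ) (R : ℕ → ℝ) (hC : 1 ≤ C) (hR : ∀ l, 1 ≤ R l)
    (Z : Type) [NormedAddCommGroup Z] [NormedSpace ℝ Z] (ι : Z →L[ℝ] E)
    (hle : ∀ z, ‖ι z‖ ≤ ‖z‖)
    (hsum : ∀ z : Z, HasSum (fun l : ℕ => (1 / 2 : ℝ) ^ (l + 1) * qn β C (R l) (ι z)) ‖z‖)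
    (hchain : ∀ (z : ℕ → E) (c M : ℝ), 0 < c → (∀ i, c ≤ ‖z i‖) →
      (∀ (A : Finset ℕ) (ε : ℕ → ℝ), (∀ i, |ε i| ≤ 1) → ‖∑ i ∈ A, ε i • z i‖ ≤ M) →
      ∀ N : ℝ, ∃ (l : ℕ) (A : Finset ℕ) (ε : ℕ → ℝ), (∀ i, |ε i| ≤ 1) ∧
        N ≤ (1 / 2 : ℝ) ^ (l + 1) * qn β C (R l) (∑ i ∈ A, ε i • z i))
    (T : C₀(ℕ, ℝ) →L[ℝ] Z) (δ : ℝ) (hδ : 0 < δ) (hT : ∀ x, δ * ‖x‖ ≤ ‖T x‖) : False := by
  classical
  set z : ℕ → Z := fun j => T (noC0_sgl j (1 : ℝ)) with hz
  have hzδ : ∀ j, δ ≤ ‖z j‖ := by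
    intro j
    have := hT (noC0_sgl j (1 : ℝ))
    rwa [noC0_norm_sgl, norm_one, mul_one] at this
  have hzM : ∀ (A : Finset ℕ) (ε : ℕ → ℝ), (∀ i, |ε i| ≤ 1) → ‖∑ i ∈ A, ε i • z i‖ ≤ ‖T‖ := by
    intro A ε hε
    have h1 : ∑ i ∈ A, ε i • z i = T (∑ i ∈ A, ε i • noC0_sgl i (1 : ℝ)) := by
      simp [hz, map_sum]
    rw [h1]
    refine (T.le_opNorm _).trans ?_
    have := noC0_norm_sum_sgl_le A ε hε (1 : ℝ)
    rw [norm_one] at this
    nlinarith [norm_nonneg T]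
  by_cases hcase : Tendsto (fun j => ‖ι (z j)‖) atTop (𝓝 0)
  · -- the blocks behave like `ℓ₁`
    have hstep := noC0_step β C R hC hR Z ι hsum z δ hδ hzδ hcase
    have hA : ∀ K : ℕ, ∃ A : Finset ℕ, (K : ℝ) * (δ / 2) ≤ ‖∑ i ∈ A, z i‖ := by
      intro K
      induction K with
      | zero => exact ⟨∅, by simp⟩
      | succ K ih =>
        obtain ⟨A, hA⟩ := ih
        obtain ⟨N, hN⟩ := A.exists_nat_subset_range
        obtain ⟨j, hj1, hj2⟩ := ((hstep (∑ i ∈ A, z i)).and (eventually_ge_atTop N)).exists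
        have hjA : j ∉ A := fun h => by
          have := Finset.mem_range.1 (hN h)
          omega
        refine ⟨insert j A, ?_⟩
        rw [Finset.sum_insert hjA, add_comm (z j)]
        push_cast
        linarith
    obtain ⟨K, hK⟩ := exists_nat_gt ((‖T‖ + 1) / (δ / 2))
    obtain ⟨A, hA⟩ := hA K
    have h1 := hzM A (fun _ => 1) (fun _ => by simp)
    simp only [one_smul] at h1
    rw [div_lt_iff₀ (by positivity)] at hK
    linarith
  · -- a subsequence is bounded below in `E`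
    have h1 : ∃ c > 0, ∀ N, ∃ j ≥ N, c ≤ ‖ι (z j)‖ := by
      by_contra hcon
      push Not at hcon
      apply hcase
      rw [Metric.tendsto_atTop]
      intro ε hε
      obtain ⟨N, hN⟩ := hcon ε hε
      refine ⟨N, fun n hn => ?_⟩
      rw [Real.dist_eq, sub_zero, abs_of_nonneg (norm_nonneg _)]
      exact hN n hn
    obtain ⟨c, hc, hcN⟩ := h1
    obtain ⟨φ, hφ, hφc⟩ := Filter.extraction_of_frequently_atTop
      (Filter.frequently_atTop.2 hcN)
    have hsub : ∀ (A : Finset ℕ) (ε : ℕ → ℝ), (∀ i, |ε i| ≤ 1) →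
        ‖∑ i ∈ A, ε i • z (φ i)‖ ≤ ‖T‖ := by
      intro A ε hε
      have h2 : ∑ i ∈ A, ε i • z (φ i)
          = ∑ i ∈ A.image φ, (fun n => if h : ∃ i, φ i = n then ε h.choose else 0) i • z i := by
        rw [Finset.sum_image (fun x _ y _ h => hφ.injective h)]
        refine Finset.sum_congr rfl fun i _ => ?_
        have h3 : ∃ i', φ i' = φ i := ⟨i, rfl⟩
        have h4 : h3.choose = i := hφ.injective h3.choose_spec
        simp only [dif_pos h3, h4]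
      rw [h2]
      refine hzM _ _ fun n => ?_
      by_cases h : ∃ i, φ i = n
      · simp only [dif_pos h]; exact hε _
      · simp only [dif_neg h]; simp
    obtain ⟨l, A, ε, hε, hN⟩ := hchain (fun i => ι (z (φ i))) c ‖T‖ hc hφc (by
      intro A ε hε
      have h2 : ∑ i ∈ A, ε i • ι (z (φ i)) = ι (∑ i ∈ A, ε i • z (φ i)) := by simp [map_sum]
      rw [h2]
      exact (hle _).trans (hsub A ε hε)) (‖T‖ + 1)
    have h2 : ∑ i ∈ A, ε i • ι (z (φ i)) = ι (∑ i ∈ A, ε i • z (φ i)) := by simp [map_sum]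
    rw [h2] at hN
    have h3 := hsum (∑ i ∈ A, ε i • z (φ i))
    have h4 : (1 / 2 : ℝ) ^ (l + 1) * qn β C (R l) (ι (∑ i ∈ A, ε i • z (φ i)))
        ≤ ‖∑ i ∈ A, ε i • z (φ i)‖ :=
      le_hasSum h3 l fun i _ => mul_nonneg (by positivity) (qn_nonneg β C (R i) _)
    have h5 := hsub A ε hε
    linarith

/-- no closed subspace isomorphic to `c₀(H)`, `H ≠ 0` -/
theorem isEmpty_c0H_of_no_embedding (Z : Type) [NormedAddCommGroup Z] [NormedSpace ℝ Z]
    (H : Type) [NormedAddCommGroup H] [NormedSpace ℝ H] [Nontrivial H]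
    (h : ∀ (T : C₀(ℕ, ℝ) →L[ℝ] Z) (δ : ℝ), 0 < δ → (∀ x, δ * ‖x‖ ≤ ‖T x‖) → False)
    (S : Submodule ℝ Z) : IsEmpty (S ≃L[ℝ] C₀(ℕ, H)) := by
  refine ⟨fun e => ?_⟩
  obtain ⟨u, hu⟩ := exists_ne (0 : H)
  obtain ⟨v, hv⟩ : ∃ v : H, ‖v‖ = 1 :=
    ⟨(‖u‖⁻¹ : ℝ) • u, by rw [norm_smul, norm_inv, norm_norm, inv_mul_cancel₀ (norm_ne_zero_iff.2 hu)]⟩
  set K : ℝ := ‖(e : S →L[ℝ] C₀(ℕ, H))‖ + 1 with hK
  have hpos : 0 < K := by positivity
  refine h ((S.subtypeL.comp (e.symm : C₀(ℕ, H) →L[ℝ] S)).comp (noC0_emb v)) K⁻¹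
    (inv_pos.2 hpos) fun x => ?_
  have h1 := (e : S →L[ℝ] C₀(ℕ, H)).le_opNorm (e.symm (noC0_emb v x))
  have h2 : ‖noC0_emb v x‖ ≤ ‖(e : S →L[ℝ] C₀(ℕ, H))‖ * ‖e.symm (noC0_emb v x)‖ := by
    simpa using h1
  rw [noC0_norm_emb v hv] at h2
  have h3 : ‖((S.subtypeL.comp (e.symm : C₀(ℕ, H) →L[ℝ] S)).comp (noC0_emb v)) x‖
      = ‖e.symm (noC0_emb v x)‖ := by simp
  rw [h3, inv_mul_le_iff₀ hpos, hK]
  nlinarith [norm_nonneg (e.symm (noC0_emb v x))]

/-- no closed subspace isomorphic to `c₀` -/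
theorem isEmpty_c0_of_no_embedding (Z : Type) [NormedAddCommGroup Z] [NormedSpace ℝ Z]
    (h : ∀ (T : C₀(ℕ, ℝ) →L[ℝ] Z) (δ : ℝ), 0 < δ → (∀ x, δ * ‖x‖ ≤ ‖T x‖) → False)
    (S : Submodule ℝ Z) : IsEmpty (S ≃L[ℝ] C₀(ℕ, ℝ)) :=
  isEmpty_c0H_of_no_embedding Z ℝ h S

/-- `X` contains `c₀(H)` and `Z` does not: not isomorphic -/
theorem isEmpty_equiv_of_no_embedding (X Z : Type) [NormedAddCommGroup X] [NormedSpace ℝ X]
    [NormedAddCommGroup Z] [NormedSpace ℝ Z]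
    (H : Type) [NormedAddCommGroup H] [NormedSpace ℝ H] [Nontrivial H]
    (h : ∀ (T : C₀(ℕ, ℝ) →L[ℝ] Z) (δ : ℝ), 0 < δ → (∀ x, δ * ‖x‖ ≤ ‖T x‖) → False)
    (i : C₀(ℕ, H) →ₗᵢ[ℝ] X) : IsEmpty (X ≃L[ℝ] Z) := by
  refine ⟨fun e => ?_⟩
  obtain ⟨u, hu⟩ := exists_ne (0 : H)
  obtain ⟨v, hv⟩ : ∃ v : H, ‖v‖ = 1 :=
    ⟨(‖u‖⁻¹ : ℝ) • u, by rw [norm_smul, norm_inv, norm_norm, inv_mul_cancel₀ (norm_ne_zero_iff.2 hu)]⟩
  set K : ℝ := ‖(e.symm : Z →L[ℝ] X)‖ + 1 with hK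
  have hpos : 0 < K := by positivity
  refine h (((e : X →L[ℝ] Z).comp i.toContinuousLinearMap).comp (noC0_emb v)) K⁻¹
    (inv_pos.2 hpos) fun x => ?_
  have h1 := (e.symm : Z →L[ℝ] X).le_opNorm (e (i (noC0_emb v x)))
  have h2 : ‖i (noC0_emb v x)‖ ≤ ‖(e.symm : Z →L[ℝ] X)‖ * ‖e (i (noC0_emb v x))‖ := by
    simpa using h1
  rw [i.norm_map, noC0_norm_emb v hv] at h2
  have h3 : ‖(((e : X →L[ℝ] Z).comp i.toContinuousLinearMap).comp (noC0_emb v)) x‖
      = ‖e (i (noC0_emb v x))‖ := by simp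
  rw [h3, inv_mul_le_iff₀ hpos, hK]
  nlinarith [norm_nonneg (e (i (noC0_emb v x)))]

end

end Crest.Agent.R091
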