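import Crest.Agent.R091.PhiAux
import Crest.Agent.R091.Phi1

/-! # Row 91, module Phi3: the recursion for the scalar coordinates, null property, overlap, `DG` (helper634) -/

set_option autoImplicit false

namespace Crest.Agent.R091

open Filter
open scoped Topology ZeroAtInfty

variable {H : Type} [NormedAddCommGroup H] [InnerProductSpace ℝ H]

/-! ### the recursion -/

theorem Tab_eq_Phi (X : Ctx H) {n : ℕ} {σ : Sg} (h : σ.1 < n) (v : ℕ → HV H) :
    Tab X n σ v = Phi X σ v := by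
  induction n with
  | zero => exact absurd h (Nat.not_lt_zero _)
  | succ n ih =>
    rcases Nat.lt_succ_iff_lt_or_eq.1 h with h1 | h1
    · have hne : σ.1 ≠ n := h1.ne
      rw [← ih h1]
      simp only [Tab, if_neg hne]
    · unfold Phi
      rw [h1]

theorem Tab_eq_zero (X : Ctx H) {n : ℕ} {σ : Sg} (h : n ≤ σ.1) (v : ℕ → HV H) : Tab X n σ v = 0 := by
  induction n with
  | zero => rfl
  | succ n ih =>
    have hne : σ.1 ≠ n := by omega
    simp only [Tab, if_neg hne]
    exact ih (by omega)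

/-- block functions with two tables agreeing below `n` -/
theorem DBT_Tab (X : Ctx H) {n : ℕ} {b : Bk} (hb : lev b < n) (v : ℕ → HV H) :
    DBT X (Tab X n) b v = DB X b v := by
  unfold DB
  cases b with
  | inl μ => rfl
  | inr σ => exact Tab_eq_Phi X hb v

theorem DT_eq_DG (X : Ctx H) (n : ℕ) (G : GG) (hG : ∀ b ∈ G.support, lev b < n) (v : ℕ → HV H) :
    DT X (Tab X n) n G v = DG X G v := by
  unfold DT DG Finsupp.sum
  refine Finset.sum_congr rfl fun b hb => ?_
  simp only [if_pos (hG b hb), DBT_Tab X (hG b hb)]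

/-- truncation of a formal functional to the levels `< n` -/
noncomputable def trunc (n : ℕ) (G : GG) : GG :=
  open Classical in G.filter (fun b => lev b < n)

theorem lev_lt_of_mem_trunc {n : ℕ} {G : GG} {b : Bk} (hb : b ∈ (trunc n G).support) : lev b < n := by
  classical
  unfold trunc at hb
  rw [Finsupp.support_filter, Finset.mem_filter] at hb
  exact hb.2

theorem DT_eq_DG_trunc (X : Ctx H) (n : ℕ) (G : GG) (v : ℕ → HV H) :
    DT X (Tab X n) n G v = DG X (trunc n G) v := by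
  classical
  unfold DT DG trunc Finsupp.sum
  rw [Finsupp.support_filter, Finset.sum_filter]
  refine Finset.sum_congr rfl fun b hb => ?_
  by_cases h : lev b < n
  · simp only [if_pos h, Finsupp.filter_apply_pos (fun b => lev b < n) G h, DBT_Tab X h]
  · simp only [if_neg h]

/-- validity of the pair `(n, g)` -/
def Valid (X : Ctx H) (n g : ℕ) : Prop :=
  g < n ∧ ∀ p p' : P H, |DG X (trunc n (X.en g)) p - DG X (trunc n (X.en g)) p'| ≤ ‖p - p'‖

theorem Phi_eq (X : Ctx H) (n g : ℕ) (a : ℤ) (c : Fin n → ℤ) (k : ℤ) (d : ℕ) (v : ℕ → HV H) :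
    Phi X ⟨n, (g, a, c, k, d)⟩ v = open Classical in if Valid X n g then
      ep d * soft (max 0 (sfun X n k c d v))
        (tent (hh d * sc k) (DG X (trunc n (X.en g)) v - a * (hh d * sc k))) else 0 := by
  classical
  unfold Phi
  simp only [Tab, if_true, DT_eq_DG_trunc]
  by_cases h : Valid X n g
  · rw [if_pos h]
    have h' := h
    unfold Valid at h'
    rw [if_pos h']
    unfold gval
    simp only [DT_eq_DG_trunc]
  · rw [if_neg h]
    have h' := h
    unfold Valid at h'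
    rw [if_neg h']

/-- main formula -/
theorem Phi_of_valid (X : Ctx H) (n g : ℕ) (a : ℤ) (c : Fin n → ℤ) (k : ℤ) (d : ℕ) (G : GG)
    (hG : ∀ b ∈ G.support, lev b < n) (hg : X.en g = G) (hgn : g < n)
    (hLip : ∀ p p' : P H, |DG X G p - DG X G p'| ≤ ‖p - p'‖) (v : ℕ → HV H) :
    Phi X ⟨n, (g, a, c, k, d)⟩ v =
      ep d * soft (max 0 (sfun X n k c d v)) (tent (hh d * sc k) (DG X G v - a * (hh d * sc k))) := by
  classical
  have htr : trunc n G = G := by
    unfold trunc
    rw [Finsupp.filter_eq_self_iff]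
    intro b hb
    exact hG b (Finsupp.mem_support_iff.2 hb)
  have hv : Valid X n g := ⟨hgn, by rw [hg, htr]; exact hLip⟩
  rw [Phi_eq, if_pos hv, hg, htr]

theorem sfun_congr (X : Ctx H) (n : ℕ) (k : ℤ) (c : Fin n → ℤ) (d : ℕ) {v v' : ℕ → HV H}
    (h : ∀ m ≤ n, v m = v' m) : sfun X n k c d v = sfun X n k c d v' := by
  have h1 := PhiAux.abs_sfun_sub_le_of X n k c d v v' (δ := 0)
    (fun m hm => by rw [h m hm, sub_self, norm_zero])
  rw [mul_zero] at h1
  exact sub_eq_zero.1 (abs_nonpos_iff.1 h1)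

theorem Phi_congr_aux (X : Ctx H) (N : ℕ) : ∀ (σ : Sg), σ.1 < N → ∀ {v v' : ℕ → HV H},
    (∀ m ≤ σ.1, v m = v' m) → Phi X σ v = Phi X σ v' := by
  induction N with
  | zero => intro σ h; exact absurd h (Nat.not_lt_zero _)
  | succ N ih =>
    rintro ⟨n, g, a, c, k, d⟩ hn v v' h
    have h0 : ∀ m ≤ n, v m = v' m := h
    have hDG : DG X (trunc n (X.en g)) v = DG X (trunc n (X.en g)) v' := by
      unfold DG Finsupp.sum
      refine Finset.sum_congr rfl fun b hb => ?_
      have hb' := lev_lt_of_mem_trunc hb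
      have : DB X b v = DB X b v' := by
        unfold DB DBT
        cases b with
        | inl μ =>
          have hb2 : μ.1 < n := hb'
          show inner ℝ (fV X μ) (beta X μ.1 v) = inner ℝ (fV X μ) (beta X μ.1 v')
          rw [beta_congr X μ.1 (fun m hm => h0 m (hm.trans hb2.le))]
        | inr σ =>
          have hb2 : σ.1 < n := hb'
          have hn' : n < N + 1 := hn
          exact ih σ (by omega) (fun m hm => h0 m (hm.trans hb2.le))
      simp only [this]
    rw [Phi_eq, Phi_eq, sfun_congr X n k c d h0, hDG]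

theorem Phi_congr (X : Ctx H) (σ : Sg) {v v' : ℕ → HV H} (h : ∀ m ≤ σ.1, v m = v' m) :
    Phi X σ v = Phi X σ v' :=
  Phi_congr_aux X (σ.1 + 1) σ (Nat.lt_succ_self _) h

theorem abs_Phi_sub_le (X : Ctx H) (n g : ℕ) (a : ℤ) (c : Fin n → ℤ) (k : ℤ) (d : ℕ) (p p' : P H) :
    |Phi X ⟨n, (g, a, c, k, d)⟩ p - Phi X ⟨n, (g, a, c, k, d)⟩ p'| ≤ 2 * ep d * ‖p - p'‖ := by
  classical
  have hep := PhiAux.ep_pos d
  rw [Phi_eq, Phi_eq]
  by_cases hv : Valid X n g
  · rw [if_pos hv, if_pos hv, ← mul_sub, abs_mul, abs_of_pos hep]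
    have hs := PhiAux.abs_sfun_sub_le X n k c d p p'
    have hb : |max 0 (sfun X n k c d p) - max 0 (sfun X n k c d p')| ≤ (1 / 2) * ‖p - p'‖ := by
      have h1 := PhiAux.abs_max_sub_max_zero (sfun X n k c d p) (sfun X n k c d p')
      rw [max_comm 0, max_comm 0]
      exact h1.trans hs
    have ht := PhiAux.abs_tent_sub_le (hh d * sc k)
      (DG X (trunc n (X.en g)) p - a * (hh d * sc k)) (DG X (trunc n (X.en g)) p' - a * (hh d * sc k))
    have ht2 : |DG X (trunc n (X.en g)) p - a * (hh d * sc k) -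
      (DG X (trunc n (X.en g)) p' - a * (hh d * sc k))| ≤ ‖p - p'‖ := by
      have e : DG X (trunc n (X.en g)) p - a * (hh d * sc k) -
        (DG X (trunc n (X.en g)) p' - a * (hh d * sc k)) =
          DG X (trunc n (X.en g)) p - DG X (trunc n (X.en g)) p' := by ring
      rw [e]
      exact hv.2 p p'
    have h3 := PhiAux.abs_soft_sub_le (le_max_left 0 (sfun X n k c d p))
      (tent (hh d * sc k) (DG X (trunc n (X.en g)) p - a * (hh d * sc k)))
      (tent (hh d * sc k) (DG X (trunc n (X.en g)) p' - a * (hh d * sc k)))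
    have h4 := PhiAux.abs_soft_sub_le' (le_max_left 0 (sfun X n k c d p))
      (le_max_left 0 (sfun X n k c d p'))
      (tent (hh d * sc k) (DG X (trunc n (X.en g)) p' - a * (hh d * sc k)))
    have h5 := abs_sub_le
      (soft (max 0 (sfun X n k c d p))
        (tent (hh d * sc k) (DG X (trunc n (X.en g)) p - a * (hh d * sc k))))
      (soft (max 0 (sfun X n k c d p))
        (tent (hh d * sc k) (DG X (trunc n (X.en g)) p' - a * (hh d * sc k))))
      (soft (max 0 (sfun X n k c d p'))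
        (tent (hh d * sc k) (DG X (trunc n (X.en g)) p' - a * (hh d * sc k))))
    have h6 : |soft (max 0 (sfun X n k c d p))
        (tent (hh d * sc k) (DG X (trunc n (X.en g)) p - a * (hh d * sc k))) -
        soft (max 0 (sfun X n k c d p'))
        (tent (hh d * sc k) (DG X (trunc n (X.en g)) p' - a * (hh d * sc k)))| ≤ 2 * ‖p - p'‖ := by
      have := norm_nonneg (p - p')
      linarith
    calc ep d * _ ≤ ep d * (2 * ‖p - p'‖) := mul_le_mul_of_nonneg_left h6 hep.le
      _ = 2 * ep d * ‖p - p'‖ := by ring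
  · rw [if_neg hv, if_neg hv, sub_zero, abs_zero]
    positivity

theorem abs_Phi_le (X : Ctx H) (n g : ℕ) (a : ℤ) (c : Fin n → ℤ) (k : ℤ) (d : ℕ) (v : ℕ → HV H) :
    |Phi X ⟨n, (g, a, c, k, d)⟩ v| ≤ ep d * (hh d * sc k) := by
  classical
  have hep := PhiAux.ep_pos d
  have hhp := PhiAux.hh_pos d
  have hsc := PhiAux.sc_pos k
  rw [Phi_eq]
  by_cases hv : Valid X n g
  · rw [if_pos hv, abs_mul, abs_of_pos hep]
    refine mul_le_mul_of_nonneg_left ?_ hep.le
    exact (PhiAux.abs_soft_le (le_max_left _ _) _).trans (PhiAux.abs_tent_le (by positivity) _)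
  · rw [if_neg hv, abs_zero]
    positivity

theorem Phi_active (X : Ctx H) (n g : ℕ) (a : ℤ) (c : Fin n → ℤ) (k : ℤ) (d : ℕ) (v : ℕ → HV H)
    (h : Phi X ⟨n, (g, a, c, k, d)⟩ v ≠ 0) :
    g < n ∧ sfun X n k c d v < hh d * sc k ∧
      |DG X (trunc n (X.en g)) v - a * (hh d * sc k)| < 2 * (hh d * sc k) := by
  classical
  have hep := PhiAux.ep_pos d
  have hhp := PhiAux.hh_pos d
  have hsc := PhiAux.sc_pos k
  rw [Phi_eq] at h
  by_cases hv : Valid X n g
  · rw [if_pos hv] at h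
    refine ⟨hv.1, ?_, ?_⟩
    · by_contra hs
      rw [not_lt] at hs
      apply h
      rw [PhiAux.soft_of_abs_le, mul_zero]
      exact (PhiAux.abs_tent_le (by positivity) _).trans (hs.trans (le_max_right _ _))
    · by_contra hs
      rw [not_lt] at hs
      apply h
      rw [PhiAux.tent_of_le_abs hs, PhiAux.soft_of_abs_le, mul_zero]
      rw [abs_zero]
      exact le_max_left _ _
  · rw [if_neg hv] at h
    exact absurd rfl h

theorem Phi_loc_lt (X : Ctx H) (n g : ℕ) (a : ℤ) (c : Fin n → ℤ) (k : ℤ) (d : ℕ) (v : ℕ → HV H)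
    (h : Phi X ⟨n, (g, a, c, k, d)⟩ v ≠ 0) : sfun X n k c d v < hh d * sc k :=
  (Phi_active X n g a c k d v h).2.1

/-- on the big cell -/
theorem bigcell_facts (X : Ctx H) (n : ℕ) (c : Fin n → ℤ) (k : ℤ) (d : ℕ) (v : ℕ → HV H)
    (h : sfun X n k c d v < hh d * sc k) :
    1 / (2 * rr d) < ‖v n‖ / sc k ∧ ‖v n‖ / sc k < 2 * rr d ∧
      ∀ i : Fin n, |om i * obs X i v / sc (k + 1) - c i| < rho d + 1 / 2 := by
  have hsc := PhiAux.sc_pos k
  have hrr := PhiAux.rr_pos d
  have hrr1 := PhiAux.one_le_rr d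
  have hhe : 2 * (hh d * sc k) / sc k = 1 / (2 * rr d) := by
    unfold hh
    field_simp
    norm_num
  have key : ∀ j, PhiAux.sterm X n k c d v j < 1 / (2 * rr d) := fun j => by
    rw [← hhe]; exact PhiAux.sterm_lt_of_sfun_lt h j
  have h0 := key none
  have h1 : 1 / rr d - ‖v n‖ / sc k < 1 / (2 * rr d) := lt_of_le_of_lt (le_max_left _ _) h0
  have h2 : ‖v n‖ / sc k - rr d < 1 / (2 * rr d) := lt_of_le_of_lt (le_max_right _ _) h0
  have e1 : 1 / rr d = 2 * (1 / (2 * rr d)) := by field_simp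
  have e2 : 1 / (2 * rr d) ≤ 1 / 2 := by
    rw [div_le_div_iff₀ (by linarith) (by norm_num)]; linarith
  refine ⟨by linarith, by linarith, fun i => ?_⟩
  have h3 : |om i * obs X i v / sc (k + 1) - c i| - rho d < 1 / (2 * rr d) := key (some i)
  linarith

/-- localization with flattening depth `d + 1` -/
theorem Phi_loc (X : Ctx H) (n g : ℕ) (a : ℤ) (c : Fin n → ℤ) (k : ℤ) (d : ℕ) (v : ℕ → HV H)
    (h : Phi X ⟨n, (g, a, c, k, d)⟩ v ≠ 0) :
    sfun X n k c (d + 1) v ≤ -(sc k / (2 * rr (d + 1))) := by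
  have hsc := PhiAux.sc_pos k
  have hrr := PhiAux.rr_pos d
  have hrr1 := PhiAux.one_le_rr d
  obtain ⟨h1, h2, h3⟩ := bigcell_facts X n c k d v (Phi_loc_lt X n g a c k d v h)
  have hR : rr (d + 1) = 4 * rr d := PhiAux.rr_succ d
  have hRpos : 0 < rr (d + 1) := PhiAux.rr_pos _
  have hinv : 1 / rr (d + 1) ≤ 1 / 4 := by
    rw [hR, div_le_div_iff₀ (by linarith) (by norm_num)]; linarith
  have e1 : 1 / (2 * rr d) = 2 * (1 / rr (d + 1)) := by
    rw [hR]; field_simp; norm_num
  have e2 : -(sc k / (2 * rr (d + 1))) = (1 / 2) * sc k * (-(1 / rr (d + 1))) := by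
    field_simp
  rw [e2]
  refine PhiAux.sfun_le_of ?_ ?_ fun i => ?_
  · rw [e1] at h1; linarith
  · rw [hR] at *; linarith
  · have := h3 i
    rw [PhiAux.rho_succ]
    linarith

theorem Phi_zero (X : Ctx H) (σ : Sg) : Phi X σ (0 : ℕ → HV H) = 0 := by
  obtain ⟨n, g, a, c, k, d⟩ := σ
  by_contra h
  obtain ⟨h1, -, -⟩ := bigcell_facts X n c k d 0 (Phi_loc_lt X n g a c k d 0 h)
  have hrr := PhiAux.rr_pos d
  have h0 : ‖(0 : ℕ → HV H) n‖ / sc k = 0 := by
    simp
  rw [h0] at h1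
  have : 0 < 1 / (2 * rr d) := by positivity
  linarith

/-! ### finiteness -/

theorem int_near {x : ℝ} {m M : ℤ} (h : |x - m| < M) : m - ⌊x⌋ ∈ Finset.Icc (-(M + 1)) (M + 1) := by
  rw [abs_lt] at h
  have h1 := Int.floor_le x
  have h2 := Int.lt_floor_add_one x
  rw [Finset.mem_Icc]
  constructor
  · have : (-(M + 1) : ℝ) ≤ (m : ℝ) - ⌊x⌋ := by linarith
    exact_mod_cast this
  · have : (m : ℝ) - ⌊x⌋ ≤ (M + 1 : ℝ) := by linarith
    exact_mod_cast this

/-- finite parameter set for the active coordinates of level `n`, depth `d` -/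
noncomputable def ovPar (n d : ℕ) : Finset (ℕ × ℤ × (Fin n → ℤ) × ℤ) :=
  Finset.range n ×ˢ (Finset.Icc (-(2 + 1)) (2 + 1) ×ˢ
    (Fintype.piFinset (fun _ => Finset.Icc (-((2 * d + 4 : ℤ) + 1)) ((2 * d + 4 : ℤ) + 1)) ×ˢ
      Finset.Icc (-(⌈Real.log (2 * rr d) / 1000⌉ + 1 + 1)) (⌈Real.log (2 * rr d) / 1000⌉ + 1 + 1)))

noncomputable def ovParMap (X : Ctx H) (n d : ℕ) (v : ℕ → HV H) (q : ℕ × ℤ × (Fin n → ℤ) × ℤ) : Sg :=
  ⟨n, (q.1, ⌊DG X (trunc n (X.en q.1)) v / (hh d * sc (⌊Real.log ‖v n‖ / 1000⌋ + q.2.2.2))⌋ + q.2.1,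
    fun i => ⌊om i * obs X i v / sc (⌊Real.log ‖v n‖ / 1000⌋ + q.2.2.2 + 1)⌋ + q.2.2.1 i,
    ⌊Real.log ‖v n‖ / 1000⌋ + q.2.2.2, d)⟩

open Classical in
theorem active_mem (X : Ctx H) (n g : ℕ) (a : ℤ) (c : Fin n → ℤ) (k : ℤ) (d : ℕ) (v : ℕ → HV H)
    (h : Phi X ⟨n, (g, a, c, k, d)⟩ v ≠ 0) :
    (⟨n, (g, a, c, k, d)⟩ : Sg) ∈ (ovPar n d).image (ovParMap X n d v) := by
  have hsc := PhiAux.sc_pos k
  have hrr := PhiAux.rr_pos d
  have hrr1 := PhiAux.one_le_rr d
  have hhp := PhiAux.hh_pos d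
  obtain ⟨hg, hs, hD⟩ := Phi_active X n g a c k d v h
  obtain ⟨h1, h2, h3⟩ := bigcell_facts X n c k d v hs
  rw [Finset.mem_image]
  refine ⟨(g, a - ⌊DG X (trunc n (X.en g)) v / (hh d * sc k)⌋,
    fun i => c i - ⌊om i * obs X i v / sc (k + 1)⌋, k - ⌊Real.log ‖v n‖ / 1000⌋), ?_, ?_⟩
  · unfold ovPar
    simp only [Finset.mem_product, Finset.mem_range, Fintype.mem_piFinset]
    refine ⟨hg, ?_, fun i => ?_, ?_⟩
    · apply int_near
      have hpos : 0 < hh d * sc k := by positivity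
      have e : DG X (trunc n (X.en g)) v / (hh d * sc k) - a =
          (DG X (trunc n (X.en g)) v - a * (hh d * sc k)) / (hh d * sc k) := by
        field_simp
      rw [e, abs_div, abs_of_pos hpos, div_lt_iff₀ hpos]
      push_cast
      exact hD
    · apply int_near
      have := h3 i
      unfold rho at this
      push_cast
      linarith
    · apply int_near
      have hv0 : 0 < ‖v n‖ := by
        have : 0 < ‖v n‖ / sc k := lt_trans (by positivity) h1
        exact (div_pos_iff_of_pos_right hsc).1 this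
      have hlog : Real.log (‖v n‖ / sc k) = Real.log ‖v n‖ - 1000 * k := by
        rw [Real.log_div hv0.ne' hsc.ne']
        unfold sc
        rw [Real.log_exp]
      have hl1 : Real.log (‖v n‖ / sc k) < Real.log (2 * rr d) :=
        Real.log_lt_log (by positivity) h2
      have hl2 : - Real.log (2 * rr d) < Real.log (‖v n‖ / sc k) := by
        rw [← Real.log_inv, ← one_div]
        exact Real.log_lt_log (by positivity) h1
      have hc := Int.le_ceil (Real.log (2 * rr d) / 1000)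
      rw [hlog] at hl1 hl2
      rw [abs_lt]
      push_cast
      constructor
      · have : Real.log ‖v n‖ / 1000 - k = (Real.log ‖v n‖ - 1000 * k) / 1000 := by ring
        rw [this]
        have h5 : - (Real.log (2 * rr d) / 1000) < (Real.log ‖v n‖ - 1000 * k) / 1000 := by
          rw [← neg_div]
          exact div_lt_div_of_pos_right hl2 (by norm_num)
        linarith
      · have : Real.log ‖v n‖ / 1000 - k = (Real.log ‖v n‖ - 1000 * k) / 1000 := by ring
        rw [this]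
        have h5 : (Real.log ‖v n‖ - 1000 * k) / 1000 < Real.log (2 * rr d) / 1000 :=
          div_lt_div_of_pos_right hl1 (by norm_num)
        linarith
  · unfold ovParMap
    have hk : ⌊Real.log ‖v n‖ / 1000⌋ + (k - ⌊Real.log ‖v n‖ / 1000⌋) = k := by ring
    simp only [hk]
    have ha : ⌊DG X (trunc n (X.en g)) v / (hh d * sc k)⌋ +
      (a - ⌊DG X (trunc n (X.en g)) v / (hh d * sc k)⌋) = a := by ring
    have hc : (fun i : Fin n => ⌊om i * obs X i v / sc (k + 1)⌋ +
      (c i - ⌊om i * obs X i v / sc (k + 1)⌋)) = c := by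
      funext i; ring
    rw [ha, hc]

/-- bounded overlap at fixed level and depth -/
theorem Phi_overlap (X : Ctx H) (n d : ℕ) : ∃ N : ℕ, ∀ (p : P H) (A : Finset Sg),
    (∀ σ ∈ A, σ.1 = n ∧ σ.2.2.2.2.2 = d ∧ Phi X σ p ≠ 0) → A.card ≤ N := by
  classical
  refine ⟨(ovPar n d).card, fun p A hA => ?_⟩
  have hsub : A ⊆ (ovPar n d).image (ovParMap X n d p) := by
    rintro ⟨n', g, a, c, k, d'⟩ hσ
    obtain ⟨h1, h2, h3⟩ := hA _ hσ
    simp only at h1 h2
    subst h1
    subst h2
    exact active_mem X n' g a c k d' p h3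
  exact (Finset.card_le_card hsub).trans Finset.card_image_le

theorem abs_Phi_le_norm (X : Ctx H) (n g : ℕ) (a : ℤ) (c : Fin n → ℤ) (k : ℤ) (d : ℕ)
    (v : ℕ → HV H) :
    |Phi X ⟨n, (g, a, c, k, d)⟩ v| ≤ ep d * ‖v n‖ := by
  by_cases h : Phi X ⟨n, (g, a, c, k, d)⟩ v = 0
  · rw [h, abs_zero]
    have := PhiAux.ep_pos d
    positivity
  have hsc := PhiAux.sc_pos k
  have hrr := PhiAux.rr_pos d
  have hep := PhiAux.ep_pos d
  obtain ⟨h1, h2, h3⟩ := bigcell_facts X n c k d v (Phi_loc_lt X n g a c k d v h)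
  refine (abs_Phi_le X n g a c k d v).trans ?_
  refine mul_le_mul_of_nonneg_left ?_ hep.le
  rw [lt_div_iff₀ hsc] at h1
  refine le_trans (mul_le_mul_of_nonneg_right ?_ hsc.le) h1.le
  unfold hh
  rw [div_le_div_iff₀ (by positivity) (by positivity)]
  linarith

/-- `Phi(p) ∈ c₀(Sg)` -/
theorem Phi_null (X : Ctx H) (p : P H) : Tendsto (fun σ => Phi X σ p) cofinite (𝓝 0) := by
  classical
  rw [Metric.tendsto_nhds]
  intro ε hε
  rw [eventually_cofinite]
  -- levels
  have hp0 : Tendsto (fun n => p n) atTop (𝓝 0) := by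
    have h := p.zero_at_infty'
    rw [cocompact_eq_cofinite, Nat.cofinite_eq_atTop] at h
    exact h
  obtain ⟨N, hN⟩ := (Metric.tendsto_atTop.1 hp0) ε hε
  have hd0 : Tendsto (fun d => ep d * ‖p‖) atTop (𝓝 0) := by
    have := PhiAux.tendsto_ep.mul_const ‖p‖
    simpa using this
  obtain ⟨D, hD⟩ := (Metric.tendsto_atTop.1 hd0) ε hε
  refine Set.Finite.subset (s := ⋃ n ∈ Finset.range N, ⋃ d ∈ Finset.range D,
    (((ovPar n d).image (ovParMap X n d p) : Finset Sg) : Set Sg)) ?_ ?_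
  · exact Set.Finite.biUnion (Finset.finite_toSet _) fun n _ =>
      Set.Finite.biUnion (Finset.finite_toSet _) fun d _ => Finset.finite_toSet _
  · rintro ⟨n, g, a, c, k, d⟩ hσ
    rw [Set.mem_ofPred_eq, dist_zero_right, Real.norm_eq_abs, not_lt] at hσ
    have h1 := abs_Phi_le_norm X n g a c k d p
    have hep := PhiAux.ep_pos d
    have hep1 := PhiAux.ep_le_one d
    have hne : Phi X ⟨n, (g, a, c, k, d)⟩ p ≠ 0 := by
      intro h0
      rw [h0, abs_zero] at hσ
      linarith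
    have hn : n < N := by
      by_contra hn
      have h2 := hN n (not_lt.1 hn)
      rw [dist_zero_right] at h2
      have h3 : ep d * ‖p n‖ ≤ 1 * ‖p n‖ := mul_le_mul_of_nonneg_right hep1 (norm_nonneg _)
      linarith
    have hd : d < D := by
      by_contra hd
      have h2 := hD d (not_lt.1 hd)
      rw [dist_zero_right, Real.norm_eq_abs, abs_of_nonneg (by positivity)] at h2
      have h3 : ep d * ‖p n‖ ≤ ep d * ‖p‖ :=
        mul_le_mul_of_nonneg_left (PhiAux.norm_P_apply_le p n) hep.le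
      linarith
    simp only [Set.mem_iUnion]
    exact ⟨n, Finset.mem_range.2 hn, d, Finset.mem_range.2 hd,
      Finset.mem_coe.2 (active_mem X n g a c k d p hne)⟩

/-! ### `DG` -/

theorem DG_add (X : Ctx H) (G G' : GG) (v : ℕ → HV H) : DG X (G + G') v = DG X G v + DG X G' v := by
  classical
  unfold DG
  refine Finsupp.sum_add_index' (fun b => ?_) fun b q q' => ?_
  · simp
  · push_cast; ring

theorem DG_smul (X : Ctx H) (q : ℚ) (G : GG) (v : ℕ → HV H) : DG X (q • G) v = q * DG X G v := by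
  classical
  unfold DG
  rw [Finsupp.sum_smul_index' (fun b => by simp)]
  unfold Finsupp.sum
  rw [Finset.mul_sum]
  refine Finset.sum_congr rfl fun b _ => ?_
  simp only [smul_eq_mul]
  push_cast
  ring

theorem DG_single (X : Ctx H) (b : Bk) (q : ℚ) (v : ℕ → HV H) :
    DG X (Finsupp.single b q) v = q * DB X b v := by
  unfold DG
  rw [Finsupp.sum_single_index (by simp)]

theorem DG_zero (X : Ctx H) (v : ℕ → HV H) : DG X 0 v = 0 := by
  unfold DG
  exact Finsupp.sum_zero_index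

theorem abs_DB_sub_le (X : Ctx H) (b : Bk) (p p' : P H) : |DB X b p - DB X b p'| ≤ 3 * ‖p - p'‖ := by
  unfold DB DBT
  cases b with
  | inl μ =>
    show |inner ℝ (fV X μ) (beta X μ.1 p) - inner ℝ (fV X μ) (beta X μ.1 p')| ≤ 3 * ‖p - p'‖
    rw [← inner_sub_right]
    refine (abs_real_inner_le_norm _ _).trans ?_
    have h1 := norm_fV_le X μ
    have h2 := norm_beta_sub_le X μ.1 p p' ‖p - p'‖ (norm_nonneg _)
      (fun m _ => PhiAux.norm_P_sub_apply_le p p' m)
    calc ‖fV X μ‖ * ‖beta X μ.1 p - beta X μ.1 p'‖ ≤ 1 * (3 * ‖p - p'‖) :=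
          mul_le_mul h1 h2 (norm_nonneg _) zero_le_one
      _ = 3 * ‖p - p'‖ := one_mul _
  | inr σ =>
    obtain ⟨n, g, a, c, k, d⟩ := σ
    refine (abs_Phi_sub_le X n g a c k d p p').trans ?_
    have := PhiAux.ep_le_one d
    have h2 := norm_nonneg (p - p')
    nlinarith

theorem DB_congr (X : Ctx H) (b : Bk) {v v' : ℕ → HV H} (h : ∀ m ≤ lev b, v m = v' m) :
    DB X b v = DB X b v' := by
  unfold DB DBT
  cases b with
  | inl μ =>
    show inner ℝ (fV X μ) (beta X μ.1 v) = inner ℝ (fV X μ) (beta X μ.1 v')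
    rw [beta_congr X μ.1 h]
  | inr σ => exact Phi_congr X σ h

theorem DG_congr (X : Ctx H) (G : GG) (n : ℕ) (hG : ∀ b ∈ G.support, lev b ≤ n) {v v' : ℕ → HV H}
    (h : ∀ m ≤ n, v m = v' m) : DG X G v = DG X G v' := by
  unfold DG Finsupp.sum
  refine Finset.sum_congr rfl fun b hb => ?_
  simp only [DB_congr X b (fun m hm => h m (hm.trans (hG b hb)))]

end Crest.Agent.R091
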