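import Crest.Agent.R091.Defs

/-! # Row 91, module Rot: the Hilbert hotel isometry (abstract `T`) -/

set_option autoImplicit false

namespace Crest.Agent.R091

variable {H : Type} [NormedAddCommGroup H] [InnerProductSpace ℝ H]

local notation "adj" => ContinuousLinearMap.adjoint

theorem uu_sub (J : WithLp 2 (H × Y) ≃ₗᵢ[ℝ] Y) (T : Y →L[ℝ] V) (v v' : HV H) :
    uu J T (v - v') = uu J T v - uu J T v' := by
  unfold uu
  have e : WithLp.toLp 2 ((v - v').fst, adj T (v - v').snd) =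
      WithLp.toLp 2 (v.fst, adj T v.snd) - WithLp.toLp 2 (v'.fst, adj T v'.snd) := by
    have h1 : adj T (v - v').snd = adj T v.snd - adj T v'.snd := by
      rw [WithLp.sub_snd, map_sub]
    rw [h1]
    rfl
  rw [e, map_sub, WithLp.sub_snd, map_sub]
  abel

theorem rot_sub (J : WithLp 2 (H × Y) ≃ₗᵢ[ℝ] Y) (T : Y →L[ℝ] V) (v v' : HV H) :
    rot J T (v - v') = rot J T v - rot J T v' := by
  unfold rot
  rw [uu_sub, map_sub, WithLp.sub_snd]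
  abel

/-- `T* T = 1` -/
theorem adj_apply_self (T : Y →L[ℝ] V) (hT : ∀ y, ‖T y‖ = ‖y‖) (y : Y) : adj T (T y) = y := by
  refine ext_inner_right ℝ fun y' => ?_
  rw [ContinuousLinearMap.adjoint_inner_left]
  let T' : Y →ₗᵢ[ℝ] V := ⟨T.toLinearMap, hT⟩
  exact T'.inner_map_map y y'

theorem norm_adj_le (T : Y →L[ℝ] V) (hT : ∀ y, ‖T y‖ = ‖y‖) (w : V) : ‖adj T w‖ ≤ ‖w‖ := by
  have h1 : ‖adj T‖ ≤ 1 := by
    rw [LinearIsometryEquiv.norm_map]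
    exact ContinuousLinearMap.opNorm_le_bound _ zero_le_one fun y => by rw [hT, one_mul]
  calc ‖adj T w‖ ≤ ‖adj T‖ * ‖w‖ := (adj T).le_opNorm w
    _ ≤ 1 * ‖w‖ := by gcongr
    _ = ‖w‖ := one_mul _

theorem norm_sq_split (T : Y →L[ℝ] V) (hT : ∀ y, ‖T y‖ = ‖y‖) (w : V) (g : Y) :
    ‖w - T (adj T w) + T g‖ ^ 2 = ‖w - T (adj T w)‖ ^ 2 + ‖g‖ ^ 2 := by
  have h : inner ℝ (w - T (adj T w)) (T g) = 0 := by
    rw [← ContinuousLinearMap.adjoint_inner_left, map_sub, adj_apply_self T hT, sub_self,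
      inner_zero_left]
  rw [norm_add_sq_real, h, hT]
  ring

theorem norm_toLp_sq {A B : Type} [NormedAddCommGroup A] [InnerProductSpace ℝ A]
    [NormedAddCommGroup B] [InnerProductSpace ℝ B] (x : A) (y : B) :
    ‖WithLp.toLp 2 (x, y)‖ ^ 2 = ‖x‖ ^ 2 + ‖y‖ ^ 2 := WithLp.prod_norm_sq_eq_of_L2 _

theorem rot_eq (J : WithLp 2 (H × Y) ≃ₗᵢ[ℝ] Y) (T : Y →L[ℝ] V) (v : HV H) :
    rot J T v = v.snd - T (adj T v.snd) + T (J (WithLp.toLp 2 (v.fst, adj T v.snd))) := by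
  unfold rot uu
  rw [map_sub]; abel

theorem norm_rot (J : WithLp 2 (H × Y) ≃ₗᵢ[ℝ] Y) (T : Y →L[ℝ] V) (hT : ∀ y, ‖T y‖ = ‖y‖) (v : HV H) :
    ‖rot J T v‖ = ‖v‖ := by
  have h1 := norm_sq_split T hT v.snd (J (WithLp.toLp 2 (v.fst, adj T v.snd)))
  have h2 := norm_sq_split T hT v.snd (adj T v.snd)
  have h3 := norm_toLp_sq v.fst (adj T v.snd)
  have h4 := WithLp.prod_norm_sq_eq_of_L2 v
  rw [sub_add_cancel] at h2
  rw [LinearIsometryEquiv.norm_map, h3] at h1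
  refine (sq_eq_sq₀ (norm_nonneg _) (norm_nonneg _)).1 ?_
  rw [rot_eq, h1, h4, h2]
  ring

theorem rot_surjective (J : WithLp 2 (H × Y) ≃ₗᵢ[ℝ] Y) (T : Y →L[ℝ] V) (hT : ∀ y, ‖T y‖ = ‖y‖) :
    Function.Surjective (rot J T) := by
  intro z
  refine ⟨WithLp.toLp 2 ((J.symm (adj T z)).fst, z - T (adj T z) + T (J.symm (adj T z)).snd), ?_⟩
  rw [rot_eq]
  change (z - T (adj T z) + T (J.symm (adj T z)).snd) -
        T (adj T (z - T (adj T z) + T (J.symm (adj T z)).snd)) +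
        T (J (WithLp.toLp 2 ((J.symm (adj T z)).fst,
          adj T (z - T (adj T z) + T (J.symm (adj T z)).snd)))) = z
  have h1 : adj T (z - T (adj T z) + T (J.symm (adj T z)).snd) = (J.symm (adj T z)).snd := by
    rw [map_add, map_sub, adj_apply_self T hT, adj_apply_self T hT, sub_self, zero_add]
  have h2 : WithLp.toLp 2 ((J.symm (adj T z)).fst, (J.symm (adj T z)).snd) = J.symm (adj T z) := rfl
  rw [h1, h2, LinearIsometryEquiv.apply_symm_apply]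
  abel

omit [InnerProductSpace ℝ H] in
/-- `max ‖x‖ ‖w‖ ≤ ‖(x, w)‖ ≤ √2 max ‖x‖ ‖w‖` -/
theorem norm_fst_le (v : HV H) : ‖v.fst‖ ≤ ‖v‖ := by
  have h := WithLp.prod_norm_sq_eq_of_L2 v
  refine (sq_le_sq₀ (norm_nonneg _) (norm_nonneg _)).1 ?_
  rw [h]
  nlinarith [sq_nonneg ‖v.snd‖]

omit [InnerProductSpace ℝ H] in
theorem norm_snd_le (v : HV H) : ‖v.snd‖ ≤ ‖v‖ := by
  have h := WithLp.prod_norm_sq_eq_of_L2 v
  refine (sq_le_sq₀ (norm_nonneg _) (norm_nonneg _)).1 ?_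
  rw [h]
  nlinarith [sq_nonneg ‖v.fst‖]

omit [InnerProductSpace ℝ H] in
theorem norm_le_sqrt_two (v : HV H) (r : ℝ) (h1 : ‖v.fst‖ ≤ r) (h2 : ‖v.snd‖ ≤ r) :
    ‖v‖ ≤ Real.sqrt 2 * r := by
  have h := WithLp.prod_norm_sq_eq_of_L2 v
  have hr : 0 ≤ r := (norm_nonneg _).trans h1
  refine (sq_le_sq₀ (norm_nonneg _) (by positivity)).1 ?_
  rw [h, mul_pow, Real.sq_sqrt (by norm_num)]
  have e1 : ‖v.fst‖ ^ 2 ≤ r ^ 2 := by gcongr
  have e2 : ‖v.snd‖ ^ 2 ≤ r ^ 2 := by gcongr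
  linarith

/-- the rotated pair has norm at most `‖v‖` -/
theorem norm_J_le (J : WithLp 2 (H × Y) ≃ₗᵢ[ℝ] Y) (T : Y →L[ℝ] V) (hT : ∀ y, ‖T y‖ = ‖y‖) (v : HV H) :
    ‖J (WithLp.toLp 2 (v.fst, adj T v.snd))‖ ≤ ‖v‖ := by
  rw [LinearIsometryEquiv.norm_map]
  refine (sq_le_sq₀ (norm_nonneg _) (norm_nonneg _)).1 ?_
  have h3 := norm_toLp_sq v.fst (adj T v.snd)
  have h4 := WithLp.prod_norm_sq_eq_of_L2 v
  rw [h3, h4]
  have h5 := norm_adj_le T hT v.snd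
  have : ‖adj T v.snd‖ ^ 2 ≤ ‖v.snd‖ ^ 2 := by gcongr
  linarith

theorem norm_uu_le (J : WithLp 2 (H × Y) ≃ₗᵢ[ℝ] Y) (T : Y →L[ℝ] V) (hT : ∀ y, ‖T y‖ = ‖y‖) (v : HV H) :
    ‖uu J T v‖ ≤ 2 * ‖v‖ := by
  unfold uu
  refine (norm_sub_le _ _).trans ?_
  have h1 := norm_J_le J T hT v
  have h2 := (norm_adj_le T hT v.snd).trans (norm_snd_le v)
  linarith

theorem norm_uu_sub_le (J : WithLp 2 (H × Y) ≃ₗᵢ[ℝ] Y) (T T' : Y →L[ℝ] V) (v : HV H) :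
    ‖uu J T v - uu J T' v‖ ≤ 2 * ‖T - T'‖ * ‖v‖ := by
  have h3 : ‖adj T v.snd - adj T' v.snd‖ ≤ ‖T - T'‖ * ‖v‖ := by
    have h1 : adj T v.snd - adj T' v.snd = adj (T - T') v.snd := by
      rw [map_sub]; rfl
    rw [h1]
    calc ‖adj (T - T') v.snd‖ ≤ ‖adj (T - T')‖ * ‖v.snd‖ := (adj (T - T')).le_opNorm _
      _ = ‖T - T'‖ * ‖v.snd‖ := by rw [LinearIsometryEquiv.norm_map]
      _ ≤ ‖T - T'‖ * ‖v‖ := by
          have := norm_snd_le v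
          gcongr
  have h4 : ‖J (WithLp.toLp 2 (v.fst, adj T v.snd)) - J (WithLp.toLp 2 (v.fst, adj T' v.snd))‖ ≤
      ‖T - T'‖ * ‖v‖ := by
    have e2 : WithLp.toLp 2 (v.fst, adj T v.snd) - WithLp.toLp 2 (v.fst, adj T' v.snd) =
        WithLp.toLp 2 ((0 : H), adj T v.snd - adj T' v.snd) := by
      rw [← WithLp.toLp_sub, Prod.mk_sub_mk, sub_self]
    rw [← map_sub, LinearIsometryEquiv.norm_map, e2]
    have h5 : ‖WithLp.toLp 2 ((0 : H), adj T v.snd - adj T' v.snd)‖ ^ 2 =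
        ‖adj T v.snd - adj T' v.snd‖ ^ 2 := by
      rw [norm_toLp_sq, norm_zero]; ring
    rw [(sq_eq_sq₀ (norm_nonneg _) (norm_nonneg _)).1 h5]
    exact h3
  have e : uu J T v - uu J T' v =
      (J (WithLp.toLp 2 (v.fst, adj T v.snd)) - J (WithLp.toLp 2 (v.fst, adj T' v.snd))) -
        (adj T v.snd - adj T' v.snd) := by
    unfold uu; abel
  rw [e]
  refine (norm_sub_le _ _).trans ?_
  linarith

theorem norm_rot_sub_rot_le (J : WithLp 2 (H × Y) ≃ₗᵢ[ℝ] Y) (T T' : Y →L[ℝ] V)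
    (hT : ∀ y, ‖T y‖ = ‖y‖) (hT' : ∀ y, ‖T' y‖ = ‖y‖) (v : HV H) :
    ‖rot J T v - rot J T' v‖ ≤ 4 * ‖T - T'‖ * ‖v‖ := by
  have e : rot J T v - rot J T' v = (T - T') (uu J T v) + T' (uu J T v - uu J T' v) := by
    unfold rot
    rw [map_sub]
    show v.snd + T (uu J T v) - (v.snd + T' (uu J T' v)) =
      (T (uu J T v) - T' (uu J T v)) + (T' (uu J T v) - T' (uu J T' v))
    abel
  rw [e]
  refine (norm_add_le _ _).trans ?_
  rw [hT']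
  have h1 : ‖(T - T') (uu J T v)‖ ≤ ‖T - T'‖ * (2 * ‖v‖) := by
    refine ((T - T').le_opNorm _).trans ?_
    have := norm_uu_le J T hT v
    gcongr
  have h2 := norm_uu_sub_le J T T' v
  linarith

end Crest.Agent.R091
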